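import Vale.Agent.P247.H743.JDc
import Vale.Agent.P247.H574.Sta2

/-!
# P247: the package JD
-/

open scoped ContDiff Topology
open Set MeasureTheory Filter Metric

noncomputable section

namespace Vale.Agent.P247.H743

open Vale.Agent.P247.H74 Vale.Agent.P247.H574

/-- The strong form: the conclusion of `JD` together with `C⁰` closeness, the exact values
`Ξ (l, z, 0) = x₀ + ε z h` and `∂_y Ξ (l, z, 0) = ε (v + l h)`. No nondegeneracy is needed. -/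
theorem JD3 (D : Data) (K δ : ℝ) (hδ : 0 < δ) : ∃ ε₀ > 0, ∀ ε, 0 < ε → ε ≤ ε₀ →
    ∀ x₀ v h : R4, ‖v‖ ≤ K → ‖h‖ ≤ K → ∃ Ξ : ℂ × ℂ × ℂ → R4,
    ContDiffOn ℝ ∞ Ξ (ball (0 : ℂ) 2 ×ˢ ball (0 : ℂ) 2 ×ˢ ball (0 : ℂ) 2) ∧
    (∀ q ∈ ball (0 : ℂ) 2 ×ˢ ball (0 : ℂ) 2 ×ˢ ball (0 : ℂ) 2,
      fderiv ℝ Ξ q (0, 0, Complex.I) = D.J (Ξ q) (fderiv ℝ Ξ q (0, 0, 1)) ∧
      ‖Ξ q - lmod D x₀ v h ε q‖ ≤ ε * δ ∧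
      ‖fderiv ℝ Ξ q - fderiv ℝ (lmod D x₀ v h ε) q‖ ≤ ε * δ ∧
      ‖fderiv ℝ (fderiv ℝ Ξ) q - fderiv ℝ (fderiv ℝ (lmod D x₀ v h ε)) q‖ ≤ ε * δ) ∧
    ∀ l ∈ ball (0 : ℂ) 2, ∀ z ∈ ball (0 : ℂ) 2, Ξ (l, z, 0) = x₀ + ε • cm D x₀ z h ∧
      fderiv ℝ Ξ (l, z, 0) (0, 0, 1) = ε • (v + cm D x₀ l h) := by
  obtain ⟨ε₀, hε₀, hmain⟩ := fam D.J_smooth D.J_sq D.J_per K hδ
  refine ⟨ε₀, hε₀, fun ε hε hle x₀ v h hv hh => ?_⟩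
  obtain ⟨Ξ, hΞ⟩ := hmain ε hε hle x₀ v h hv hh
  exact ⟨Ξ, hΞ.smooth, fun q hq => ⟨hΞ.hol q hq, hΞ.c0 q hq, hΞ.c1 q hq, hΞ.c2 q hq⟩,
    fun l hl z hz => ⟨hΞ.base l hl z hz, hΞ.dir l hl z hz⟩⟩

theorem JD : JD_statement := by
  intro D K δ hK hδ
  obtain ⟨ε₀, hε₀, hmain⟩ := JD3 D K δ hδ
  refine ⟨ε₀, hε₀, fun ε hε hle x₀ v h hv hh _ => ?_⟩
  obtain ⟨Ξ, h1, h2, h3⟩ := hmain ε hε hle x₀ v h hv hh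
  refine ⟨Ξ, h1, fun q hq => ⟨(h2 q hq).1, (h2 q hq).2.2.1, (h2 q hq).2.2.2⟩, fun l hl => ?_⟩
  rw [(h3 l hl 0 (mem_ball_self (by norm_num))).1]
  unfold cm
  simp

end Vale.Agent.P247.H743
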