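import Vale.Agent.P247.H743.Edec9
import Vale.Agent.P247.H514.Hole
import Vale.Agent.P247.H324.MG.Def

/-!
# P247, energy decay: the theorem
-/

open scoped ContDiff Topology Real
open Set MeasureTheory Filter Metric

noncomputable section

namespace Vale.Agent.P247.H743.E

open Vale.Agent.P247.H574 Vale.Agent.P247.H74

section

variable {N : ℕ} {ρ : ℝ} {Y P Q : ℂ → Fin N → ℂ} {R : Measure (ℂ × ℂ)}

theorem Pre.decay (h : Pre N ρ Y P Q R) {c C₁ : ℝ} (hc : 0 < c) (hC₁ : 0 ≤ C₁)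
    (hPQ : ∀ z ∈ ball (0 : ℂ) 1, ∀ i, ‖Q z i‖ ^ 2 ≤ (1 - c) * ‖P z i‖ ^ 2 + C₁) :
    ∃ C γ : ℝ, 0 ≤ C ∧ 0 < γ ∧ ∀ x ∈ ball (0 : ℂ) (1 / 4), ∀ t, 0 < t →
      eng P x t ≤ C * t ^ (2 * γ) := by
  obtain ⟨θ, B, hθ, hθ1, hB, hs⟩ := h.step hc hC₁ hPQ
  have hp0 : ∀ z, 0 ≤ ∑ i, ‖P z i‖ ^ 2 := fun z => Finset.sum_nonneg fun i _ => by positivity
  obtain ⟨C, γ, hC, hγ, hh⟩ := H514.hole hθ hθ1 hB
    (M := ∫ z in ball (0 : ℂ) 1, ∑ i, ‖P z i‖ ^ 2) (integral_nonneg hp0)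
  refine ⟨C, γ, hC, hγ, fun x hx t ht => ?_⟩
  refine hh (eng P x) ?_ ?_ ?_ (hs x hx) t ht
  · intro s t hst
    refine setIntegral_mono_set (h.int_p.mono_set inter_subset_left)
      (Eventually.of_forall fun z => hp0 z) ?_
    exact (inter_subset_inter_right _ (ball_subset_ball hst)).eventuallyLE
  · intro t
    exact integral_nonneg hp0
  · intro t
    exact setIntegral_mono_set h.int_p (Eventually.of_forall fun z => hp0 z)
      inter_subset_left.eventuallyLE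

end

theorem meas_ind {f : ℂ × ℂ → ℂ} (hf : ContinuousOn f (PD 2)) : Measurable ((PD 2).indicator f) := by
  classical
  have ho : IsOpen (PD 2) := isOpen_ball.prod isOpen_ball
  rw [← piecewise_eq_indicator]
  exact hf.measurable_piecewise continuousOn_const ho.measurableSet

/-- the function `Q = m P + A` -/
def QQ {N : ℕ} (m A : ℂ × ℂ → ℂ) (Y P : ℂ → Fin N → ℂ) (z : ℂ) (i : Fin N) : ℂ :=
  (PD 2).indicator m (z, Y z i) * P z i + (PD 2).indicator A (z, Y z i)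

section

variable {N : ℕ} {m A : ℂ × ℂ → ℂ} {ρ : ℝ} {Y P : ℂ → Fin N → ℂ} {R : Measure (ℂ × ℂ)}

theorem QQ_eq (hρ : ρ < 1) (h : MG2 N m A ρ Y P R) {z : ℂ} (hz : z ∈ ball (0 : ℂ) 1) (i : Fin N) :
    QQ m A Y P z i = m (z, Y z i) * P z i + A (z, Y z i) := by
  have h1 : (z, Y z i) ∈ PD 2 := by
    refine ⟨ball_subset_ball (by norm_num) hz, ?_⟩
    rw [mem_ball_zero_iff]
    have := h.bdd z i
    show ‖Y z i‖ < 2
    linarith
  unfold QQ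
  rw [indicator_of_mem h1, indicator_of_mem h1]

theorem bound_mA (hm : ContDiffOn ℝ ∞ m (PD 2)) (hA : ContDiffOn ℝ ∞ A (PD 2))
    (hm1 : ∀ p ∈ PD 2, ‖m p‖ < 1) : ∃ c C₁ : ℝ, 0 < c ∧ 0 ≤ C₁ ∧
      ∀ p ∈ closedBall (0 : ℂ) 1 ×ˢ closedBall (0 : ℂ) 1, ∀ a : ℂ,
        ‖m p * a + A p‖ ^ 2 ≤ (1 - c) * ‖a‖ ^ 2 + C₁ := by
  have hsub : closedBall (0 : ℂ) 1 ×ˢ closedBall (0 : ℂ) 1 ⊆ PD 2 :=
    prod_mono (closedBall_subset_ball (by norm_num)) (closedBall_subset_ball (by norm_num))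
  have hc : IsCompact (closedBall (0 : ℂ) 1 ×ˢ closedBall (0 : ℂ) 1) :=
    (isCompact_closedBall _ _).prod (isCompact_closedBall _ _)
  have h0 : ((0 : ℂ), (0 : ℂ)) ∈ closedBall (0 : ℂ) 1 ×ˢ closedBall (0 : ℂ) 1 :=
    ⟨mem_closedBall_self zero_le_one, mem_closedBall_self zero_le_one⟩
  obtain ⟨p₀, hp₀, hmax⟩ := hc.exists_isMaxOn ⟨_, h0⟩ (hm.continuousOn.mono hsub).norm
  obtain ⟨C₀, hC₀⟩ := hc.exists_bound_of_continuousOn (hA.continuousOn.mono hsub)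
  have hC00 : 0 ≤ C₀ := (norm_nonneg _).trans (hC₀ _ h0)
  set κ := ‖m p₀‖ with hκ
  have hκ1 : κ < 1 := hm1 _ (hsub hp₀)
  have hκ0 : 0 ≤ κ := norm_nonneg _
  set δ := (1 - κ ^ 2) / 2 with hδ
  have hδ0 : 0 < δ := by
    rw [hδ]
    nlinarith
  refine ⟨δ, C₀ ^ 2 + κ ^ 2 * C₀ ^ 2 / δ, hδ0, by positivity, fun p hp a => ?_⟩
  have h1 : ‖m p * a + A p‖ ≤ κ * ‖a‖ + C₀ := by
    refine (norm_add_le _ _).trans ?_
    rw [norm_mul]
    exact add_le_add (mul_le_mul_of_nonneg_right (hmax hp) (norm_nonneg _)) (hC₀ p hp)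
  have h2 : ‖m p * a + A p‖ ^ 2 ≤ (κ * ‖a‖ + C₀) ^ 2 :=
    pow_le_pow_left₀ (norm_nonneg _) h1 2
  have h3 : 0 ≤ δ * (‖a‖ - κ * C₀ / δ) ^ 2 := by positivity
  have h4 : δ * (‖a‖ - κ * C₀ / δ) ^ 2 =
      δ * ‖a‖ ^ 2 - 2 * κ * C₀ * ‖a‖ + κ ^ 2 * C₀ ^ 2 / δ := by
    field_simp
    ring
  have h5 : (1 - δ) * ‖a‖ ^ 2 = δ * ‖a‖ ^ 2 + κ ^ 2 * ‖a‖ ^ 2 := by
    rw [hδ]
    ring
  rw [h4] at h3
  nlinarith

theorem bound_Q (hm : ContDiffOn ℝ ∞ m (PD 2)) (hA : ContDiffOn ℝ ∞ A (PD 2))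
    (hm1 : ∀ p ∈ PD 2, ‖m p‖ < 1) (hρ : ρ < 1) (h : MG2 N m A ρ Y P R) :
    ∃ c C₁ : ℝ, 0 < c ∧ 0 ≤ C₁ ∧ ∀ z ∈ ball (0 : ℂ) 1, ∀ i,
      ‖QQ m A Y P z i‖ ^ 2 ≤ (1 - c) * ‖P z i‖ ^ 2 + C₁ := by
  obtain ⟨c, C₁, hc, hC₁, hb⟩ := bound_mA hm hA hm1
  refine ⟨c, C₁, hc, hC₁, fun z hz i => ?_⟩
  rw [QQ_eq hρ h hz i]
  refine hb _ ⟨ball_subset_closedBall hz, ?_⟩ _
  rw [mem_closedBall_zero_iff]
  exact (h.bdd z i).trans hρ.le

theorem toPre (hm : ContDiffOn ℝ ∞ m (PD 2)) (hA : ContDiffOn ℝ ∞ A (PD 2))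
    (hm1 : ∀ p ∈ PD 2, ‖m p‖ < 1) (hρ : ρ < 1) (h : MG2 N m A ρ Y P R) :
    Pre N ρ Y P (QQ m A Y P) R := by
  have hM : MeasurableSet (ball (0 : ℂ) 1) := measurableSet_ball
  have hpair : ∀ i, Measurable fun z => (z, Y z i) := fun i => measurable_id.prodMk (h.measY i)
  have hmQ : ∀ i, Measurable fun z => QQ m A Y P z i := fun i =>
    (((meas_ind hm.continuousOn).comp (hpair i)).mul (h.measP i)).add
      ((meas_ind hA.continuousOn).comp (hpair i))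
  have hsP : ∀ i, IntegrableOn (fun z => ‖P z i‖ ^ 2) (ball 0 1) := fun i => by
    refine Integrable.mono' h.energy ((h.measP i).norm.pow_const 2).aestronglyMeasurable
      (Eventually.of_forall fun z => ?_)
    rw [Real.norm_of_nonneg (by positivity)]
    exact Finset.single_le_sum (f := fun i => ‖P z i‖ ^ 2) (fun i _ => by positivity)
      (Finset.mem_univ i)
  obtain ⟨c, C₁, hc, hC₁, hb⟩ := bound_Q hm hA hm1 hρ h
  have hsQ : ∀ i, IntegrableOn (fun z => ‖QQ m A Y P z i‖ ^ 2) (ball 0 1) := fun i => by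
    refine Integrable.mono' (((hsP i).const_mul (1 - c)).add (integrable_const C₁))
      ((hmQ i).norm.pow_const 2).aestronglyMeasurable ?_
    filter_upwards [ae_restrict_mem hM] with z hz
    rw [Real.norm_of_nonneg (by positivity)]
    exact hb z hz i
  refine ⟨h.measY, h.measP, hmQ, h.bdd, hρ, ?_, ?_, ?_, ?_, h.Rfin, h.Rsupp, ?_⟩
  · exact fun i => (memLp_two_iff_integrable_sq_norm (h.measP i).aestronglyMeasurable).2 (hsP i)
  · exact fun i => (memLp_two_iff_integrable_sq_norm (hmQ i).aestronglyMeasurable).2 (hsQ i)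
  · intro f hf hfc hfs
    refine Eq.trans ?_ (h.chain f hf hfc hfs)
    refine setIntegral_congr_fun hM fun z hz => ?_
    exact Finset.sum_congr rfl fun i _ => by rw [QQ_eq hρ h hz i]
  · intro f hf hfc hfs
    refine Eq.trans ?_ (h.chainb f hf hfc hfs)
    refine setIntegral_congr_fun hM fun z hz => ?_
    exact Finset.sum_congr rfl fun i _ => by rw [QQ_eq hρ h hz i]
  · intro f hf hfc hfs
    refine Eq.trans ?_ (h.quad f hf hfc hfs)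
    congr 1
    refine setIntegral_congr_fun hM fun z hz => ?_
    exact Finset.sum_congr rfl fun i _ => by rw [QQ_eq hρ h hz i]

/-- **Energy decay.** -/
theorem EDEC0 (hm : ContDiffOn ℝ ∞ m (PD 2)) (hA : ContDiffOn ℝ ∞ A (PD 2))
    (hm1 : ∀ p ∈ PD 2, ‖m p‖ < 1) (hρ : ρ < 1) (h : MG2 N m A ρ Y P R) :
    ∃ C γ : ℝ, 0 ≤ C ∧ 0 < γ ∧ ∀ x ∈ ball (0 : ℂ) (1 / 4), ∀ t, 0 < t →
      ∫ z in ball (0 : ℂ) 1 ∩ ball x t, ∑ i, ‖P z i‖ ^ 2 ≤ C * t ^ (2 * γ) := by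
  obtain ⟨c, C₁, hc, hC₁, hb⟩ := bound_Q hm hA hm1 hρ h
  exact (toPre hm hA hm1 hρ h).decay hc hC₁ hb

end

/-- **Energy decay**, in the form used by the package PUI. -/
theorem EDEC : Vale.Agent.P247.H324.EDEC_statement := by
  intro N m A ρ Y P R hm hA hm1 hρ h
  obtain ⟨C, γ, hC, hγ, hd⟩ := EDEC0 hm hA hm1 hρ h
  refine ⟨C * 2 ^ (2 * γ), γ, 1 / 4, hγ, by norm_num, by norm_num, fun x t ht => ?_⟩
  by_cases hne : (ball x t ∩ ball (0 : ℂ) (1 / 4)).Nonempty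
  · obtain ⟨y, hy1, hy2⟩ := hne
    have hsub : ball x t ∩ ball (0 : ℂ) (1 / 4) ⊆ ball (0 : ℂ) 1 ∩ ball y (2 * t) := by
      intro z hz
      refine ⟨ball_subset_ball (by norm_num) hz.2, ?_⟩
      have h1 := mem_ball.1 hz.1
      have h2 := mem_ball'.1 hy1
      rw [mem_ball]
      linarith [dist_triangle z x y]
    have h1 := hd y hy2 (2 * t) (by positivity)
    have hint : IntegrableOn (fun z => ∑ i, ‖P z i‖ ^ 2) (ball (0 : ℂ) 1 ∩ ball y (2 * t)) :=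
      h.energy.mono_set inter_subset_left
    have h2 : ∫⁻ z in ball (0 : ℂ) 1 ∩ ball y (2 * t), ∑ i, ‖P z i‖ₑ ^ 2 =
        ENNReal.ofReal (∫ z in ball (0 : ℂ) 1 ∩ ball y (2 * t), ∑ i, ‖P z i‖ ^ 2) := by
      rw [ofReal_integral_eq_lintegral_ofReal hint
        (Eventually.of_forall fun z => Finset.sum_nonneg fun i _ => by positivity)]
      refine lintegral_congr fun z => ?_
      rw [ENNReal.ofReal_sum_of_nonneg fun i _ => by positivity]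
      refine Finset.sum_congr rfl fun i _ => ?_
      rw [ENNReal.ofReal_pow (norm_nonneg _), ofReal_norm]
    calc ∫⁻ z in ball x t ∩ ball (0 : ℂ) (1 / 4), ∑ i, ‖P z i‖ₑ ^ 2
        ≤ ∫⁻ z in ball (0 : ℂ) 1 ∩ ball y (2 * t), ∑ i, ‖P z i‖ₑ ^ 2 :=
          lintegral_mono_set hsub
      _ = ENNReal.ofReal (∫ z in ball (0 : ℂ) 1 ∩ ball y (2 * t), ∑ i, ‖P z i‖ ^ 2) := h2
      _ ≤ ENNReal.ofReal (C * (2 * t) ^ (2 * γ)) := ENNReal.ofReal_le_ofReal h1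
      _ = ENNReal.ofReal (C * 2 ^ (2 * γ) * t ^ (2 * γ)) := by
          rw [Real.mul_rpow (by norm_num) ht.le, mul_assoc]
  · rw [not_nonempty_iff_eq_empty] at hne
    rw [hne]
    simp

end Vale.Agent.P247.H743.E
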