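import Vale.Agent.P247.H743.Equiv

/-!
# P247, package A-EQ: the fibration by tori
-/

open scoped ContDiff Topology
open Set MeasureTheory Filter Metric

noncomputable section

namespace Vale.Agent.P247.H743

open Vale.Agent.P247.H74

/-! ## Centring -/

/-- change of the origin of the parameters -/
def rc (f : P2 → R4) (a : P2) (p : P2) : R4 := lin a + f (p + a)

theorem phi_rc (f : P2 → R4) (a p : P2) : phi (rc f a) p = phi f (p + a) := by
  unfold phi rc
  rw [lin_add]
  abel

theorem ds_rc (f : P2 → R4) (a p : P2) : ds (phi (rc f a)) p = ds (phi f) (p + a) := by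
  unfold ds
  have : phi (rc f a) = fun p => phi f (p + a) := by
    funext q; exact phi_rc f a q
  rw [this, fderiv_comp_add_right]

theorem dt_rc (f : P2 → R4) (a p : P2) : dt (phi (rc f a)) p = dt (phi f) (p + a) := by
  unfold dt
  have : phi (rc f a) = fun p => phi f (p + a) := by
    funext q; exact phi_rc f a q
  rw [this, fderiv_comp_add_right]

theorem JT_rc {D : Data} {f : P2 → R4} {τ : ℂ} (h : JT D f τ) (a : P2) : JT D (rc f a) τ where
  smooth := contDiff_const.add (h.smooth.comp (contDiff_id.add contDiff_const))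
  per := fun m n p => by
    unfold rc
    have h1 := h.per m n (p + a)
    have h2 : ((p.1 + m, p.2 + n) : P2) + a = ((p + a).1 + m, (p + a).2 + n) := by
      ext
      · simp; ring
      · simp; ring
    rw [h2, h1]
  im_pos := h.im_pos
  eq := fun p => by
    rw [ds_rc, dt_rc, phi_rc]
    exact h.eq _

theorem Imm_rc {f : P2 → R4} (h : Imm f) (a : P2) : Imm (rc f a) := fun p => by
  rw [ds_rc]; exact h _

theorem Inj_rc {f : P2 → R4} (h : Inj f) (a : P2) : Inj (rc f a) := fun p q hpq => by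
  rw [phi_rc, phi_rc] at hpq
  exact add_right_cancel (h hpq)

theorem Cen_rc {f : P2 → R4} (hf : Continuous f) (hp : Per f) :
    Cen (rc f (-(mean fun p => f p 2), -(mean fun p => f p 3))) := by
  set a : P2 := (-(mean fun p => f p 2), -(mean fun p => f p 3)) with ha
  have c2 : Continuous fun p : P2 => f p 2 := (continuous_apply 2).comp hf
  have c3 : Continuous fun p : P2 => f p 3 := (continuous_apply 3).comp hf
  have p2 : Per fun p : P2 => f p 2 := fun m n p => congrFun (hp m n p) 2
  have p3 : Per fun p : P2 => f p 3 := fun m n p => congrFun (hp m n p) 3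
  refine ⟨?_, ?_⟩
  · have h1 : (fun p => rc f a p 2) = fun p => a.1 + (fun q : P2 => f q 2) (p + a) := by
      funext p
      show lin a 2 + f (p + a) 2 = _
      rw [lin_apply_two]
    have c4 : Continuous fun p : P2 => (fun q : P2 => f q 2) (p + a) :=
      c2.comp (continuous_id.add continuous_const)
    rw [h1, mean_add continuous_const c4, mean_const, mean_translate c2 p2]
    simp [ha]
  · have h1 : (fun p => rc f a p 3) = fun p => a.2 + (fun q : P2 => f q 3) (p + a) := by
      funext p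
      show lin a 3 + f (p + a) 3 = _
      rw [lin_apply_three]
    have c4 : Continuous fun p : P2 => (fun q : P2 => f q 3) (p + a) :=
      c3.comp (continuous_id.add continuous_const)
    rw [h1, mean_add continuous_const c4, mean_const, mean_translate c3 p3]
    simp [ha]

/-! ## A smooth bijection with invertible derivatives has a smooth inverse -/

theorem contDiff_inverse {E E' : Type*} [NormedAddCommGroup E] [NormedSpace ℝ E]
    [CompleteSpace E] [NormedAddCommGroup E'] [NormedSpace ℝ E'] {f : E → E'} {g : E' → E}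
    (hf : ContDiff ℝ ∞ f) (hfg : ∀ y, f (g y) = y) (hgf : ∀ x, g (f x) = x)
    (f' : E → E ≃L[ℝ] E') (hf' : ∀ x, HasFDerivAt f (f' x : E →L[ℝ] E') x) :
    ContDiff ℝ ∞ g := by
  rw [contDiff_iff_contDiffAt]
  intro y
  obtain ⟨x, rfl⟩ : ∃ x, f x = y := ⟨g y, hfg y⟩
  have h1 : HasStrictFDerivAt f (f' x : E →L[ℝ] E') x :=
    hf.contDiffAt.hasStrictFDerivAt' (hf' x) (by simp)
  have h2 := (hf.contDiffAt (x := x)).to_localInverse (hf' x) (by simp)
  have h3 := h1.eventually_right_inverse
  refine h2.congr_of_eventuallyEq ?_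
  filter_upwards [h3] with z hz
  have h4 : g z = g (f (h1.localInverse f (f' x) x z)) := by rw [hz]
  rw [h4, hgf]
  rfl

/-! ## The coordinate change -/

theorem Lk_add (D : Data) (u v : R4) : Lk D (u + v) = Lk D u + Lk D v := by
  unfold Lk
  rw [map_add, map_add]
  ext
  · simp; ring
  · simp; ring

theorem Lk_smul (D : Data) (c : ℝ) (v : R4) : Lk D (c • v) = c • Lk D v := by
  unfold Lk
  rw [map_smul, map_smul]
  ext <;> simp

/-- `x ↦ (Lk (x₀ e₀ + x₁ e₁), (x₂, x₃))` -/
def Alin (D : Data) : R4 →ₗ[ℝ] P2 × P2 where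
  toFun x := (Lk D (x 0 • e 0 + x 1 • e 1), (x 2, x 3))
  map_add' x y := by
    have : (x + y) 0 • e 0 + (x + y) 1 • e 1 = (x 0 • e 0 + x 1 • e 1) + (y 0 • e 0 + y 1 • e 1) := by
      simp only [Pi.add_apply, add_smul]
      abel
    rw [this, Lk_add]
    rfl
  map_smul' c x := by
    have : (c • x) 0 • e 0 + (c • x) 1 • e 1 = c • (x 0 • e 0 + x 1 • e 1) := by
      simp only [Pi.smul_apply, smul_eq_mul, smul_add, smul_smul]
    rw [this, Lk_smul]
    rfl

theorem Alin_inj (D : Data) : Function.Injective (Alin D) := by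
  rw [injective_iff_map_eq_zero]
  intro x hx
  have h1 : Lk D (x 0 • e 0 + x 1 • e 1) = 0 := (Prod.mk.inj hx).1
  have h2 : ((x 2, x 3) : P2) = 0 := (Prod.mk.inj hx).2
  have h3 : x 2 = 0 := (Prod.mk.inj h2).1
  have h4 : x 3 = 0 := (Prod.mk.inj h2).2
  unfold Lk at h1
  have h5 := (Prod.mk.inj h1).1
  have h6 := (Prod.mk.inj h1).2
  rw [map_add, map_smul, map_smul, smul_eq_mul, smul_eq_mul] at h5 h6
  have hk := D.kne
  set A := (D.η 0).κ (e 2) (e 0)
  set B := (D.η 0).κ (e 2) (e 1)
  set C := (D.η 0).κ (e 3) (e 0)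
  set E := (D.η 0).κ (e 3) (e 1)
  have h7 : x 0 * (A * E - B * C) = 0 := by linear_combination (-E) * h5 + B * h6
  have h8 : x 1 * (A * E - B * C) = 0 := by linear_combination C * h5 - A * h6
  have h9 : x 0 = 0 := by
    rcases mul_eq_zero.1 h7 with h | h
    · exact h
    · exact absurd h hk
  have h10 : x 1 = 0 := by
    rcases mul_eq_zero.1 h8 with h | h
    · exact h
    · exact absurd h hk
  funext i
  fin_cases i
  · exact h9
  · exact h10
  · exact h3
  · exact h4

/-- the coordinate change as a continuous linear equivalence -/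
def AL (D : Data) : R4 ≃L[ℝ] P2 × P2 :=
  (LinearEquiv.ofBijective (Alin D) ⟨Alin_inj D, by
    have h1 : Module.finrank ℝ R4 = Module.finrank ℝ (P2 × P2) := by simp
    exact (LinearMap.injective_iff_surjective_of_finrank_eq_finrank h1).1 (Alin_inj D)⟩).toContinuousLinearEquiv

theorem AL_apply (D : Data) (x : R4) : AL D x = (Lk D (x 0 • e 0 + x 1 • e 1), (x 2, x 3)) := rfl

/-! ## Bilinearity of the value -/

theorem val_self (a : CForm) (x u : R4) : a.val x u u = 0 := by
  unfold CForm.val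
  rw [a.κ_self]
  ring

theorem κ_anti (a : CForm) (u v : R4) : a.κ u v = - a.κ v u := by
  have h := a.κ_self (u + v)
  rw [map_add, map_add, add_apply, add_apply, a.κ_self, a.κ_self] at h
  linarith

theorem val_comb (a : CForm) (x : R4) (p q r s : ℝ) (S W : R4) :
    a.val x (p • S + q • W) (r • S + s • W) = (p * s - q * r) * a.val x S W := by
  unfold CForm.val
  have h1 := κ_anti a W S
  have h2 := a.κ_self S
  have h3 := a.κ_self W
  simp only [map_add, map_smul, add_apply, smul_apply, smul_eq_mul]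
  rw [h1, h2, h3]
  ring

theorem val_JT {D : Data} {f : P2 → R4} {τ : ℂ} (h : JT D f τ) (j : Fin 2) (p : P2) :
    (D.η j).val (phi f p) (ds (phi f) p) (dt (phi f) p) = 0 := by
  rw [h.eq p]
  set S := ds (phi f) p
  set x := phi f p
  have h1 : (D.η j).val x S (τ.re • S + τ.im • D.J x S) = τ.im * (D.η j).val x S (D.J x S) := by
    have := val_comb (D.η j) x 1 0 τ.re τ.im S (D.J x S)
    rw [one_smul, zero_smul, add_zero] at this
    rw [this]
    ring
  rw [h1, D.η_J]
  have h2 : ∑ k, D.c x j k * (D.η k).val x S S = 0 := by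
    refine Finset.sum_eq_zero fun k _ => ?_
    rw [val_self, mul_zero]
  rw [h2, mul_zero]

theorem fderiv_tot_right {D : Data} {F : P2 → P2 → R4} {T : P2 → ℂ} (hF : Fam D univ F T)
    (y p : P2) (a b : ℝ) :
    fderiv ℝ (tot F) (y, p) (0, (a, b)) = a • ds (phi (F y)) p + b • dt (phi (F y)) p := by
  have h1 : DifferentiableAt ℝ (tot F) (y, p) := (contDiff_tot hF).differentiable (by simp) _
  have h2 : HasFDerivAt (fun p : P2 => (y, p)) (ContinuousLinearMap.inr ℝ P2 P2) p :=
    hasFDerivAt_prodMk_right y p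
  have h3 : fderiv ℝ (phi (F y)) p = (fderiv ℝ (tot F) (y, p)).comp
      (ContinuousLinearMap.inr ℝ P2 P2) := (h1.hasFDerivAt.comp p h2).fderiv
  have h4 : fderiv ℝ (tot F) (y, p) (0, (a, b)) = fderiv ℝ (phi (F y)) p (a, b) := by
    rw [h3]; rfl
  have h5 : ((a, b) : P2) = a • ((1 : ℝ), (0 : ℝ)) + b • ((0 : ℝ), (1 : ℝ)) := by
    ext <;> simp
  rw [h4, h5, map_add, map_smul, map_smul]
  rfl

theorem MACH (hGF : GF_statement) (hD : DPsi_statement) (hSURJ : SURJ_statement)
    (hEQ : EQ_statement) : MACH_statement := by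
  intro D f₀ τ₀ h₀ hI hJ
  obtain ⟨F, T, hF, hinj, -⟩ := hGF D (rc f₀ (-(mean fun p => f₀ p 2), -(mean fun p => f₀ p 3))) τ₀
    (JT_rc h₀ _) (Cen_rc h₀.smooth.continuous h₀.per) (Imm_rc hI _) (Inj_rc hJ _)
  have hsurj := (hSURJ D F T hF hinj).1
  have heq := hEQ D F T hF hinj
  have hsm := contDiff_tot hF
  set Ψ : R4 → R4 := fun x => tot F (AL D x) with hΨ
  have hΨsm : ContDiff ℝ ∞ Ψ := hsm.comp (AL D).contDiff
  have hbij : Function.Bijective Ψ :=
    ⟨hinj.comp (AL D).injective, hsurj.comp (AL D).surjective⟩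
  set eq := Equiv.ofBijective Ψ hbij with heq'
  have hfg : ∀ y, Ψ (eq.symm y) = y := fun y => eq.apply_symm_apply y
  have hgf : ∀ x, eq.symm (Ψ x) = x := fun x => eq.symm_apply_apply x
  have hder : ∀ x, ∃ L : R4 ≃L[ℝ] R4, HasFDerivAt Ψ (L : R4 →L[ℝ] R4) x := by
    intro x
    have h1 : HasFDerivAt Ψ ((fderiv ℝ (tot F) (AL D x)).comp (AL D : R4 →L[ℝ] P2 × P2)) x :=
      (hsm.differentiable (by simp) (AL D x)).hasFDerivAt.comp x (AL D).hasFDerivAt
    set M := (fderiv ℝ (tot F) (AL D x)).comp (AL D : R4 →L[ℝ] P2 × P2) with hM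
    have h2 : Function.Injective M := by
      have h3 := hD D univ F T isOpen_univ hF (AL D x).1 (mem_univ _) (AL D x).2
      rw [Prod.mk.eta] at h3
      exact h3.comp (AL D).injective
    refine ⟨(LinearEquiv.ofInjectiveEndo (M : R4 →ₗ[ℝ] R4) h2).toContinuousLinearEquiv, ?_⟩
    convert h1 using 1
    ext v : 1
    rfl
  choose Ψ' hΨ' using hder
  have hgsm : ContDiff ℝ ∞ (eq.symm : R4 → R4) := contDiff_inverse hΨsm hfg hgf Ψ' hΨ'
  have hΨper : ∀ (n : Fin 4 → ℤ) x, Ψ (fun i => x i + n i) = fun i => Ψ x i + n i := by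
    intro n x
    have h1 : AL D (fun i => x i + n i) = ((AL D x).1 + Lk D (vv (n 0) (n 1)),
        ((AL D x).2.1 + n 2, (AL D x).2.2 + n 3)) := by
      rw [AL_apply, AL_apply]
      simp only
      rw [← Lk_add]
      congr 2
      unfold vv
      rw [add_smul, add_smul]
      abel
    have h2 : Ψ (fun i => x i + n i) = phi (F ((AL D x).1 + Lk D (vv (n 0) (n 1))))
        ((AL D x).2.1 + n 2, (AL D x).2.2 + n 3) := by
      rw [hΨ]
      simp only
      rw [h1]
      rfl
    rw [h2, phi_per (hF.jt _ (mem_univ _)).per]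
    have h3 : F ((AL D x).1 + Lk D (vv (n 0) (n 1))) = tr (n 0) (n 1) (F (AL D x).1) :=
      heq (n 0) (n 1) (AL D x).1
    rw [h3, phi_tr]
    have h4 : Ψ x = phi (F (AL D x).1) (AL D x).2 := rfl
    have h5 : phi (F (AL D x).1) ((AL D x).2.1, (AL D x).2.2) = Ψ x := by rw [h4]
    funext i
    show phi (F (AL D x).1) (AL D x).2 i + vv (n 0) (n 1) i + lin ((n 2 : ℝ), (n 3 : ℝ)) i = _
    rw [← h4]
    fin_cases i
    · simp [vv_zero, lin_apply_zero]
    · simp [vv_one, lin_apply_one]
    · simp [vv_two, lin_apply_two]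
    · simp [vv_three, lin_apply_three]
  refine ⟨eq.symm, hgsm, ?_, Ψ, hΨsm, hgf, hfg, ?_⟩
  · intro n x
    have h1 := hΨper n (eq.symm x)
    rw [hfg] at h1
    rw [← h1, hgf]
  · intro x u v hu hv j
    have hdg : DifferentiableAt ℝ (eq.symm : R4 → R4) x := hgsm.differentiable (by simp) x
    have hkey : ∀ w, Stmt.Vertical eq.symm x w → ∃ a b : ℝ,
        w = a • ds (phi (F (AL D (eq.symm x)).1)) (AL D (eq.symm x)).2 +
          b • dt (phi (F (AL D (eq.symm x)).1)) (AL D (eq.symm x)).2 := by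
      intro w hw
      obtain ⟨w0, w1⟩ := hw
      rw [hdg.lineDeriv_eq_fderiv] at w0 w1
      set a := fderiv ℝ (eq.symm : R4 → R4) x w with ha
      have h1 : HasFDerivAt (fun y => Ψ (eq.symm y)) ((fderiv ℝ Ψ (eq.symm x)).comp
          (fderiv ℝ (eq.symm : R4 → R4) x)) x :=
        (hΨsm.differentiable (by simp) (eq.symm x)).hasFDerivAt.comp x hdg.hasFDerivAt
      have h2 : (fun y => Ψ (eq.symm y)) = id := by
        funext y; exact hfg y
      rw [h2] at h1
      have h3 : (fderiv ℝ Ψ (eq.symm x)).comp (fderiv ℝ (eq.symm : R4 → R4) x) =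
          ContinuousLinearMap.id ℝ R4 := h1.unique (hasFDerivAt_id x)
      have h4 : fderiv ℝ Ψ (eq.symm x) a = w := by
        have := congrArg (fun L : R4 →L[ℝ] R4 => L w) h3
        exact this
      have h5 : HasFDerivAt Ψ ((fderiv ℝ (tot F) (AL D (eq.symm x))).comp
          (AL D : R4 →L[ℝ] P2 × P2)) (eq.symm x) :=
        (hsm.differentiable (by simp) (AL D (eq.symm x))).hasFDerivAt.comp _ (AL D).hasFDerivAt
      rw [h5.fderiv] at h4
      have h6 : AL D a = (0, (a 2, a 3)) := by
        rw [AL_apply, w0, w1, zero_smul, zero_smul, add_zero]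
        have : Lk D 0 = 0 := by
          unfold Lk
          simp
        rw [this]
      have h7 : fderiv ℝ (tot F) (AL D (eq.symm x)) (AL D a) = w := h4
      rw [h6] at h7
      refine ⟨a 2, a 3, ?_⟩
      rw [← h7]
      exact fderiv_tot_right hF (AL D (eq.symm x)).1 (AL D (eq.symm x)).2 (a 2) (a 3)
    obtain ⟨a, b, hab⟩ := hkey u hu
    obtain ⟨c, d, hcd⟩ := hkey v hv
    have hx : x = phi (F (AL D (eq.symm x)).1) (AL D (eq.symm x)).2 := (hfg x).symm
    have h8 := val_JT (hF.jt (AL D (eq.symm x)).1 (mem_univ _)) j (AL D (eq.symm x)).2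
    rw [← hx] at h8
    rw [hab, hcd, val_comb, h8, mul_zero]

end Vale.Agent.P247.H743
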