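import Vale.Agent.P247.H74.Sta
import Vale.Agent.P247.H74.K2H.K2H
import Vale.Agent.P247.H832.N

/-!
# P247, package A-EQ: basic facts on families
-/

open scoped ContDiff Topology
open Set MeasureTheory Filter Metric

noncomputable section

namespace Vale.Agent.P247.H743

open Vale.Agent.P247.H74

/-- locally uniform convergence from joint continuity -/
theorem tlu_of_continuous {Y Z W : Type*} [TopologicalSpace Y] [TopologicalSpace Z]
    [LocallyCompactSpace Z] [UniformSpace W] {G : Y × Z → W} (hG : Continuous G) {yn : ℕ → Y}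
    {y : Y} (h : Tendsto yn atTop (𝓝 y)) :
    TendstoLocallyUniformly (fun n z => G (yn n, z)) (fun z => G (y, z)) atTop := by
  have h1 : Tendsto (fun n => (ContinuousMap.curry ⟨G, hG⟩) (yn n)) atTop
      (𝓝 ((ContinuousMap.curry ⟨G, hG⟩) y)) :=
    ((ContinuousMap.curry ⟨G, hG⟩).continuous.tendsto y).comp h
  exact ContinuousMap.tendsto_iff_tendstoLocallyUniformly.1 h1

/-- the family in the complex coordinate -/
def upF (F : P2 → P2 → R4) (T : P2 → ℂ) (q : P2 × ℂ) : R4 := up (F q.1) (T q.1) q.2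

theorem contDiffOn_tot {D : Data} {U : Set P2} {F : P2 → P2 → R4} {T : P2 → ℂ}
    (h : Fam D U F T) : ContDiffOn ℝ ∞ (tot F) (U ×ˢ univ) := by
  have h1 : tot F = fun q : P2 × P2 => lin q.2 + F q.1 q.2 := rfl
  rw [h1]
  exact (K2H.contDiff_lin.comp contDiff_snd).contDiffOn.add h.smooth

theorem contDiff_tot {D : Data} {F : P2 → P2 → R4} {T : P2 → ℂ}
    (h : Fam D univ F T) : ContDiff ℝ ∞ (tot F) := by
  have := contDiffOn_tot h
  rw [univ_prod_univ] at this
  exact contDiffOn_univ.1 this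

theorem contDiffOn_upF {D : Data} {U : Set P2} {F : P2 → P2 → R4} {T : P2 → ℂ}
    (h : Fam D U F T) : ContDiffOn ℝ ∞ (upF F T) (U ×ˢ univ) := by
  have hre : ContDiffOn ℝ ∞ (fun q : P2 × ℂ => (T q.1).re) (U ×ˢ univ) :=
    Complex.reCLM.contDiff.comp_contDiffOn (h.smoothT.comp contDiff_fst.contDiffOn
      fun q hq => hq.1)
  have him : ContDiffOn ℝ ∞ (fun q : P2 × ℂ => (T q.1).im) (U ×ˢ univ) :=
    Complex.imCLM.contDiff.comp_contDiffOn (h.smoothT.comp contDiff_fst.contDiffOn
      fun q hq => hq.1)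
  have hzr : ContDiffOn ℝ ∞ (fun q : P2 × ℂ => q.2.re) (U ×ˢ univ) :=
    (Complex.reCLM.contDiff.comp contDiff_snd).contDiffOn
  have hzi : ContDiffOn ℝ ∞ (fun q : P2 × ℂ => q.2.im) (U ×ˢ univ) :=
    (Complex.imCLM.contDiff.comp contDiff_snd).contDiffOn
  have hdiv : ContDiffOn ℝ ∞ (fun q : P2 × ℂ => q.2.im / (T q.1).im) (U ×ˢ univ) :=
    hzi.div him fun q hq => (h.jt q.1 hq.1).im_pos.ne'
  have hc : ContDiffOn ℝ ∞ (fun q : P2 × ℂ => coord (T q.1) q.2) (U ×ˢ univ) := by
    unfold coord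
    exact (hzr.sub (hre.mul hdiv)).prodMk hdiv
  have h2 : upF F T = fun q : P2 × ℂ => tot F (q.1, coord (T q.1) q.2) := rfl
  rw [h2]
  exact (contDiffOn_tot h).comp (contDiff_fst.contDiffOn.prodMk hc) fun q hq => ⟨hq.1, mem_univ _⟩

theorem fderiv_up_eq {D : Data} {U : Set P2} (hU : IsOpen U) {F : P2 → P2 → R4} {T : P2 → ℂ}
    (h : Fam D U F T) {y : P2} (hy : y ∈ U) (z : ℂ) :
    fderiv ℝ (up (F y) (T y)) z = (fderiv ℝ (upF F T) (y, z)).comp
      (ContinuousLinearMap.inr ℝ P2 ℂ) := by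
  have h1 : DifferentiableAt ℝ (upF F T) (y, z) :=
    ((contDiffOn_upF h).contDiffAt ((hU.prod isOpen_univ).mem_nhds ⟨hy, mem_univ _⟩)).differentiableAt
      (by simp)
  have h2 : HasFDerivAt (fun z : ℂ => (y, z)) (ContinuousLinearMap.inr ℝ P2 ℂ) z :=
    hasFDerivAt_prodMk_right y z
  exact (h1.hasFDerivAt.comp z h2).fderiv

theorem continuous_incl {W : Type*} [TopologicalSpace W] {U : Set P2} {G : P2 × ℂ → W}
    (h : ContinuousOn G (U ×ˢ univ)) : Continuous fun q : U × ℂ => G ((q.1 : P2), q.2) := by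
  have hinc : Continuous fun q : U × ℂ => ((q.1 : P2), q.2) := by fun_prop
  exact h.comp_continuous hinc fun q => ⟨q.1.2, mem_univ _⟩

theorem tlu_incl {W : Type*} [UniformSpace W] {U : Set P2} {G : P2 × ℂ → W}
    (h : ContinuousOn G (U ×ˢ univ)) {y : P2} (hy : y ∈ U) {yn : ℕ → P2} (hyn : ∀ n, yn n ∈ U)
    (hlim : Tendsto yn atTop (𝓝 y)) :
    TendstoLocallyUniformly (fun n z => G (yn n, z)) (fun z => G (y, z)) atTop := by
  have hlim' : Tendsto (fun n => (⟨yn n, hyn n⟩ : U)) atTop (𝓝 ⟨y, hy⟩) :=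
    tendsto_subtype_rng.2 hlim
  exact tlu_of_continuous (continuous_incl h) hlim'

/-- in a family the tori converge in `C¹` -/
theorem tendC1_fam {D : Data} {U : Set P2} (hU : IsOpen U) {F : P2 → P2 → R4} {T : P2 → ℂ}
    (h : Fam D U F T) {y : P2} (hy : y ∈ U) {yn : ℕ → P2} (hyn : ∀ n, yn n ∈ U)
    (hlim : Tendsto yn atTop (𝓝 y)) :
    TendC1 (fun n => up (F (yn n)) (T (yn n))) (up (F y) (T y)) := by
  have hopen : IsOpen (U ×ˢ (univ : Set ℂ)) := hU.prod isOpen_univ
  refine ⟨tlu_incl (contDiffOn_upF h).continuousOn hy hyn hlim, ?_⟩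
  have h1 : ContinuousOn (fun q => (fderiv ℝ (upF F T) q).comp
      (ContinuousLinearMap.inr ℝ P2 ℂ)) (U ×ˢ univ) :=
    ((contDiffOn_upF h).continuousOn_fderiv_of_isOpen hopen (by simp)).clm_comp
      continuousOn_const
  have h4 := tlu_incl h1 hy hyn hlim
  have e1 : (fun n => fderiv ℝ (up (F (yn n)) (T (yn n)))) = fun n z =>
      (fderiv ℝ (upF F T) (yn n, z)).comp (ContinuousLinearMap.inr ℝ P2 ℂ) := by
    funext n z
    exact fderiv_up_eq hU h (hyn n) z
  have e2 : fderiv ℝ (up (F y) (T y)) = fun z =>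
      (fderiv ℝ (upF F T) (y, z)).comp (ContinuousLinearMap.inr ℝ P2 ℂ) := by
    funext z
    exact fderiv_up_eq hU h hy z
  rw [e1, e2]
  exact h4

theorem lin_add (p q : P2) : lin (p + q) = lin p + lin q := by
  ext i
  fin_cases i <;> simp [lin]

theorem lin_zero : lin 0 = 0 := by
  ext i
  fin_cases i <;> simp [lin]

/-- translation by a lattice vector -/
theorem phi_per {f : P2 → R4} (hf : Per f) (m n : ℤ) (p : P2) :
    phi f (p.1 + m, p.2 + n) = phi f p + lin (m, n) := by
  unfold phi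
  rw [hf m n p]
  have : ((p.1 + m, p.2 + n) : P2) = p + ((m : ℝ), (n : ℝ)) := rfl
  rw [this, lin_add]
  abel

theorem lin_apply_zero (p : P2) : lin p 0 = 0 := by simp [lin]
theorem lin_apply_one (p : P2) : lin p 1 = 0 := by simp [lin]
theorem lin_apply_two (p : P2) : lin p 2 = p.1 := by simp [lin]
theorem lin_apply_three (p : P2) : lin p 3 = p.2 := by simp [lin]

/-- components of the mean -/
theorem mean_apply {f : P2 → R4} (hf : Continuous f) (i : Fin 4) :
    mean f i = mean fun p => f p i := by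
  unfold mean
  have h1 : IntegrableOn f (Icc (0 : P2) 1) := hf.continuousOn.integrableOn_compact isCompact_Icc
  have h2 := ((ContinuousLinearMap.proj (R := ℝ) (φ := fun _ : Fin 4 => ℝ) i).integral_comp_comm
    (μ := volume.restrict (Icc (0 : P2) 1)) h1)
  exact h2.symm

theorem continuous_f {D : Data} {f : P2 → R4} {τ : ℂ} (h : JT D f τ) : Continuous f :=
  h.smooth.continuous

theorem contDiff_phi {f : P2 → R4} (h : ContDiff ℝ ∞ f) : ContDiff ℝ ∞ (phi f) :=
  K2H.contDiff_lin.add h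

/-- volume of the unit square -/
theorem vol_unit : volume (Icc (0 : P2) 1) = 1 := by
  have : (Icc (0 : P2) 1) = Icc (0 : ℝ) 1 ×ˢ Icc (0 : ℝ) 1 := by
    ext p
    constructor
    · intro h
      exact ⟨⟨h.1.1, h.2.1⟩, ⟨h.1.2, h.2.2⟩⟩
    · intro h
      exact ⟨⟨h.1.1, h.2.1⟩, ⟨h.1.2, h.2.2⟩⟩
  rw [this, Measure.volume_eq_prod, Measure.prod_prod]
  simp

theorem mean_const {E : Type*} [NormedAddCommGroup E] [NormedSpace ℝ E] [CompleteSpace E] (c : E) :
    mean (fun _ : P2 => c) = c := by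
  unfold mean
  rw [setIntegral_const]
  simp [Measure.real, vol_unit]

theorem mean_add {E : Type*} [NormedAddCommGroup E] [NormedSpace ℝ E] {f g : P2 → E}
    (hf : Continuous f) (hg : Continuous g) :
    mean (fun p => f p + g p) = mean f + mean g := by
  unfold mean
  exact integral_add (hf.continuousOn.integrableOn_compact isCompact_Icc)
    (hg.continuousOn.integrableOn_compact isCompact_Icc)

theorem mean_sub {E : Type*} [NormedAddCommGroup E] [NormedSpace ℝ E] {f g : P2 → E}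
    (hf : Continuous f) (hg : Continuous g) :
    mean (fun p => f p - g p) = mean f - mean g := by
  unfold mean
  exact integral_sub (hf.continuousOn.integrableOn_compact isCompact_Icc)
    (hg.continuousOn.integrableOn_compact isCompact_Icc)

end Vale.Agent.P247.H743
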