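import Vale.Agent.P247.H743.Green

/-!
# P247: local `J`-holomorphic discs with prescribed one-jet, depending smoothly on the data
-/

open scoped ContDiff Topology
open Set MeasureTheory Filter Metric

noncomputable section

namespace Vale.Agent.P247.H743

open Vale.Agent.P247.H74 Vale.Agent.P247.H720

/-- vector valued elements -/
abbrev HH (m : ℕ) : Type := Fin 4 → WR m

/-- the function of a vector valued element -/
def ew {m : ℕ} (a : HH m) (p : P2) : R4 := fun i => ev (a i) p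

/-- matrix entries -/
def ent (L : R4 →L[ℝ] R4) (i j : Fin 4) : ℝ := L (e j) i

theorem clm_apply_eq (L : R4 →L[ℝ] R4) (v : R4) (i : Fin 4) : L v i = ∑ j, ent L i j * v j := by
  have h1 : v = ∑ j, v j • e j := by
    funext i
    simp only [Finset.sum_apply, Pi.smul_apply, e, Pi.single_apply, smul_eq_mul, mul_ite, mul_one,
      mul_zero, Finset.sum_ite_eq, Finset.mem_univ, if_true]
  conv_lhs => rw [h1]
  rw [map_sum, Finset.sum_apply]
  refine Finset.sum_congr rfl fun j _ => ?_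
  rw [map_smul, Pi.smul_apply, smul_eq_mul, mul_comm]
  rfl

/-- apply a constant matrix -/
def matv (m : ℕ) (L : R4 →L[ℝ] R4) : HH m →L[ℝ] HH m :=
  ContinuousLinearMap.pi fun i => ∑ j, ent L i j • ContinuousLinearMap.proj (R := ℝ)
    (φ := fun _ : Fin 4 => WR m) j

theorem ev_sum' {m : ℕ} {κ : Type} (S : Finset κ) (a : κ → WR m) (p : P2) :
    ev (∑ i ∈ S, a i) p = ∑ i ∈ S, ev (a i) p := ev_sum S a p

theorem ew_matv {m : ℕ} (L : R4 →L[ℝ] R4) (a : HH m) (p : P2) :
    ew (matv m L a) p = L (ew a p) := by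
  funext i
  rw [clm_apply_eq]
  unfold ew matv
  rw [ContinuousLinearMap.coe_pi']
  simp only
  rw [_root_.sum_apply, ev_sum']
  refine Finset.sum_congr rfl fun j _ => ?_
  rw [_root_.smul_apply, ev_smul]
  rfl

/-- componentwise application of a scalar operator -/
def cw {m m' : ℕ} (A : WR m →L[ℝ] WR m') : HH m →L[ℝ] HH m' :=
  ContinuousLinearMap.pi fun i => A.comp (ContinuousLinearMap.proj (R := ℝ)
    (φ := fun _ : Fin 4 => WR m) i)

theorem cw_apply {m m' : ℕ} (A : WR m →L[ℝ] WR m') (a : HH m) (i : Fin 4) : cw A a i = A (a i) := rfl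

/-- componentwise application of a functional -/
def cf4 {m : ℕ} (A : WR m →L[ℝ] ℝ) : HH m →L[ℝ] R4 :=
  ContinuousLinearMap.pi fun i => A.comp (ContinuousLinearMap.proj (R := ℝ)
    (φ := fun _ : Fin 4 => WR m) i)

theorem cf4_apply {m : ℕ} (A : WR m →L[ℝ] ℝ) (a : HH m) (i : Fin 4) : cf4 A a i = A (a i) := rfl

/-- constants -/
def cv (m : ℕ) : R4 →L[ℝ] HH m :=
  ContinuousLinearMap.pi fun i => (cstL m).comp (ContinuousLinearMap.proj (R := ℝ)
    (φ := fun _ : Fin 4 => ℝ) i)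

theorem ew_cv (m : ℕ) (v : R4) (p : P2) : ew (cv m v) p = v := by
  funext i
  exact ev_cst m (v i) p

/-- multiples of a scalar element -/
def sv {m : ℕ} (X : WR m) : R4 →L[ℝ] HH m :=
  ContinuousLinearMap.pi fun i => (ContinuousLinearMap.proj (R := ℝ)
    (φ := fun _ : Fin 4 => ℝ) i).smulRight X

theorem ew_sv {m : ℕ} (X : WR m) (v : R4) (p : P2) : ew (sv X v) p = ev X p • v := by
  funext i
  show ev (v i • X) p = ev X p * v i
  rw [ev_smul, mul_comm]

theorem ew_add {m : ℕ} (a b : HH m) (p : P2) : ew (a + b) p = ew a p + ew b p := by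
  funext i
  exact ev_add (a i) (b i) p

theorem ew_sub {m : ℕ} (a b : HH m) (p : P2) : ew (a - b) p = ew a p - ew b p := by
  funext i
  exact ev_sub (a i) (b i) p

theorem ew_smul {m : ℕ} (c : ℝ) (a : HH m) (p : P2) : ew (c • a) p = c • ew a p := by
  funext i
  exact ev_smul c (a i) p

theorem ew_inj {m : ℕ} {a b : HH m} (h : ∀ p, ew a p = ew b p) : a = b := by
  funext i
  exact H2 _ _ _ (funext fun p => congrFun (h p) i)

theorem contDiff_ewJ (m : ℕ) : ContDiff ℝ m (fun q : HH m × P2 => ew q.1 q.2) := by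
  refine contDiff_pi.2 fun i => ?_
  have h1 : ContDiff ℝ m (fun q : HH m × P2 => (q.1 i, q.2)) :=
    ((ContinuousLinearMap.proj (R := ℝ) (φ := fun _ : Fin 4 => WR m) i).contDiff.comp
      contDiff_fst).prodMk contDiff_snd
  exact (contDiff_evJ m).comp h1

theorem hasFDerivAt_ew {m : ℕ} (a : HH (m + 1)) (p : P2) :
    HasFDerivAt (ew a) ((ContinuousLinearMap.fst ℝ ℝ ℝ).smulRight (ew (cw (SW m) a) p) +
      (ContinuousLinearMap.snd ℝ ℝ ℝ).smulRight (ew (cw (TW' m) a) p)) p := by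
  rw [hasFDerivAt_pi']
  intro i
  have h1 : DifferentiableAt ℝ (ev (a i)) p := differentiableAt_ev (a i) p
  refine h1.hasFDerivAt.congr_fderiv ?_
  refine ContinuousLinearMap.ext fun v => ?_
  have h3 : v = v.1 • ((1 : ℝ), (0 : ℝ)) + v.2 • ((0 : ℝ), (1 : ℝ)) := by
    ext <;> simp
  have h4 : fderiv ℝ (ev (a i)) p v = v.1 * ds (ev (a i)) p + v.2 * dt (ev (a i)) p := by
    conv_lhs => rw [h3]
    rw [map_add, map_smul, map_smul]
    rfl
  rw [h4, ds_ev, dt_ev]
  rfl

/-! ## The solution operator of the constant coefficient equation -/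

section

variable (J₀ : R4 →L[ℝ] R4) (m : ℕ)

/-- solution operator of `(∂ₛ + J₀ ∂ₜ) g = h - mean h` -/
def Gv : HH m →L[ℝ] HH (m + 1) := cw (G1 m) - (matv (m + 1) J₀).comp (cw (G2 m))

theorem ew_cw_matv {m m' : ℕ} (A : WR m →L[ℝ] WR m') (L : R4 →L[ℝ] R4) (a : HH m) :
    cw A (matv m L a) = matv m' L (cw A a) := by
  funext i
  show A (matv m L a i) = matv m' L (cw A a) i
  unfold matv
  rw [ContinuousLinearMap.coe_pi', ContinuousLinearMap.coe_pi']
  simp only
  rw [_root_.sum_apply, _root_.sum_apply, map_sum]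
  refine Finset.sum_congr rfl fun j _ => ?_
  rw [_root_.smul_apply, _root_.smul_apply, map_smul]
  rfl

theorem Gv_spec (hJ : ∀ u, J₀ (J₀ u) = -u) (h : HH m) (p : P2) :
    ew (cw (SW m) (Gv J₀ m h)) p + J₀ (ew (cw (TW' m) (Gv J₀ m h)) p) =
      ew h p - cf4 (mL m) h := by
  have e1 : ∀ A : WR (m + 1) →L[ℝ] WR m, cw A (Gv J₀ m h) =
      cw A (cw (G1 m) h) - matv m J₀ (cw A (cw (G2 m) h)) := by
    intro A
    unfold Gv
    rw [_root_.sub_apply, map_sub, ContinuousLinearMap.comp_apply, ew_cw_matv]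
  rw [e1, e1, ew_sub, ew_sub, ew_matv, ew_matv, map_sub, hJ]
  have e2 : cw (TW' m) (cw (G1 m) h) = cw (SW m) (cw (G2 m) h) := by
    funext i
    exact identity_curl (h i)
  rw [e2]
  have e3 : ew (cw (SW m) (cw (G1 m) h)) p + ew (cw (TW' m) (cw (G2 m) h)) p =
      ew h p - cf4 (mL m) h := by
    rw [← ew_add]
    have : cw (SW m) (cw (G1 m) h) + cw (TW' m) (cw (G2 m) h) = h - cw (P0 m) h := by
      funext i
      exact identity_div (h i)
    rw [this, ew_sub]
    congr 1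
    funext i
    exact ev_P0 (h i) p
  rw [← e3]
  abel

/-- the linear functional in the normalisation of the one-jet -/
def be : HH m →L[ℝ] R4 := cf4 (mL m) + (cf4 (evL m 0)).comp ((cw (SW m)).comp (Gv J₀ m))

/-- the affine coefficient -/
def bb : R4 × HH m →L[ℝ] R4 :=
  ContinuousLinearMap.fst ℝ R4 (HH m) - (be J₀ m).comp (ContinuousLinearMap.snd ℝ R4 (HH m))

/-- the unknown function, made periodic -/
def Ut (X Y : WR m) : R4 × HH m →L[ℝ] HH m :=
  (sv X).comp (bb J₀ m) + (sv Y).comp (J₀.comp (bb J₀ m)) +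
    (sv X).comp ((cf4 (mL m)).comp (ContinuousLinearMap.snd ℝ R4 (HH m))) +
    ((cw (incl (m + 1) m (Nat.le_succ m))).comp (Gv J₀ m)).comp
      (ContinuousLinearMap.snd ℝ R4 (HH m)) -
    (cv m).comp ((cf4 (evL (m + 1) 0)).comp ((Gv J₀ m).comp
      (ContinuousLinearMap.snd ℝ R4 (HH m))))

/-- its `t` derivative -/
def Vt : R4 × HH m →L[ℝ] HH m :=
  (cv m).comp (J₀.comp (bb J₀ m)) +
    ((cw (TW' m)).comp (Gv J₀ m)).comp (ContinuousLinearMap.snd ℝ R4 (HH m))

/-- the actual unknown function -/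
def Uf (a : R4) (h : HH m) (p : P2) : R4 :=
  p.1 • bb J₀ m (a, h) + p.2 • J₀ (bb J₀ m (a, h)) + p.1 • cf4 (mL m) h + ew (Gv J₀ m h) p -
    ew (Gv J₀ m h) 0

theorem Uf_eq {X Y : WR m} {p : P2} (hX : ev X p = p.1) (hY : ev Y p = p.2) (a : R4) (h : HH m) :
    Uf J₀ m a h p = ew (Ut J₀ m X Y (a, h)) p := by
  unfold Ut Uf
  rw [_root_.sub_apply, _root_.add_apply, _root_.add_apply,
    _root_.add_apply, ew_sub, ew_add, ew_add, ew_add]
  simp only [ContinuousLinearMap.comp_apply, ContinuousLinearMap.coe_snd', ew_sv, ew_cv, hX, hY]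
  have h1 : ew (cw (incl (m + 1) m (Nat.le_succ m)) (Gv J₀ m h)) p = ew (Gv J₀ m h) p := by
    funext i
    exact ev_incl (Nat.le_succ m) _ p
  rw [h1]
  rfl

theorem hasFDerivAt_Uf (a : R4) (h : HH m) (p : P2) :
    HasFDerivAt (Uf J₀ m a h) ((ContinuousLinearMap.fst ℝ ℝ ℝ).smulRight
        (bb J₀ m (a, h) + cf4 (mL m) h + ew (cw (SW m) (Gv J₀ m h)) p) +
      (ContinuousLinearMap.snd ℝ ℝ ℝ).smulRight (ew (Vt J₀ m (a, h)) p)) p := by
  have h1 := hasFDerivAt_ew (Gv J₀ m h) p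
  have hf : HasFDerivAt (fun q : P2 => q.1) (ContinuousLinearMap.fst ℝ ℝ ℝ) p :=
    (ContinuousLinearMap.fst ℝ ℝ ℝ).hasFDerivAt
  have hs : HasFDerivAt (fun q : P2 => q.2) (ContinuousLinearMap.snd ℝ ℝ ℝ) p :=
    (ContinuousLinearMap.snd ℝ ℝ ℝ).hasFDerivAt
  have h2 := ((((hf.smul_const (bb J₀ m (a, h))).add (hs.smul_const (J₀ (bb J₀ m (a, h))))).add
    (hf.smul_const (cf4 (mL m) h))).add h1).sub_const (ew (Gv J₀ m h) 0)
  refine h2.congr_fderiv ?_
  have h3 : ew (Vt J₀ m (a, h)) p = J₀ (bb J₀ m (a, h)) + ew (cw (TW' m) (Gv J₀ m h)) p := by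
    unfold Vt
    rw [_root_.add_apply, ew_add]
    simp only [ContinuousLinearMap.comp_apply, ContinuousLinearMap.coe_snd', ew_cv]
  rw [h3]
  refine ContinuousLinearMap.ext fun v => ?_
  funext i
  simp only [_root_.add_apply, ContinuousLinearMap.smulRight_apply, Pi.add_apply, Pi.smul_apply,
    smul_eq_mul, ContinuousLinearMap.coe_fst', ContinuousLinearMap.coe_snd']
  ring

end

end Vale.Agent.P247.H743
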