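import Vale.Agent.P247.H743.Disc

/-!
# P247: local `J`-holomorphic discs, the theorem
-/

open scoped ContDiff Topology
open Set MeasureTheory Filter Metric

noncomputable section

namespace Vale.Agent.P247.H743

open Vale.Agent.P247.H74 Vale.Agent.P247.H720

section

variable (J : R4 → R4 →L[ℝ] R4) (J₀ : R4 →L[ℝ] R4) (m : ℕ) (X Y : WR (m + 2))

/-- the parameters `(r, x, a)` -/
abbrev Par : Type := ℝ × R4 × R4

/-- the argument of `J` -/
def argJ (q : Par × HH (m + 2)) : HH (m + 2) :=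
  cv (m + 2) q.1.2.1 + q.1.1 • Ut J₀ (m + 2) X Y (q.1.2.2, q.2)

/-- the right-hand side -/
def Nf (q : Par × HH (m + 2)) : HH (m + 2) := fun i =>
  -∑ j, prL (m + 2) (nem (0 : P2 →L[ℝ] (Fin 4 → ℝ)) (m + 2) (fun y => ent (J y) i j)
      (argJ J₀ m X Y q) - cst (m + 2) (ent J₀ i j)) (Vt J₀ (m + 2) (q.1.2.2, q.2) j)

/-- the equation -/
def Ff (q : Par × HH (m + 2)) : HH (m + 2) := q.2 - Nf J J₀ m X Y q

variable {J}

theorem contDiff_ent (hJ : ContDiff ℝ ∞ J) (i j : Fin 4) : ContDiff ℝ ∞ fun y => ent (J y) i j := by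
  unfold ent
  have h1 : ContDiff ℝ ∞ fun y => J y (e j) := hJ.clm_apply contDiff_const
  exact contDiff_pi.1 h1 i

theorem perL_zero {E : Type*} (H : R4 → E) : PerL (0 : P2 →L[ℝ] (Fin 4 → ℝ)) H := by
  intro a b x
  simp

theorem contDiff_argJ : ContDiff ℝ ∞ (argJ J₀ m X Y) := by
  unfold argJ
  have h1 : ContDiff ℝ ∞ fun q : Par × HH (m + 2) => q.1.2.1 := by fun_prop
  have h2 : ContDiff ℝ ∞ fun q : Par × HH (m + 2) => q.1.1 := by fun_prop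
  have h3 : ContDiff ℝ ∞ fun q : Par × HH (m + 2) => (q.1.2.2, q.2) := by fun_prop
  exact ((cv (m + 2)).contDiff.comp h1).add (h2.smul ((Ut J₀ (m + 2) X Y).contDiff.comp h3))

theorem contDiff_Nf (hJ : ContDiff ℝ ∞ J) : ContDiff ℝ ∞ (Nf J J₀ m X Y) := by
  refine contDiff_pi.2 fun i => ?_
  unfold Nf
  have h3 : ContDiff ℝ ∞ fun q : Par × HH (m + 2) => (q.1.2.2, q.2) := by fun_prop
  refine ContDiff.neg (ContDiff.sum fun j _ => ?_)
  have h4 : ContDiff ℝ ∞ fun q : Par × HH (m + 2) =>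
      nem (0 : P2 →L[ℝ] (Fin 4 → ℝ)) (m + 2) (fun y => ent (J y) i j) (argJ J₀ m X Y q) :=
    (contDiff_nem _ m (contDiff_ent hJ i j) (perL_zero _)).comp (contDiff_argJ J₀ m X Y)
  have h5 : ContDiff ℝ ∞ fun q : Par × HH (m + 2) => Vt J₀ (m + 2) (q.1.2.2, q.2) j :=
    contDiff_pi.1 ((Vt J₀ (m + 2)).contDiff.comp h3) j
  exact ((prL (m + 2)).contDiff.comp (h4.sub contDiff_const)).clm_apply h5

theorem contDiff_Ff (hJ : ContDiff ℝ ∞ J) : ContDiff ℝ ∞ (Ff J J₀ m X Y) :=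
  contDiff_snd.sub (contDiff_Nf J₀ m X Y hJ)

theorem ew_Nf (hJ : ContDiff ℝ ∞ J) (q : Par × HH (m + 2)) (p : P2) :
    ew (Nf J J₀ m X Y q) p = -((J (ew (argJ J₀ m X Y q) p) - J₀)
      (ew (Vt J₀ (m + 2) (q.1.2.2, q.2)) p)) := by
  funext i
  show ev (Nf J J₀ m X Y q i) p = _
  unfold Nf
  rw [Pi.neg_apply, clm_apply_eq]
  have h0 : ∀ a : WR (m + 2), ev (-a) p = - ev a p := fun a => by
    have := ev_smul (-1) a p
    simpa using this
  rw [h0, ev_sum']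
  congr 1
  refine Finset.sum_congr rfl fun j _ => ?_
  rw [prL_apply, ev_pr, ev_sub, ev_cst, nem_spec _ m (contDiff_ent hJ i j) (perL_zero _)]
  have h1 : sup (0 : P2 →L[ℝ] (Fin 4 → ℝ)) (fun y => ent (J y) i j) (argJ J₀ m X Y q) p =
      ent (J (ew (argJ J₀ m X Y q) p)) i j := by
    unfold sup arg
    have : (0 : P2 →L[ℝ] (Fin 4 → ℝ)) p + (fun i => ev (argJ J₀ m X Y q i) p) =
        ew (argJ J₀ m X Y q) p := by
      rw [_root_.zero_apply, zero_add]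
      rfl
    rw [this]
  rw [h1]
  rfl

theorem Nf_zero (hJ : ContDiff ℝ ∞ J) (x a : R4) (hx : J x = J₀) (h : HH (m + 2)) :
    Nf J J₀ m X Y ((0, x, a), h) = 0 := by
  refine ew_inj fun p => ?_
  rw [ew_Nf J₀ m X Y hJ]
  have h1 : ew (argJ J₀ m X Y ((0, x, a), h)) p = x := by
    unfold argJ
    rw [ew_add, ew_smul, ew_cv, zero_smul, add_zero]
  rw [h1, hx, sub_self, _root_.zero_apply, neg_zero]
  funext i
  exact (ev_zero p).symm

end

/-- solution of the equation for small parameters -/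
theorem disc_solve (J : R4 → R4 →L[ℝ] R4) (hJ : ContDiff ℝ ∞ J) (x₀ a₀ : R4) (m k : ℕ)
    (X Y : WR (m + 2)) : ∃ δ > 0, ∃ ψ : Par → HH (m + 2),
    ContDiffOn ℝ k ψ (ball (0, x₀, a₀) δ) ∧
    ∀ q ∈ ball ((0, x₀, a₀) : Par) δ, ψ q = Nf J (J x₀) m X Y (q, ψ q) := by
  set f : Par × HH (m + 2) → HH (m + 2) := Ff J (J x₀) m X Y with hf
  have hfs : ContDiff ℝ ∞ f := contDiff_Ff (J x₀) m X Y hJ
  set q₀ : Par := (0, x₀, a₀) with hq₀
  have hbase : ∀ h, f (q₀, h) = h := fun h => by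
    show h - Nf J (J x₀) m X Y (q₀, h) = h
    rw [Nf_zero (J x₀) m X Y hJ x₀ a₀ rfl, sub_zero]
  have hinv : (fderiv ℝ f (q₀, 0) ∘L ContinuousLinearMap.inr ℝ Par (HH (m + 2))).IsInvertible := by
    have h1 : HasFDerivAt (fun h : HH (m + 2) => (q₀, h))
        (ContinuousLinearMap.inr ℝ Par (HH (m + 2))) 0 := hasFDerivAt_prodMk_right q₀ 0
    have h2 : HasFDerivAt f (fderiv ℝ f (q₀, 0)) (q₀, 0) :=
      (hfs.differentiable (by simp) _).hasFDerivAt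
    have h3 := h2.comp (0 : HH (m + 2)) h1
    have h4 : (f ∘ fun h : HH (m + 2) => (q₀, h)) = id := funext hbase
    rw [h4] at h3
    have h5 := h3.unique (hasFDerivAt_id (0 : HH (m + 2)))
    rw [h5]
    exact ⟨ContinuousLinearEquiv.refl ℝ _, rfl⟩
  have hcd : ContDiffAt ℝ ∞ f (q₀, 0) := hfs.contDiffAt
  have h1 := hcd.eventually_apply_implicitFunction (by simp) hinv
  have h2 := hcd.contDiffAt_implicitFunction (by simp) hinv
  have h2' : ContDiffAt ℝ (k : ℕ∞) (hcd.implicitFunction (by simp) hinv) q₀ :=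
    h2.of_le (by exact_mod_cast le_top)
  have h3 : ∀ᶠ q in 𝓝 q₀, ContDiffAt ℝ (k : ℕ∞) (hcd.implicitFunction (by simp) hinv) q :=
    h2'.eventually (by simp)
  obtain ⟨δ, hδ, hball⟩ := Metric.eventually_nhds_iff_ball.1 (h1.and h3)
  refine ⟨δ, hδ, hcd.implicitFunction (by simp) hinv, fun q hq => ?_, fun q hq => ?_⟩
  · exact ((hball q hq).2).contDiffWithinAt
  · have h5 := (hball q hq).1
    rw [hbase 0] at h5
    exact sub_eq_zero.1 h5

section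

variable (J₀ : R4 →L[ℝ] R4) (m : ℕ) (r₁ : ℝ)

/-- the disc -/
def ud (x a : R4) (h : HH m) (z : ℂ) : R4 := x + r₁ • Uf J₀ m a h (z.re / r₁, z.im / r₁)

theorem contDiff_ew_comp {E : Type*} [NormedAddCommGroup E] [NormedSpace ℝ E] (m : ℕ)
    (f : E → HH (m + 1) × P2) (hf : ContDiff ℝ (m + 1 : ℕ) f) :
    ContDiff ℝ (m + 1 : ℕ) fun q : E => ew (f q).1 (f q).2 := by
  exact (contDiff_ewJ (m + 1)).comp hf

theorem contDiff_pair {E : Type*} [NormedAddCommGroup E] [NormedSpace ℝ E] (m : ℕ)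
    (G : E →L[ℝ] HH (m + 1)) (π : E →L[ℝ] P2) :
    ContDiff ℝ (m + 1 : ℕ) fun q : E => ((G q, π q) : HH (m + 1) × P2) := by
  have h1 : ContDiff ℝ (m + 1 : ℕ) fun q : E => G q := G.contDiff
  have h2 : ContDiff ℝ (m + 1 : ℕ) fun q : E => π q := π.contDiff
  exact h1.prodMk h2

theorem contDiff_ewG {E : Type*} [NormedAddCommGroup E] [NormedSpace ℝ E] (m : ℕ)
    (G : E →L[ℝ] HH (m + 1)) (π : E →L[ℝ] P2) :
    ContDiff ℝ (m + 1 : ℕ) fun q : E => ew (G q) (π q) :=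
  contDiff_ew_comp m (fun q => (G q, π q)) (contDiff_pair m G π)

/-- polynomial expressions -/
theorem contDiff_quad {E : Type*} [NormedAddCommGroup E] [NormedSpace ℝ E] (n : WithTop ℕ∞)
    (A B : E →L[ℝ] ℝ) (a b c : E →L[ℝ] R4) :
    ContDiff ℝ n fun q : E => A q • a q + B q • b q + A q • c q := by fun_prop

theorem contDiff_Uf : ContDiff ℝ (m + 1 : ℕ) fun q : P2 × R4 × HH m => Uf J₀ m q.2.1 q.2.2 q.1 := by
  set F1 := ContinuousLinearMap.fst ℝ P2 (R4 × HH m) with hF1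
  set F2 := ContinuousLinearMap.snd ℝ P2 (R4 × HH m) with hF2
  set F3 := (ContinuousLinearMap.snd ℝ R4 (HH m)).comp F2 with hF3
  have h1 := contDiff_quad (m + 1 : ℕ) ((ContinuousLinearMap.fst ℝ ℝ ℝ).comp F1)
    ((ContinuousLinearMap.snd ℝ ℝ ℝ).comp F1) ((bb J₀ m).comp F2) (J₀.comp ((bb J₀ m).comp F2))
    ((cf4 (mL m)).comp F3)
  have h2 := contDiff_ewG m ((Gv J₀ m).comp F3) F1
  have h3 := contDiff_ewG m ((Gv J₀ m).comp F3) 0
  exact (h1.add h2).sub h3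

/-- the parameter of the disc -/
def pz : ℂ →L[ℝ] P2 := (r₁⁻¹ • Complex.reCLM).prod (r₁⁻¹ • Complex.imCLM)

theorem pz_apply (z : ℂ) : pz r₁ z = (z.re / r₁, z.im / r₁) := by
  unfold pz
  ext
  · simp [div_eq_inv_mul]
  · simp [div_eq_inv_mul]

theorem contDiff_ud : ContDiff ℝ (m + 1 : ℕ) fun q : ℂ × R4 × R4 × HH m =>
    ud J₀ m r₁ q.2.1 q.2.2.1 q.2.2.2 q.1 := by
  unfold ud
  have h1 : ContDiff ℝ (m + 1 : ℕ) fun q : ℂ × R4 × R4 × HH m => q.2.1 := by fun_prop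
  have h2 : ContDiff ℝ (m + 1 : ℕ) fun q : ℂ × R4 × R4 × HH m =>
      (((q.1.re / r₁, q.1.im / r₁) : P2), q.2.2.1, q.2.2.2) := by
    have e1 : ContDiff ℝ (m + 1 : ℕ) fun q : ℂ × R4 × R4 × HH m => pz r₁ q.1 :=
      (pz r₁).contDiff.comp contDiff_fst
    simp only [pz_apply] at e1
    have e2 : ContDiff ℝ (m + 1 : ℕ) fun q : ℂ × R4 × R4 × HH m => (q.2.2.1, q.2.2.2) := by fun_prop
    exact e1.prodMk e2
  have h3 : ContDiff ℝ (m + 1 : ℕ) fun q : ℂ × R4 × R4 × HH m =>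
      Uf J₀ m q.2.2.1 q.2.2.2 (q.1.re / r₁, q.1.im / r₁) := (contDiff_Uf J₀ m).comp h2
  exact h1.add (h3.const_smul r₁)

variable {r₁}

theorem hasFDerivAt_ud (x a : R4) (h : HH m) (z : ℂ) :
    HasFDerivAt (ud J₀ m r₁ x a h) ((r₁ • ((ContinuousLinearMap.fst ℝ ℝ ℝ).smulRight
        (bb J₀ m (a, h) + cf4 (mL m) h + ew (cw (SW m) (Gv J₀ m h)) (pz r₁ z)) +
      (ContinuousLinearMap.snd ℝ ℝ ℝ).smulRight (ew (Vt J₀ m (a, h)) (pz r₁ z)))).comp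
        (pz r₁)) z := by
  have e2 := ((hasFDerivAt_Uf J₀ m a h (pz r₁ z)).const_smul r₁).comp z (pz r₁).hasFDerivAt
  have e3 := e2.const_add x
  have e4 : ud J₀ m r₁ x a h = fun z => x + r₁ • Uf J₀ m a h (pz r₁ z) := by
    funext w
    unfold ud
    rw [pz_apply]
  rw [e4]
  exact e3

theorem fderiv_ud_I (hr : r₁ ≠ 0) (x a : R4) (h : HH m) (z : ℂ) :
    fderiv ℝ (ud J₀ m r₁ x a h) z Complex.I = ew (Vt J₀ m (a, h)) (pz r₁ z) := by
  have h1 : pz r₁ Complex.I = (0, 1 / r₁) := by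
    rw [pz_apply]
    simp
  rw [(hasFDerivAt_ud J₀ m x a h z).fderiv, ContinuousLinearMap.comp_apply, h1]
  simp only [_root_.smul_apply, _root_.add_apply, ContinuousLinearMap.smulRight_apply,
    ContinuousLinearMap.coe_fst', ContinuousLinearMap.coe_snd', zero_smul, zero_add, smul_smul]
  rw [mul_one_div_cancel hr, one_smul]

theorem fderiv_ud_one (hr : r₁ ≠ 0) (x a : R4) (h : HH m) (z : ℂ) :
    fderiv ℝ (ud J₀ m r₁ x a h) z 1 =
      bb J₀ m (a, h) + cf4 (mL m) h + ew (cw (SW m) (Gv J₀ m h)) (pz r₁ z) := by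
  have h1 : pz r₁ 1 = (1 / r₁, 0) := by
    rw [pz_apply]
    simp
  rw [(hasFDerivAt_ud J₀ m x a h z).fderiv, ContinuousLinearMap.comp_apply, h1]
  simp only [_root_.smul_apply, _root_.add_apply, ContinuousLinearMap.smulRight_apply,
    ContinuousLinearMap.coe_fst', ContinuousLinearMap.coe_snd', zero_smul, add_zero, smul_smul]
  rw [mul_one_div_cancel hr, one_smul]

theorem ud_zero (x a : R4) (h : HH m) : ud J₀ m r₁ x a h 0 = x := by
  unfold ud Uf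
  have : ((0 : ℂ).re / r₁, (0 : ℂ).im / r₁) = (0 : P2) := by simp
  rw [this]
  simp

theorem fderiv_ud_zero (hr : r₁ ≠ 0) (x a : R4) (h : HH m) :
    fderiv ℝ (ud J₀ m r₁ x a h) 0 1 = a := by
  rw [fderiv_ud_one J₀ m hr, map_zero]
  have hbb : bb J₀ m (a, h) = a - be J₀ m h := rfl
  have hbe : be J₀ m h = cf4 (mL m) h + ew (cw (SW m) (Gv J₀ m h)) 0 := rfl
  rw [hbb, hbe]
  abel

end

/-- the discs are `J`-holomorphic -/
theorem ud_JH (J : R4 → R4 →L[ℝ] R4) (hJ : ContDiff ℝ ∞ J) (hJ2 : ∀ x u, J x (J x u) = -u)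
    (x₀ : R4) (m : ℕ) (X Y : WR (m + 2)) {r₁ : ℝ} (hr : 0 < r₁) (x a : R4) (h : HH (m + 2))
    (heq : h = Nf J (J x₀) m X Y ((r₁, x, a), h)) (z : ℂ)
    (hX : ev X (pz r₁ z) = (pz r₁ z).1) (hY : ev Y (pz r₁ z) = (pz r₁ z).2) :
    fderiv ℝ (ud (J x₀) (m + 2) r₁ x a h) z Complex.I =
      J (ud (J x₀) (m + 2) r₁ x a h z) (fderiv ℝ (ud (J x₀) (m + 2) r₁ x a h) z 1) := by
  set J₀ := J x₀ with hJ₀
  have harg : ew (argJ J₀ m X Y ((r₁, x, a), h)) (pz r₁ z) = ud J₀ (m + 2) r₁ x a h z := by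
    unfold argJ ud
    rw [ew_add, ew_smul, ew_cv, ← Uf_eq J₀ (m + 2) hX hY, pz_apply]
  have hPDE : ew h (pz r₁ z) = -((J (ud J₀ (m + 2) r₁ x a h z) - J₀)
      (ew (Vt J₀ (m + 2) (a, h)) (pz r₁ z))) := by
    conv_lhs => rw [heq]
    rw [ew_Nf J₀ m X Y hJ, harg]
  have hspec := Gv_spec J₀ (m + 2) (fun v => hJ2 x₀ v) h (pz r₁ z)
  rw [fderiv_ud_I J₀ (m + 2) hr.ne', fderiv_ud_one J₀ (m + 2) hr.ne']
  set V := ew (Vt J₀ (m + 2) (a, h)) (pz r₁ z) with hV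
  set Jz := J (ud J₀ (m + 2) r₁ x a h z) with hJz
  set W₁ := ew (cw (SW (m + 2)) (Gv J₀ (m + 2) h)) (pz r₁ z) with hW₁
  set W₂ := ew (cw (TW' (m + 2)) (Gv J₀ (m + 2) h)) (pz r₁ z) with hW₂
  have hVe : V = J₀ (bb J₀ (m + 2) (a, h)) + W₂ := by
    rw [hV]
    unfold Vt
    rw [_root_.add_apply, ew_add]
    simp only [ContinuousLinearMap.comp_apply, ContinuousLinearMap.coe_snd', ew_cv]
    rfl
  have hkey : bb J₀ (m + 2) (a, h) + cf4 (mL (m + 2)) h + W₁ = -(Jz V) := by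
    have e1 : J₀ V = -(bb J₀ (m + 2) (a, h)) + J₀ W₂ := by
      rw [hVe, map_add, hJ₀, hJ2]
    have e2 : (Jz - J₀) V = Jz V - J₀ V := _root_.sub_apply _ _ _
    rw [e2] at hPDE
    have e3 : W₁ = ew h (pz r₁ z) - cf4 (mL (m + 2)) h - J₀ W₂ := by
      rw [← hspec]
      abel
    rw [e3, hPDE, e1]
    abel
  rw [hkey, map_neg, hJz, hJ2, neg_neg]

/-- **Local discs.** For an almost complex structure on `ℝ⁴` there are `J`-holomorphic discs with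
prescribed one-jet, depending `k` times continuously differentiably on all data. -/
theorem disc (J : R4 → R4 →L[ℝ] R4) (hJ : ContDiff ℝ ∞ J) (hJ2 : ∀ x u, J x (J x u) = -u)
    (x₀ a₀ : R4) (k : ℕ) : ∃ r > 0, ∃ u : ℂ → R4 → R4 → R4,
    ContDiffOn ℝ k (fun q : ℂ × R4 × R4 => u q.1 q.2.1 q.2.2)
      (ball 0 r ×ˢ (ball x₀ r ×ˢ ball a₀ r)) ∧
    ∀ x ∈ ball x₀ r, ∀ a ∈ ball a₀ r, u 0 x a = x ∧ fderiv ℝ (fun z => u z x a) 0 1 = a ∧
      ∀ z ∈ ball (0 : ℂ) r, DifferentiableAt ℝ (fun z => u z x a) z ∧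
        fderiv ℝ (fun z => u z x a) z Complex.I =
          J (u z x a) (fderiv ℝ (fun z => u z x a) z 1) := by
  obtain ⟨X, Y, hX, hY⟩ := exists_coords (k + 2)
  obtain ⟨δ, hδ, ψ, hψ, heq⟩ := disc_solve J hJ x₀ a₀ k k X Y
  set r₁ := δ / 2 with hr₁
  have hr₁0 : 0 < r₁ := by positivity
  set r := min r₁ (r₁ / 6) with hr
  have hr0 : 0 < r := lt_min hr₁0 (by positivity)
  have hmem : ∀ x ∈ ball x₀ r, ∀ a ∈ ball a₀ r, ((r₁, x, a) : Par) ∈ ball ((0, x₀, a₀) : Par) δ := by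
    intro x hx a ha
    rw [mem_ball] at hx ha ⊢
    have hrr : r ≤ r₁ := min_le_left _ _
    rw [Prod.dist_eq, Prod.dist_eq]
    refine max_lt ?_ (max_lt ?_ ?_)
    · show dist r₁ 0 < δ
      rw [Real.dist_eq, sub_zero, abs_of_pos hr₁0, hr₁]
      linarith
    · show dist x x₀ < δ
      linarith
    · show dist a a₀ < δ
      linarith
  refine ⟨r, hr0, fun z x a => ud (J x₀) (k + 2) r₁ x a (ψ (r₁, x, a)) z, ?_, ?_⟩
  · have h1 : ContDiff ℝ k (fun q : ℂ × R4 × R4 => ((r₁, q.2.1, q.2.2) : Par)) := by fun_prop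
    have h2 : ContDiffOn ℝ k (fun q : ℂ × R4 × R4 => ψ (r₁, q.2.1, q.2.2))
        (ball 0 r ×ˢ (ball x₀ r ×ˢ ball a₀ r)) :=
      hψ.comp h1.contDiffOn fun q hq => hmem q.2.1 hq.2.1 q.2.2 hq.2.2
    have h3 : ContDiffOn ℝ k (fun q : ℂ × R4 × R4 =>
        ((q.1, q.2.1, q.2.2, ψ (r₁, q.2.1, q.2.2)) : ℂ × R4 × R4 × HH (k + 2)))
        (ball 0 r ×ˢ (ball x₀ r ×ˢ ball a₀ r)) := by
      have e1 : ContDiffOn ℝ k (fun q : ℂ × R4 × R4 => q.1)
        (ball 0 r ×ˢ (ball x₀ r ×ˢ ball a₀ r)) := contDiff_fst.contDiffOn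
      have e2 : ContDiffOn ℝ k (fun q : ℂ × R4 × R4 => q.2.1)
        (ball 0 r ×ˢ (ball x₀ r ×ˢ ball a₀ r)) := (contDiff_fst.comp contDiff_snd).contDiffOn
      have e3 : ContDiffOn ℝ k (fun q : ℂ × R4 × R4 => q.2.2)
        (ball 0 r ×ˢ (ball x₀ r ×ˢ ball a₀ r)) := (contDiff_snd.comp contDiff_snd).contDiffOn
      exact e1.prodMk (e2.prodMk (e3.prodMk h2))
    have h4 : ContDiff ℝ k fun q : ℂ × R4 × R4 × HH (k + 2) =>
        ud (J x₀) (k + 2) r₁ q.2.1 q.2.2.1 q.2.2.2 q.1 :=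
      (contDiff_ud (J x₀) (k + 2) r₁).of_le (by exact_mod_cast (by omega))
    exact h4.comp_contDiffOn h3
  · intro x hx a ha
    refine ⟨ud_zero _ _ _ _ _, fderiv_ud_zero _ _ hr₁0.ne' _ _ _, fun z hz => ?_⟩
    refine ⟨(hasFDerivAt_ud (J x₀) (k + 2) x a _ z).differentiableAt, ?_⟩
    have hz' : ‖z‖ < r₁ / 6 := by
      rw [mem_ball_zero_iff] at hz
      exact lt_of_lt_of_le hz (min_le_right _ _)
    refine ud_JH J hJ hJ2 x₀ k X Y hr₁0 x a _ (heq _ (hmem x hx a ha)) z (hX _ ?_) (hY _ ?_)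
    · rw [pz_apply]
      show |z.re / r₁| ≤ 1 / 6
      rw [abs_div, abs_of_pos hr₁0, div_le_iff₀ hr₁0]
      linarith [Complex.abs_re_le_norm z]
    · rw [pz_apply]
      show |z.im / r₁| ≤ 1 / 6
      rw [abs_div, abs_of_pos hr₁0, div_le_iff₀ hr₁0]
      linarith [Complex.abs_im_le_norm z]

end Vale.Agent.P247.H743
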