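import Mathlib

/-!
# P247, energy decay, part 1: one variable lemmas
-/

open scoped ContDiff Topology Real
open Set MeasureTheory Filter Metric

noncomputable section

namespace Vale.Agent.P247.H743.E

theorem int_cos {k : ℝ} (hk : k ≠ 0) (hs : Real.sin (k * π) = 0) :
    ∫ θ in (-π)..π, Real.cos (k * θ) = 0 := by
  rw [intervalIntegral.integral_comp_mul_left _ hk, integral_cos, mul_neg, Real.sin_neg, hs]
  simp

theorem int_sin {k : ℝ} (hk : k ≠ 0) :
    ∫ θ in (-π)..π, Real.sin (k * θ) = 0 := by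
  rw [intervalIntegral.integral_comp_mul_left _ hk, integral_sin, mul_neg, Real.cos_neg, sub_self,
    smul_zero]

/-- Fourier uniqueness up to constants -/
theorem const_of_fourier {g : ℝ → ℝ} (hg : MemLp g 2 (volume.restrict (Ioc (-π) π)))
    (hc : ∀ k : ℕ, 1 ≤ k → ∫ θ in (-π)..π, Real.cos (k * θ) * g θ = 0)
    (hs : ∀ k : ℕ, 1 ≤ k → ∫ θ in (-π)..π, Real.sin (k * θ) * g θ = 0) :
    ∃ c : ℝ, ∀ᵐ θ ∂(volume.restrict (Ioc (-π) π)), g θ = c := by
  have hpi := Real.pi_pos
  have hab : -π < π := by linarith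
  have hgi : IntervalIntegrable g volume (-π) π := by
    rw [intervalIntegrable_iff_integrableOn_Ioc_of_le hab.le]
    exact hg.integrable (by norm_num)
  set c : ℝ := (2 * π)⁻¹ * ∫ θ in (-π)..π, g θ with hcdef
  refine ⟨c, ?_⟩
  set f : ℝ → ℂ := fun θ => ((g θ - c : ℝ) : ℂ) with hf
  have hfL : MemLp f 2 (volume.restrict (Ioc (-π) π)) := by
    have h1 : MemLp (fun θ => g θ - c) 2 (volume.restrict (Ioc (-π) π)) :=
      hg.sub (memLp_const c)
    exact h1.ofReal
  have hfi : IntervalIntegrable (fun θ => g θ - c) volume (-π) π :=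
    hgi.sub intervalIntegrable_const
  have hz : ∫ θ in (-π)..π, (g θ - c) = 0 := by
    rw [intervalIntegral.integral_sub hgi intervalIntegrable_const, intervalIntegral.integral_const,
      smul_eq_mul, hcdef]
    field_simp
    ring
  have hck : ∀ n : ℤ, n ≠ 0 → ∫ θ in (-π)..π, Real.cos (n * θ) * (g θ - c) = 0 := by
    intro n hn
    have h0 : ∀ θ, Real.cos (n * θ) = Real.cos ((n.natAbs : ℝ) * θ) := by
      intro θ
      rcases Int.natAbs_eq n with h | h
      · rw [h]
        simp
      · rw [h]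
        simp [neg_mul, Real.cos_neg]
    have h1 : ∀ θ, Real.cos (n * θ) * (g θ - c) =
        Real.cos ((n.natAbs : ℝ) * θ) * g θ - Real.cos ((n.natAbs : ℝ) * θ) * c := by
      intro θ
      rw [h0]
      ring
    simp_rw [h1]
    have hk : 1 ≤ n.natAbs := Int.natAbs_pos.2 hn
    rw [intervalIntegral.integral_sub, hc _ hk, intervalIntegral.integral_mul_const, int_cos]
    · ring
    · positivity
    · exact Real.sin_nat_mul_pi _
    · exact hgi.continuousOn_mul (by fun_prop)
    · exact (by fun_prop : Continuous fun θ : ℝ => Real.cos ((n.natAbs : ℝ) * θ) * c).intervalIntegrable _ _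
  have hsk : ∀ n : ℤ, n ≠ 0 → ∫ θ in (-π)..π, Real.sin (n * θ) * (g θ - c) = 0 := by
    intro n hn
    have hk : 1 ≤ n.natAbs := Int.natAbs_pos.2 hn
    have key : ∫ θ in (-π)..π, Real.sin ((n.natAbs : ℝ) * θ) * (g θ - c) = 0 := by
      have h1 : ∀ θ, Real.sin ((n.natAbs : ℝ) * θ) * (g θ - c) =
          Real.sin ((n.natAbs : ℝ) * θ) * g θ - Real.sin ((n.natAbs : ℝ) * θ) * c := by
        intro θ
        ring
      simp_rw [h1]
      rw [intervalIntegral.integral_sub, hs _ hk, intervalIntegral.integral_mul_const, int_sin]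
      · ring
      · positivity
      · exact hgi.continuousOn_mul (by fun_prop)
      · exact (by fun_prop : Continuous fun θ : ℝ => Real.sin ((n.natAbs : ℝ) * θ) * c).intervalIntegrable _ _
    rcases Int.natAbs_eq n with h | h
    · rw [h]
      simpa using key
    · rw [h]
      have h2 : ∀ θ : ℝ, Real.sin (((-(n.natAbs : ℤ) : ℤ) : ℝ) * θ) * (g θ - c) =
          -(Real.sin ((n.natAbs : ℝ) * θ) * (g θ - c)) := by
        intro θ
        have h3 : ((-(n.natAbs : ℤ) : ℤ) : ℝ) = -(n.natAbs : ℝ) := by simp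
        rw [h3, neg_mul, Real.sin_neg]
        ring
      simp_rw [h2]
      rw [intervalIntegral.integral_neg, key, neg_zero]
  have hcoef : ∀ n : ℤ, fourierCoeffOn hab f n = 0 := by
    intro n
    rw [fourierCoeffOn_eq_integral]
    have h1 : ∀ θ : ℝ, (fourier (-n) (θ : AddCircle (π - -π))) • f θ =
        ((Real.cos (n * θ) * (g θ - c) : ℝ) : ℂ) -
          Complex.I * ((Real.sin (n * θ) * (g θ - c) : ℝ) : ℂ) := by
      intro θ
      rw [fourier_coe_apply, smul_eq_mul]
      have h2 : 2 * (π : ℂ) * Complex.I * ((-n : ℤ) : ℂ) * (θ : ℂ) / ((π - -π : ℝ) : ℂ) =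
          ((-(n * θ) : ℝ) : ℂ) * Complex.I := by
        have hpc : (π : ℂ) ≠ 0 := by exact_mod_cast hpi.ne'
        push_cast
        field_simp
        ring
      rw [h2, Complex.exp_mul_I, ← Complex.ofReal_cos, ← Complex.ofReal_sin, Real.cos_neg,
        Real.sin_neg, hf]
      push_cast
      ring
    simp_rw [h1]
    have hi0 : ∀ {u : ℝ → ℝ}, IntervalIntegrable u volume (-π) π →
        IntervalIntegrable (fun θ => ((u θ : ℝ) : ℂ)) volume (-π) π := fun {u} hu => by
      rw [intervalIntegrable_iff_integrableOn_Ioc_of_le hab.le] at hu ⊢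
      exact hu.ofReal
    have hi1 : IntervalIntegrable (fun θ => ((Real.cos (n * θ) * (g θ - c) : ℝ) : ℂ)) volume (-π) π :=
      hi0 (hfi.continuousOn_mul (g := fun θ => Real.cos (n * θ)) (by fun_prop))
    have hi2 : IntervalIntegrable (fun θ => Complex.I * ((Real.sin (n * θ) * (g θ - c) : ℝ) : ℂ))
        volume (-π) π :=
      (hi0 (hfi.continuousOn_mul (g := fun θ => Real.sin (n * θ)) (by fun_prop))).const_mul _
    rw [intervalIntegral.integral_sub hi1 hi2, intervalIntegral.integral_const_mul,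
      intervalIntegral.integral_ofReal, intervalIntegral.integral_ofReal]
    by_cases hn : n = 0
    · subst hn
      simp only [Int.cast_zero, zero_mul, Real.cos_zero, one_mul, Real.sin_zero,
        intervalIntegral.integral_zero, Complex.ofReal_zero, mul_zero, sub_zero]
      rw [hz]
      simp
    · rw [hck n hn, hsk n hn]
      simp
  have hP := hasSum_sq_fourierCoeffOn hab hfL
  have h0 : (fun i => ‖fourierCoeffOn hab f i‖ ^ 2) = fun _ => (0 : ℝ) := by
    funext i
    rw [hcoef i, norm_zero]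
    norm_num
  rw [h0] at hP
  have h1 := hP.unique hasSum_zero
  have h2 : ∫ x in (-π)..π, ‖f x‖ ^ 2 = 0 := by
    have h3 : (π - -π)⁻¹ ≠ 0 := inv_ne_zero (by linarith)
    rcases smul_eq_zero.1 h1 with h | h
    · exact absurd h h3
    · exact h
  rw [intervalIntegral.integral_of_le hab.le,
    integral_eq_zero_iff_of_nonneg (fun x => by positivity)
      ((memLp_two_iff_integrable_sq_norm hfL.1).1 hfL)] at h2
  filter_upwards [h2] with θ hθ
  have h4 : ‖f θ‖ ^ 2 = 0 := hθ
  have h5 : f θ = 0 := by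
    rwa [sq_eq_zero_iff, norm_eq_zero] at h4
  have h6 : (g θ - c : ℝ) = 0 := Complex.ofReal_eq_zero.1 h5
  linarith

/-- A function with weak derivative `w` on the circle. -/
theorem weak_circle {v w : ℝ → ℝ} (hv : MemLp v 2 (volume.restrict (Ioc (-π) π)))
    (hw : IntervalIntegrable w volume (-π) π)
    (hc : ∀ k : ℕ, ∫ θ in (-π)..π, (Real.cos (k * θ) * w θ - k * Real.sin (k * θ) * v θ) = 0)
    (hs : ∀ k : ℕ, ∫ θ in (-π)..π, (Real.sin (k * θ) * w θ + k * Real.cos (k * θ) * v θ) = 0) :
    ∃ c : ℝ, ∀ᵐ θ ∂(volume.restrict (Ioc (-π) π)), v θ = c + ∫ s in (-π)..θ, w s := by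
  have hpi := Real.pi_pos
  have hab : -π < π := by linarith
  set W : ℝ → ℝ := fun θ => ∫ s in (-π)..θ, w s with hW
  have hWac : AbsolutelyContinuousOnInterval W (-π) π :=
    hw.absolutelyContinuousOnInterval_intervalIntegral (c := -π) left_mem_uIcc
  have hWc : ContinuousOn W (Icc (-π) π) := by
    have := hWac.continuousOn
    rwa [uIcc_of_le hab.le] at this
  have hvi : IntervalIntegrable v volume (-π) π := by
    rw [intervalIntegrable_iff_integrableOn_Ioc_of_le hab.le]
    exact hv.integrable (by norm_num)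
  have hWi : IntervalIntegrable W volume (-π) π := by
    refine ContinuousOn.intervalIntegrable ?_
    rwa [uIcc_of_le hab.le]
  have hW0 : W (-π) = 0 := intervalIntegral.integral_same
  have hW1 : W π = 0 := by
    have := hc 0
    simp only [Nat.cast_zero, zero_mul, Real.cos_zero, one_mul, sub_zero] at this
    exact this
  have hderiv : ∀ᵐ θ, θ ∈ uIoc (-π) π → deriv W θ = w θ := by
    filter_upwards [hw.ae_hasDerivAt_integral] with θ hθ h2
    exact (hθ (uIoc_subset_uIcc h2) (-π) left_mem_uIcc).deriv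
  have hibp : ∀ F : ℝ → ℝ, ContDiff ℝ 1 F → ∫ θ in (-π)..π, F θ * w θ =
      - ∫ θ in (-π)..π, deriv F θ * W θ := by
    intro F hF
    have hFac : AbsolutelyContinuousOnInterval F (-π) π :=
      (hF.contDiffOn).absolutelyContinuousOnInterval
    have h1 := hFac.integral_mul_deriv_eq_deriv_mul hWac
    rw [hW0, hW1, mul_zero, mul_zero, sub_zero, zero_sub] at h1
    rw [← h1]
    refine intervalIntegral.integral_congr_ae ?_
    filter_upwards [hderiv] with θ hθ h2
    rw [hθ h2]
  have hcos : ∀ k : ℕ, ∫ θ in (-π)..π, Real.cos (k * θ) * w θ =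
      k * ∫ θ in (-π)..π, Real.sin (k * θ) * W θ := by
    intro k
    have hd : ∀ θ : ℝ, deriv (fun θ : ℝ => Real.cos (k * θ)) θ = -(k * Real.sin (k * θ)) := by
      intro θ
      have h1 : HasDerivAt (fun θ : ℝ => Real.cos (k * θ)) (-Real.sin (k * θ) * (k * 1)) θ :=
        (Real.hasDerivAt_cos (k * θ)).comp θ ((hasDerivAt_id θ).const_mul (k : ℝ))
      rw [h1.deriv]
      ring
    rw [hibp (fun θ => Real.cos (k * θ)) (by fun_prop), ← intervalIntegral.integral_const_mul,
      ← intervalIntegral.integral_neg]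
    refine intervalIntegral.integral_congr fun θ _ => ?_
    simp only [hd]
    ring
  have hsin : ∀ k : ℕ, ∫ θ in (-π)..π, Real.sin (k * θ) * w θ =
      -(k * ∫ θ in (-π)..π, Real.cos (k * θ) * W θ) := by
    intro k
    have hd : ∀ θ : ℝ, deriv (fun θ : ℝ => Real.sin (k * θ)) θ = k * Real.cos (k * θ) := by
      intro θ
      have h1 : HasDerivAt (fun θ : ℝ => Real.sin (k * θ)) (Real.cos (k * θ) * (k * 1)) θ :=
        (Real.hasDerivAt_sin (k * θ)).comp θ ((hasDerivAt_id θ).const_mul (k : ℝ))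
      rw [h1.deriv]
      ring
    rw [hibp (fun θ => Real.sin (k * θ)) (by fun_prop), ← intervalIntegral.integral_const_mul]
    congr 1
    refine intervalIntegral.integral_congr fun θ _ => ?_
    simp only [hd]
    ring
  have hci : ∀ (k : ℕ) {u : ℝ → ℝ}, IntervalIntegrable u volume (-π) π →
      IntervalIntegrable (fun θ => Real.cos (k * θ) * u θ) volume (-π) π := fun k u hu =>
    hu.continuousOn_mul (by fun_prop)
  have hsi : ∀ (k : ℕ) {u : ℝ → ℝ}, IntervalIntegrable u volume (-π) π →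
      IntervalIntegrable (fun θ => Real.sin (k * θ) * u θ) volume (-π) π := fun k u hu =>
    hu.continuousOn_mul (by fun_prop)
  have hWL : MemLp W 2 (volume.restrict (Ioc (-π) π)) := by
    obtain ⟨M, hM⟩ := isCompact_Icc.exists_bound_of_continuousOn hWc
    refine MemLp.of_bound (C := M) ?_ ?_
    · exact (hWc.mono Ioc_subset_Icc_self).aestronglyMeasurable measurableSet_Ioc
    · filter_upwards [ae_restrict_mem measurableSet_Ioc] with θ hθ
      exact hM θ (Ioc_subset_Icc_self hθ)
  have hg : MemLp (fun θ => v θ - W θ) 2 (volume.restrict (Ioc (-π) π)) := hv.sub hWL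
  obtain ⟨c, hcc⟩ := const_of_fourier hg (fun k hk => by
    have h1 := hs k
    have h2 : ∀ θ, Real.sin (k * θ) * w θ + k * Real.cos (k * θ) * v θ =
        Real.sin (k * θ) * w θ + k * (Real.cos (k * θ) * v θ) := fun θ => by ring
    simp_rw [h2] at h1
    rw [intervalIntegral.integral_add (hsi k hw) ((hci k hvi).const_mul _),
      intervalIntegral.integral_const_mul, hsin] at h1
    have h3 : ∀ θ, Real.cos (k * θ) * (v θ - W θ) =
        Real.cos (k * θ) * v θ - Real.cos (k * θ) * W θ := fun θ => by ring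
    simp_rw [h3]
    rw [intervalIntegral.integral_sub (hci k hvi) (hci k hWi)]
    have hk0 : (k : ℝ) ≠ 0 := by exact_mod_cast (by omega : k ≠ 0)
    have h4 : (k : ℝ) * ((∫ θ in (-π)..π, Real.cos (k * θ) * v θ) -
        ∫ θ in (-π)..π, Real.cos (k * θ) * W θ) = 0 := by linarith
    rcases mul_eq_zero.1 h4 with h | h
    · exact absurd h hk0
    · exact h) (fun k hk => by
    have h1 := hc k
    have h2 : ∀ θ, Real.cos (k * θ) * w θ - k * Real.sin (k * θ) * v θ =
        Real.cos (k * θ) * w θ - k * (Real.sin (k * θ) * v θ) := fun θ => by ring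
    simp_rw [h2] at h1
    rw [intervalIntegral.integral_sub (hci k hw) ((hsi k hvi).const_mul _),
      intervalIntegral.integral_const_mul, hcos] at h1
    have h3 : ∀ θ, Real.sin (k * θ) * (v θ - W θ) =
        Real.sin (k * θ) * v θ - Real.sin (k * θ) * W θ := fun θ => by ring
    simp_rw [h3]
    rw [intervalIntegral.integral_sub (hsi k hvi) (hsi k hWi)]
    have hk0 : (k : ℝ) ≠ 0 := by exact_mod_cast (by omega : k ≠ 0)
    have h4 : (k : ℝ) * ((∫ θ in (-π)..π, Real.sin (k * θ) * v θ) -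
        ∫ θ in (-π)..π, Real.sin (k * θ) * W θ) = 0 := by linarith
    rcases mul_eq_zero.1 h4 with h | h
    · exact absurd h hk0
    · exact h)
  refine ⟨c, ?_⟩
  filter_upwards [hcc] with θ hθ
  show v θ = c + W θ
  linarith

/-- oscillation bound -/
theorem osc_circle {v w : ℝ → ℝ} (hv : MemLp v 2 (volume.restrict (Ioc (-π) π)))
    (hw : IntervalIntegrable w volume (-π) π)
    (hc : ∀ k : ℕ, ∫ θ in (-π)..π, (Real.cos (k * θ) * w θ - k * Real.sin (k * θ) * v θ) = 0)
    (hs : ∀ k : ℕ, ∫ θ in (-π)..π, (Real.sin (k * θ) * w θ + k * Real.cos (k * θ) * v θ) = 0) :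
    ∃ S : Set ℝ, S ∈ ae (volume.restrict (Ioc (-π) π)) ∧ ∀ θ ∈ S, ∀ θ' ∈ S,
      |v θ - v θ'| ≤ ∫ s in (-π)..π, |w s| := by
  have hpi := Real.pi_pos
  have hab : -π < π := by linarith
  obtain ⟨c, hcc⟩ := weak_circle hv hw hc hs
  refine ⟨{θ | v θ = c + ∫ s in (-π)..θ, w s} ∩ Ioc (-π) π,
    inter_mem hcc (ae_restrict_mem measurableSet_Ioc), ?_⟩
  have hsub : ∀ θ ∈ Ioc (-π) π, IntervalIntegrable w volume (-π) θ := fun θ hθ =>
    hw.mono_set (by
      rw [uIcc_of_le hθ.1.le, uIcc_of_le hab.le]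
      exact Icc_subset_Icc le_rfl hθ.2)
  have key : ∀ θ θ' : ℝ, θ ∈ Ioc (-π) π → θ' ∈ Ioc (-π) π → θ ≤ θ' →
      |(∫ s in (-π)..θ', w s) - ∫ s in (-π)..θ, w s| ≤ ∫ s in (-π)..π, |w s| := by
    intro θ θ' hθ hθ' hle
    rw [intervalIntegral.integral_interval_sub_left (hsub θ' hθ') (hsub θ hθ)]
    refine (intervalIntegral.abs_integral_le_integral_abs hle).trans ?_
    exact intervalIntegral.integral_mono_interval hθ.1.le hle hθ'.2
      (Eventually.of_forall fun s => abs_nonneg _) hw.abs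
  rintro θ ⟨h1, hθ⟩ θ' ⟨h1', hθ'⟩
  have h1e : v θ = c + ∫ s in (-π)..θ, w s := h1
  have h1e' : v θ' = c + ∫ s in (-π)..θ', w s := h1'
  rw [h1e, h1e', add_sub_add_left_eq_sub]
  rcases le_total θ θ' with h | h
  · rw [abs_sub_comm]
    exact key θ θ' hθ hθ' h
  · exact key θ' θ hθ' hθ h

end Vale.Agent.P247.H743.E
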