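import Vale.Agent.P247.H743.Edec1

/-!
# P247, energy decay, part 2: the circle theorem for several sheets
-/

open scoped ContDiff Topology Real
open Set MeasureTheory Filter Metric

noncomputable section

namespace Vale.Agent.P247.H743.E

/-- a periodic bump function around the integers -/
def sB (n : ℕ) (x : ℝ) : ℝ := Real.smoothTransition
  ((Real.cos (2 * π * x) - Real.cos (π / n)) / (Real.cos (π / (2 * n)) - Real.cos (π / n)))

/-- a narrower bump function -/
def cB (n : ℕ) (x : ℝ) : ℝ := Real.smoothTransition (Real.cos (2 * π * x) - Real.cos (π / (2 * n)))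

/-- the staircase -/
def hB (n : ℕ) (x : ℝ) : ℝ := (∫ t in (0 : ℝ)..x, cB n t) / ∫ t in (0 : ℝ)..1, cB n t

theorem contDiff_sB (n : ℕ) : ContDiff ℝ ∞ (sB n) := by
  unfold sB
  have h : ContDiff ℝ ∞ Real.smoothTransition := Real.smoothTransition.contDiff
  have h2 : ContDiff ℝ ∞ fun x : ℝ => Real.cos (2 * π * x) :=
    Real.contDiff_cos.comp (contDiff_const.mul contDiff_id)
  exact h.comp ((h2.sub contDiff_const).div_const _)

theorem contDiff_cB (n : ℕ) : ContDiff ℝ ∞ (cB n) := by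
  unfold cB
  have h : ContDiff ℝ ∞ Real.smoothTransition := Real.smoothTransition.contDiff
  have h2 : ContDiff ℝ ∞ fun x : ℝ => Real.cos (2 * π * x) :=
    Real.contDiff_cos.comp (contDiff_const.mul contDiff_id)
  exact h.comp (h2.sub contDiff_const)

theorem sB_nonneg (n : ℕ) (x : ℝ) : 0 ≤ sB n x := Real.smoothTransition.nonneg _
theorem sB_le (n : ℕ) (x : ℝ) : sB n x ≤ 1 := Real.smoothTransition.le_one _
theorem cB_nonneg (n : ℕ) (x : ℝ) : 0 ≤ cB n x := Real.smoothTransition.nonneg _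

theorem sB_per (n : ℕ) (x : ℝ) : sB n (x + 1) = sB n x := by
  unfold sB
  have : 2 * π * (x + 1) = 2 * π * x + 2 * π := by ring
  rw [this, Real.cos_add_two_pi]

theorem cB_per (n : ℕ) (x : ℝ) : cB n (x + 1) = cB n x := by
  unfold cB
  have : 2 * π * (x + 1) = 2 * π * x + 2 * π := by ring
  rw [this, Real.cos_add_two_pi]

theorem ang {n : ℕ} (hn : 1 ≤ n) : 0 < π / (2 * n) ∧ π / (2 * n) < π / n ∧ π / n ≤ π := by
  have hpi := Real.pi_pos
  have hn1 : (1 : ℝ) ≤ n := by exact_mod_cast hn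
  have hn0 : (0 : ℝ) < n := by linarith
  refine ⟨by positivity, ?_, ?_⟩
  · exact div_lt_div_of_pos_left hpi hn0 (by linarith)
  · rw [div_le_iff₀ hn0]
    nlinarith

theorem cos_lt {n : ℕ} (hn : 1 ≤ n) : Real.cos (π / n) < Real.cos (π / (2 * n)) := by
  obtain ⟨h1, h2, h3⟩ := ang hn
  exact Real.cos_lt_cos_of_nonneg_of_le_pi h1.le h3 h2

theorem cB_pos_iff (n : ℕ) (x : ℝ) : cB n x ≠ 0 ↔ Real.cos (π / (2 * n)) < Real.cos (2 * π * x) := by
  unfold cB
  constructor
  · intro h
    by_contra hc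
    exact h (Real.smoothTransition.zero_of_nonpos (by linarith))
  · intro h
    exact (Real.smoothTransition.pos_of_pos (by linarith)).ne'

theorem sB_eq_one {n : ℕ} (hn : 1 ≤ n) {x : ℝ} (h : cB n x ≠ 0) : sB n x = 1 := by
  rw [cB_pos_iff] at h
  unfold sB
  refine Real.smoothTransition.one_of_one_le ?_
  have h1 := cos_lt hn
  rw [le_div_iff₀ (by linarith)]
  linarith

theorem sB_ne {n : ℕ} (hn : 1 ≤ n) {x : ℝ} (h : sB n x ≠ 0) :
    |x - round x| < 1 / (2 * n) := by
  obtain ⟨h1, h2, h3⟩ := ang hn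
  have hpi := Real.pi_pos
  have hn1 : (1 : ℝ) ≤ n := by exact_mod_cast hn
  have hn0 : (0 : ℝ) < n := by linarith
  have hlt := cos_lt hn
  have h4 : Real.cos (π / n) < Real.cos (2 * π * x) := by
    by_contra hc
    push Not at hc
    refine h ?_
    unfold sB
    exact Real.smoothTransition.zero_of_nonpos (div_nonpos_of_nonpos_of_nonneg (by linarith)
      (by linarith))
  have h5 : Real.cos (2 * π * x) = Real.cos (2 * π * |x - round x|) := by
    have : 2 * π * x = 2 * π * (x - round x) + round x * (2 * π) := by ring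
    rw [this, Real.cos_add_int_mul_two_pi, ← Real.cos_abs (2 * π * (x - round x)), abs_mul,
      abs_of_pos (by positivity : 0 < 2 * π)]
  rw [h5] at h4
  have h6 : |x - round x| ≤ 1 / 2 := abs_sub_round x
  by_contra hc
  push Not at hc
  have h7 : π / n ≤ 2 * π * |x - round x| := by
    have : π / n = 2 * π * (1 / (2 * n)) := by field_simp
    rw [this]
    exact mul_le_mul_of_nonneg_left hc (by positivity)
  have h8 := Real.cos_le_cos_of_nonneg_of_le_pi (by positivity) (by nlinarith :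
    2 * π * |x - round x| ≤ π) h7
  linarith

/-- different translates of the bump have disjoint supports -/
theorem sB_disj {n : ℕ} (hn : 1 ≤ n) (x : ℝ) {j j' : ℕ} (hj : j < n) (hj' : j' < n)
    (h : sB n (x - j / n) ≠ 0) (h' : sB n (x - j' / n) ≠ 0) : j = j' := by
  have hn1 : (1 : ℝ) ≤ n := by exact_mod_cast hn
  have hn0 : (0 : ℝ) < n := by linarith
  have h1 := sB_ne hn h
  have h1' := sB_ne hn h'
  set a := round (x - j / n)
  set a' := round (x - j' / n)
  have h2 : |((j : ℝ) / n + a) - ((j' : ℝ) / n + a')| < 1 / n := by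
    have e : ((j : ℝ) / n + a) - ((j' : ℝ) / n + a') =
      (x - j' / n - a') - (x - j / n - a) := by ring
    rw [e]
    have h3 := abs_sub (x - j' / n - a') (x - j / n - a)
    have h4 : 1 / (2 * (n : ℝ)) + 1 / (2 * n) = 1 / n := by field_simp; norm_num
    linarith
  have h3 : |((j : ℝ) + n * a) - (j' + n * a')| < 1 := by
    have e : ((j : ℝ) + n * a) - (j' + n * a') = n * (((j : ℝ) / n + a) - ((j' : ℝ) / n + a')) := by
      field_simp
    rw [e, abs_mul, abs_of_pos hn0]
    calc (n : ℝ) * |((j : ℝ) / n + a) - ((j' : ℝ) / n + a')| < n * (1 / n) :=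
          mul_lt_mul_of_pos_left h2 hn0
      _ = 1 := by field_simp
  have h4 : |((j : ℤ) + n * a) - (j' + n * a')| < 1 := by exact_mod_cast h3
  have h5 : ((j : ℤ) + n * a) - (j' + n * a') = 0 := by
    have := Int.abs_lt_one_iff.1 h4
    exact this
  have h6 : (j : ℤ) - j' = n * (a' - a) := by linarith
  have h7 : a' - a = 0 := by
    by_contra hc
    have h8 : (1 : ℤ) ≤ |a' - a| := Int.one_le_abs hc
    have h9 : |(j : ℤ) - j'| < n := by
      rw [abs_lt]
      constructor <;> omega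
    rw [h6, abs_mul, Nat.abs_cast] at h9
    nlinarith
  rw [h7, mul_zero] at h6
  omega

theorem int_cB_pos {n : ℕ} (hn : 1 ≤ n) : 0 < ∫ t in (0 : ℝ)..1, cB n t := by
  have hc : Continuous (cB n) := (contDiff_cB n).continuous
  refine intervalIntegral.integral_pos (by norm_num) hc.continuousOn (fun x _ => cB_nonneg n x)
    ⟨0, ⟨le_rfl, zero_le_one⟩, ?_⟩
  have h1 : cB n 0 ≠ 0 := by
    rw [cB_pos_iff, mul_zero, Real.cos_zero]
    obtain ⟨h1, h2, h3⟩ := ang hn
    rw [← Real.cos_zero]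
    exact Real.cos_lt_cos_of_nonneg_of_le_pi le_rfl (by linarith) h1
  exact lt_of_le_of_ne (cB_nonneg n 0) h1.symm

theorem hasDerivAt_hB (n : ℕ) (x : ℝ) :
    HasDerivAt (hB n) (cB n x / ∫ t in (0 : ℝ)..1, cB n t) x := by
  have hc : Continuous (cB n) := (contDiff_cB n).continuous
  exact (intervalIntegral.integral_hasDerivAt_right (hc.intervalIntegrable _ _)
    (hc.stronglyMeasurableAtFilter _ _) hc.continuousAt).div_const _

theorem contDiff_hB (n : ℕ) : ContDiff ℝ ∞ (hB n) := by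
  rw [contDiff_infty_iff_deriv]
  refine ⟨fun x => (hasDerivAt_hB n x).differentiableAt, ?_⟩
  have : deriv (hB n) = fun x => cB n x / ∫ t in (0 : ℝ)..1, cB n t :=
    funext fun x => (hasDerivAt_hB n x).deriv
  rw [this]
  exact (contDiff_cB n).div_const _

theorem hB_add {n : ℕ} (hn : 1 ≤ n) (x : ℝ) : hB n (x + 1) = hB n x + 1 := by
  have hc : Continuous (cB n) := (contDiff_cB n).continuous
  have h0 := int_cB_pos hn
  unfold hB
  have h1 : ∫ t in (0 : ℝ)..(x + 1), cB n t = (∫ t in (0 : ℝ)..x, cB n t) +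
      ∫ t in x..(x + 1), cB n t :=
    (intervalIntegral.integral_add_adjacent_intervals (hc.intervalIntegrable _ _)
      (hc.intervalIntegrable _ _)).symm
  have hp : Function.Periodic (cB n) 1 := fun x => cB_per n x
  have h2 : ∫ t in x..(x + 1), cB n t = ∫ t in (0 : ℝ)..1, cB n t := by
    have := hp.intervalIntegral_add_eq x 0
    rwa [zero_add] at this
  rw [h1, h2, add_div, div_self h0.ne']

theorem hB_mono {n : ℕ} (hn : 1 ≤ n) : Monotone (hB n) := by
  refine monotone_of_deriv_nonneg (fun x => (hasDerivAt_hB n x).differentiableAt) fun x => ?_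
  rw [(hasDerivAt_hB n x).deriv]
  exact div_nonneg (cB_nonneg n x) (int_cB_pos hn).le

theorem hB_int {n : ℕ} (hn : 1 ≤ n) (k : ℤ) : hB n k = k := by
  have h0 : hB n 0 = 0 := by
    unfold hB
    simp
  induction k using Int.induction_on with
  | zero => simpa using h0
  | succ k ih =>
    push_cast
    rw [hB_add hn]
    push_cast at ih
    rw [ih]
  | pred k ih =>
    have h1 := hB_add hn ((((-(k : ℤ) - 1 : ℤ)) : ℝ))
    have h2 : (((-(k : ℤ) - 1 : ℤ)) : ℝ) + 1 = ((-(k : ℤ) : ℤ) : ℝ) := by push_cast; ring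
    rw [h2, ih] at h1
    have h3 : (((-(k : ℤ) - 1 : ℤ)) : ℝ) = ((-(k : ℤ) : ℤ) : ℝ) - 1 := by push_cast; ring
    rw [h3] at h1 ⊢
    linarith

theorem hB_close {n : ℕ} (hn : 1 ≤ n) (x : ℝ) : |x - hB n x| ≤ 1 := by
  have h1 := hB_mono hn (Int.floor_le x)
  have h2 := hB_mono hn (Int.lt_floor_add_one x).le
  rw [hB_int hn] at h1
  have h3 := hB_int hn (⌊x⌋ + 1)
  push_cast at h3
  rw [h3] at h2
  rw [abs_le]
  constructor
  · linarith [Int.floor_le x]
  · linarith [Int.lt_floor_add_one x]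

theorem sB_lip (n : ℕ) : ∃ L : ℝ, 0 ≤ L ∧ ∀ x, |deriv (sB n) x| ≤ L := by
  have hc : Continuous (deriv (sB n)) := (contDiff_sB n).continuous_deriv (by simp)
  obtain ⟨L, hL⟩ := isCompact_Icc.exists_bound_of_continuousOn (s := Icc (0 : ℝ) 1) hc.continuousOn
  refine ⟨L, (norm_nonneg _).trans (hL 0 ⟨le_rfl, zero_le_one⟩), fun x => ?_⟩
  have hp : Function.Periodic (sB n) 1 := fun x => sB_per n x
  have hp' : Function.Periodic (deriv (sB n)) 1 := by
    intro x
    have h1 : (fun y => sB n (y + 1)) = sB n := funext fun y => sB_per n y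
    have h2 : deriv (fun y => sB n (y + 1)) x = deriv (sB n) (x + 1) := deriv_comp_add_const _ _ _
    rw [← h2, h1]
  obtain ⟨y, hy, hxy⟩ := hp'.exists_mem_Ico₀ one_pos x
  rw [hxy]
  exact hL y ⟨hy.1, hy.2.le⟩

/-- the family of bump functions of the real part -/
def Sf (n : ℕ) (q : ℝ) (j : ℕ) (y : ℂ) : ℝ := sB n (y.re / q - j / n)

/-- the family of test functions -/
def Gf (n : ℕ) (q : ℝ) (j : ℕ) (y : ℂ) : ℝ := q * (hB n (y.re / q - j / n) + j / n) * y.im

theorem contDiff_Sf (n : ℕ) (q : ℝ) (j : ℕ) : ContDiff ℝ ∞ (Sf n q j) := by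
  unfold Sf
  have h1 : ContDiff ℝ ∞ fun y : ℂ => y.re := Complex.reCLM.contDiff
  exact (contDiff_sB n).comp ((h1.div_const q).sub contDiff_const)

theorem contDiff_Gf (n : ℕ) (q : ℝ) (j : ℕ) : ContDiff ℝ ∞ (Gf n q j) := by
  unfold Gf
  have h1 : ContDiff ℝ ∞ fun y : ℂ => y.re := Complex.reCLM.contDiff
  have h2 : ContDiff ℝ ∞ fun y : ℂ => y.im := Complex.imCLM.contDiff
  exact (contDiff_const.mul (((contDiff_hB n).comp ((h1.div_const q).sub contDiff_const)).add
    contDiff_const)).mul h2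

theorem fderiv_Sf (n : ℕ) (q : ℝ) (j : ℕ) (y τ : ℂ) :
    fderiv ℝ (Sf n q j) y τ = deriv (sB n) (y.re / q - j / n) * (τ.re / q) := by
  have h1 : HasFDerivAt (fun y : ℂ => y.re / q - j / n) (q⁻¹ • Complex.reCLM) y := by
    have := (Complex.reCLM.hasFDerivAt (x := y)).const_smul q⁻¹
    refine (this.sub_const ((j : ℝ) / n)).congr_of_eventuallyEq (Eventually.of_forall fun z => ?_)
    simp [div_eq_inv_mul]
  have h2 : HasDerivAt (sB n) (deriv (sB n) (y.re / q - j / n)) (y.re / q - j / n) :=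
    ((contDiff_sB n).differentiable (by simp) _).hasDerivAt
  have h3 := h2.comp_hasFDerivAt y h1
  have h4 : fderiv ℝ (Sf n q j) y = deriv (sB n) (y.re / q - j / n) • (q⁻¹ • Complex.reCLM) :=
    h3.fderiv
  rw [h4]
  simp [div_eq_inv_mul]

theorem fderiv_Gf (n : ℕ) {q : ℝ} (hq : q ≠ 0) (j : ℕ) (y τ : ℂ) :
    fderiv ℝ (Gf n q j) y τ = (cB n (y.re / q - j / n) / ∫ t in (0 : ℝ)..1, cB n t) * τ.re * y.im +
      q * (hB n (y.re / q - j / n) + j / n) * τ.im := by
  have h1 : HasFDerivAt (fun y : ℂ => y.re / q - j / n) (q⁻¹ • Complex.reCLM) y := by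
    have := (Complex.reCLM.hasFDerivAt (x := y)).const_smul q⁻¹
    refine (this.sub_const ((j : ℝ) / n)).congr_of_eventuallyEq (Eventually.of_forall fun z => ?_)
    simp [div_eq_inv_mul]
  have h3 := (hasDerivAt_hB n (y.re / q - j / n)).comp_hasFDerivAt y h1
  have h4 := (((h3.add_const ((j : ℝ) / n)).const_mul q)).mul (Complex.imCLM.hasFDerivAt (x := y))
  have h5 : fderiv ℝ (Gf n q j) y = _ := h4.fderiv
  rw [h5]
  simp
  field_simp
  ring

end Vale.Agent.P247.H743.E
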