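import Vale.Agent.P247.H743.Edec2

/-!
# P247, energy decay, part 3: the circle theorem for several sheets
-/

open scoped ContDiff Topology Real
open Set MeasureTheory Filter Metric

noncomputable section

namespace Vale.Agent.P247.H743.E

/-- the sum of `G` over the sheets -/
def UG {N : ℕ} (G : ℂ → ℝ) (Y : Fin N → ℂ) : ℝ := ∑ i, G (Y i)

/-- its derivative -/
def TG {N : ℕ} (G : ℂ → ℝ) (Y τ : Fin N → ℂ) : ℝ := ∑ i, fderiv ℝ G (Y i) (τ i)

theorem aesm_comp {μ : Measure ℝ} {F : ℂ → ℝ} (hF : Continuous F) {y : ℝ → ℂ}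
    (hy : AEStronglyMeasurable y μ) : AEStronglyMeasurable (fun θ => F (y θ)) μ :=
  hF.comp_aestronglyMeasurable hy

theorem exists_shift {N : ℕ} (a : Fin N → ℝ) :
    ∃ j < N + 1, ∀ i, sB (N + 1) (a i - j / ((N + 1 : ℕ) : ℝ)) = 0 := by
  by_contra hc
  push Not at hc
  have h1 : ∀ j : Fin (N + 1), ∃ i, sB (N + 1) (a i - (j : ℕ) / ((N + 1 : ℕ) : ℝ)) ≠ 0 :=
    fun j => hc j j.2
  choose f hf using h1
  obtain ⟨j, j', hne, hjj⟩ := Fintype.exists_ne_map_eq_of_card_lt f (by simp)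
  have h2 := hf j'
  rw [← hjj] at h2
  exact hne (Fin.ext (sB_disj (by omega) (a (f j)) j.2 j'.2 (hf j) h2))

theorem circle (N : ℕ) : ∃ C : ℝ, 0 ≤ C ∧ ∀ (Y τ : ℝ → Fin N → ℂ),
    (∀ i, AEStronglyMeasurable (fun θ => Y θ i) (volume.restrict (Ioc (-π) π))) →
    (∀ i, IntegrableOn (fun θ => τ θ i) (Ioc (-π) π)) → (∀ θ i, ‖Y θ i‖ ≤ 1) →
    (∀ q : ℚ, 0 < q → ∀ j < N + 1, ∀ k : ℕ,
      ∫ θ in (-π)..π, (Real.cos (k * θ) * TG (Sf (N + 1) q j) (Y θ) (τ θ) -
        k * Real.sin (k * θ) * UG (Sf (N + 1) q j) (Y θ)) = 0 ∧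
      ∫ θ in (-π)..π, (Real.sin (k * θ) * TG (Sf (N + 1) q j) (Y θ) (τ θ) +
        k * Real.cos (k * θ) * UG (Sf (N + 1) q j) (Y θ)) = 0) →
    (∀ q : ℚ, 0 < q → ∀ j < N + 1, ∫ θ in (-π)..π, TG (Gf (N + 1) q j) (Y θ) (τ θ) = 0) →
    |∫ θ in (-π)..π, ∑ i, (Y θ i).re * (τ θ i).im| ≤ C * (∫ θ in (-π)..π, ∑ i, ‖τ θ i‖) ^ 2 := by
  obtain ⟨L, hL0, hL⟩ := sB_lip (N + 1)
  refine ⟨2 * (L + 1), by positivity, fun Y τ hYm hτ hYb hS hG => ?_⟩
  have hpi := Real.pi_pos
  have hab : -π < π := by linarith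
  set μ := volume.restrict (Ioc (-π) π) with hμ
  set V : ℝ := ∫ θ in (-π)..π, ∑ i, ‖τ θ i‖ with hV
  have hn : 1 ≤ N + 1 := by omega
  have hτn : IntegrableOn (fun θ => ∑ i, ‖τ θ i‖) (Ioc (-π) π) :=
    integrable_finsetSum _ fun i _ => (hτ i).norm
  have hτni : IntervalIntegrable (fun θ => ∑ i, ‖τ θ i‖) volume (-π) π := by
    rwa [intervalIntegrable_iff_integrableOn_Ioc_of_le hab.le]
  have hV0 : 0 ≤ V := intervalIntegral.integral_nonneg hab.le fun θ _ => by positivity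
  -- integrability of bounded times τ
  have hbdd : ∀ (F : ℂ → ℝ), Continuous F → ∀ i (c : ℂ →L[ℝ] ℝ),
      IntegrableOn (fun θ => F (Y θ i) * c (τ θ i)) (Ioc (-π) π) := by
    intro F hF i c
    obtain ⟨M, hM⟩ := (isCompact_closedBall (0 : ℂ) 1).exists_bound_of_continuousOn hF.continuousOn
    refine Integrable.bdd_mul (c := M) (c.integrable_comp (hτ i)) (aesm_comp hF (hYm i)) ?_
    exact Eventually.of_forall fun θ => hM _ (mem_closedBall_zero_iff.2 (hYb θ i))
  have habound : |∫ θ in (-π)..π, ∑ i, (Y θ i).re * (τ θ i).im| ≤ V := by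
    rw [hV]
    refine (intervalIntegral.abs_integral_le_integral_abs hab.le).trans ?_
    refine intervalIntegral.integral_mono_on hab.le ?_ hτni fun θ _ => ?_
    · rw [intervalIntegrable_iff_integrableOn_Ioc_of_le hab.le]
      exact (integrable_finsetSum _ fun i _ =>
        hbdd (fun y => y.re) Complex.continuous_re i Complex.imCLM).abs
    · refine (Finset.abs_sum_le_sum_abs _ _).trans (Finset.sum_le_sum fun i _ => ?_)
      rw [abs_mul]
      have h1 := (Complex.abs_re_le_norm (Y θ i)).trans (hYb θ i)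
      have h2 := Complex.abs_im_le_norm (τ θ i)
      calc |(Y θ i).re| * |(τ θ i).im| ≤ 1 * ‖τ θ i‖ :=
            mul_le_mul h1 h2 (abs_nonneg _) zero_le_one
        _ = ‖τ θ i‖ := one_mul _
  by_cases hVz : V = 0
  · rw [hVz] at habound ⊢
    simpa using habound
  have hVpos : 0 < V := lt_of_le_of_ne hV0 (Ne.symm hVz)
  obtain ⟨q, hq1, hq2⟩ := exists_rat_btwn (by nlinarith : (L + 1) * V < 2 * (L + 1) * V)
  have hq0 : (0 : ℝ) < q := lt_trans (by positivity) hq1
  have hq0' : (0 : ℚ) < q := by exact_mod_cast hq0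
  -- the oscillation bound for all shifts
  have hosc : ∀ j < N + 1, ∃ S : Set ℝ, S ∈ ae μ ∧ ∀ θ ∈ S, ∀ θ' ∈ S,
      |UG (Sf (N + 1) q j) (Y θ) - UG (Sf (N + 1) q j) (Y θ')| ≤ L / q * V := by
    intro j hj
    have hTi : ∀ i, IntegrableOn (fun θ => fderiv ℝ (Sf (N + 1) q j) (Y θ i) (τ θ i))
        (Ioc (-π) π) := by
      intro i
      simp_rw [fderiv_Sf]
      have h1 := hbdd (fun y => deriv (sB (N + 1)) (y.re / q - j / ((N + 1 : ℕ) : ℝ)))
        (((contDiff_sB (N + 1)).continuous_deriv (by simp)).comp (by fun_prop)) i Complex.reCLM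
      have h2 := h1.div_const (q : ℝ)
      refine h2.congr (Eventually.of_forall fun θ => ?_)
      simp only [Complex.reCLM_apply]
      ring
    have hTint : IntervalIntegrable (fun θ => TG (Sf (N + 1) q j) (Y θ) (τ θ)) volume (-π) π := by
      rw [intervalIntegrable_iff_integrableOn_Ioc_of_le hab.le]
      exact integrable_finsetSum _ fun i _ => hTi i
    have hUL : MemLp (fun θ => UG (Sf (N + 1) q j) (Y θ)) 2 μ := by
      refine MemLp.of_bound (C := N) ?_ (Eventually.of_forall fun θ => ?_)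
      · unfold UG
        exact Finset.aestronglyMeasurable_fun_sum _ fun i _ =>
          aesm_comp (contDiff_Sf _ _ _).continuous (hYm i)
      · unfold UG
        have h0 : 0 ≤ ∑ i, Sf (N + 1) q j (Y θ i) :=
          Finset.sum_nonneg fun i _ => sB_nonneg _ _
        rw [Real.norm_eq_abs, abs_of_nonneg h0]
        calc ∑ i, Sf (N + 1) q j (Y θ i) ≤ ∑ _i : Fin N, (1 : ℝ) :=
              Finset.sum_le_sum fun i _ => sB_le _ _
          _ = N := by simp
    obtain ⟨S, hS1, hS2⟩ := osc_circle hUL hTint (fun k => (hS q hq0' j hj k).1)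
      (fun k => (hS q hq0' j hj k).2)
    refine ⟨S, hS1, fun θ hθ θ' hθ' => (hS2 θ hθ θ' hθ').trans ?_⟩
    rw [hV, ← intervalIntegral.integral_const_mul]
    refine intervalIntegral.integral_mono_on hab.le hTint.abs (hτni.const_mul _) fun θ _ => ?_
    unfold TG
    rw [Finset.mul_sum]
    refine (Finset.abs_sum_le_sum_abs _ _).trans (Finset.sum_le_sum fun i _ => ?_)
    rw [fderiv_Sf, abs_mul, abs_div, abs_of_pos hq0]
    have h1 := hL ((Y θ i).re / q - j / ((N + 1 : ℕ) : ℝ))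
    have h2 := Complex.abs_re_le_norm (τ θ i)
    calc |deriv (sB (N + 1)) ((Y θ i).re / q - j / ((N + 1 : ℕ) : ℝ))| * (|(τ θ i).re| / q)
        ≤ L * (‖τ θ i‖ / q) := mul_le_mul h1 (by gcongr) (by positivity) hL0
      _ = L / q * ‖τ θ i‖ := by ring
  choose! S hSae hSosc using hosc
  have hall : (⋂ j ∈ Finset.range (N + 1), S j) ∈ ae μ := by
    rw [Filter.biInter_finset_mem]
    intro j hj
    exact hSae j (Finset.mem_range.1 hj)
  have hμne : μ ≠ 0 := by
    rw [hμ, Ne, Measure.restrict_eq_zero, Real.volume_Ioc]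
    simp only [ENNReal.ofReal_eq_zero, not_le]
    linarith
  have : (ae μ).NeBot := ae_neBot.2 hμne
  obtain ⟨θ₀, hθ₀⟩ := Filter.nonempty_of_mem hall
  have hθ₀' : ∀ j < N + 1, θ₀ ∈ S j := fun j hj => by
    have := mem_iInter₂.1 hθ₀ j (Finset.mem_range.2 hj)
    exact this
  obtain ⟨j, hj, hj0⟩ := exists_shift fun i => (Y θ₀ i).re / q
  have hU0 : UG (Sf (N + 1) q j) (Y θ₀) = 0 := Finset.sum_eq_zero fun i _ => hj0 i
  have hsmall : L / q * V < 1 := by
    rw [div_mul_eq_mul_div, div_lt_one hq0]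
    nlinarith
  -- off the grid lines
  have hoff : ∀ᵐ θ ∂μ, ∀ i, cB (N + 1) ((Y θ i).re / q - j / ((N + 1 : ℕ) : ℝ)) = 0 := by
    filter_upwards [hSae j hj] with θ hθ i
    by_contra hc
    have h1 := sB_eq_one hn hc
    have h2 := hSosc j hj θ hθ θ₀ (hθ₀' j hj)
    rw [hU0, sub_zero] at h2
    have h3 : (1 : ℝ) ≤ UG (Sf (N + 1) q j) (Y θ) := by
      unfold UG
      have h4 : Sf (N + 1) q j (Y θ i) = 1 := h1
      rw [← h4]
      exact Finset.single_le_sum (f := fun i => Sf (N + 1) q j (Y θ i))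
        (fun i _ => sB_nonneg _ _) (Finset.mem_univ i)
    have h5 := le_abs_self (UG (Sf (N + 1) q j) (Y θ))
    linarith
  set hh : ℂ → ℝ := fun y => q * (hB (N + 1) (y.re / q - j / ((N + 1 : ℕ) : ℝ)) +
    j / ((N + 1 : ℕ) : ℝ)) with hhh
  have hhc : Continuous hh := by
    have := (contDiff_hB (N + 1)).continuous
    fun_prop
  have hTG0 : ∫ θ in (-π)..π, ∑ i, hh (Y θ i) * (τ θ i).im = 0 := by
    rw [← hG q hq0' j hj]
    rw [intervalIntegral.integral_of_le hab.le, intervalIntegral.integral_of_le hab.le]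
    refine integral_congr_ae ?_
    filter_upwards [hoff] with θ hθ
    unfold TG
    refine Finset.sum_congr rfl fun i _ => ?_
    rw [fderiv_Gf _ hq0.ne', hθ i]
    simp [hhh]
  have hi1 : IntervalIntegrable (fun θ => ∑ i, (Y θ i).re * (τ θ i).im) volume (-π) π := by
    rw [intervalIntegrable_iff_integrableOn_Ioc_of_le hab.le]
    exact integrable_finsetSum _ fun i _ =>
      hbdd (fun y => y.re) Complex.continuous_re i Complex.imCLM
  have hi2 : IntervalIntegrable (fun θ => ∑ i, hh (Y θ i) * (τ θ i).im) volume (-π) π := by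
    rw [intervalIntegrable_iff_integrableOn_Ioc_of_le hab.le]
    exact integrable_finsetSum _ fun i _ => hbdd hh hhc i Complex.imCLM
  have hsub : ∫ θ in (-π)..π, ∑ i, (Y θ i).re * (τ θ i).im =
      ∫ θ in (-π)..π, ((∑ i, (Y θ i).re * (τ θ i).im) - ∑ i, hh (Y θ i) * (τ θ i).im) := by
    rw [intervalIntegral.integral_sub hi1 hi2, hTG0, sub_zero]
  rw [hsub]
  have hfin : |∫ θ in (-π)..π, ((∑ i, (Y θ i).re * (τ θ i).im) -
      ∑ i, hh (Y θ i) * (τ θ i).im)| ≤ q * V := by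
    refine (intervalIntegral.abs_integral_le_integral_abs hab.le).trans ?_
    rw [hV, ← intervalIntegral.integral_const_mul]
    refine intervalIntegral.integral_mono_on hab.le (hi1.sub hi2).abs (hτni.const_mul _)
      fun θ _ => ?_
    rw [← Finset.sum_sub_distrib, Finset.mul_sum]
    refine (Finset.abs_sum_le_sum_abs _ _).trans (Finset.sum_le_sum fun i _ => ?_)
    rw [← sub_mul, abs_mul]
    refine mul_le_mul ?_ (Complex.abs_im_le_norm _) (abs_nonneg _) hq0.le
    set u := (Y θ i).re / q - j / ((N + 1 : ℕ) : ℝ) with hu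
    have h1 : (Y θ i).re = q * (u + j / ((N + 1 : ℕ) : ℝ)) := by
      rw [hu]
      field_simp
      ring
    have h2 : (Y θ i).re - hh (Y θ i) = q * (u - hB (N + 1) u) := by
      rw [hhh]
      simp only
      rw [← hu]
      conv_lhs => rw [h1]
      ring
    rw [h2, abs_mul, abs_of_pos hq0]
    calc (q : ℝ) * |u - hB (N + 1) u| ≤ q * 1 := mul_le_mul_of_nonneg_left (hB_close hn u) hq0.le
      _ = q := mul_one _
  calc _ ≤ (q : ℝ) * V := hfin
    _ ≤ 2 * (L + 1) * V * V := mul_le_mul_of_nonneg_right hq2.le hV0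
    _ = 2 * (L + 1) * V ^ 2 := by ring

end Vale.Agent.P247.H743.E
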