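import Vale.Agent.P247.H743.Edec3
import Vale.Agent.P247.H574.Sta2

/-!
# P247, energy decay, part 4: the tangential and the quadratic identities
-/

open scoped ContDiff Topology Real
open Set MeasureTheory Filter Metric

noncomputable section

namespace Vale.Agent.P247.H743.E

open Vale.Agent.P247.H574 Vale.Agent.P247.H74

/-- `∂` and `∂̄` -/
def dz (a : ℂ → ℂ) (z : ℂ) : ℂ := (fderiv ℝ a z 1 - Complex.I * fderiv ℝ a z Complex.I) / 2
def dzb (a : ℂ → ℂ) (z : ℂ) : ℂ := (fderiv ℝ a z 1 + Complex.I * fderiv ℝ a z Complex.I) / 2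

/-- `τ = ∂_θ Y` -/
def tau {N : ℕ} (x : ℂ) (P Q : ℂ → Fin N → ℂ) (z : ℂ) (i : Fin N) : ℂ :=
  Complex.I * ((z - x) * P z i - (starRingEnd ℂ) (z - x) * Q z i)

/-- the data used for the energy decay -/
structure Pre (N : ℕ) (ρ : ℝ) (Y P Q : ℂ → Fin N → ℂ) (R : Measure (ℂ × ℂ)) : Prop where
  measY : ∀ i, Measurable fun z => Y z i
  measP : ∀ i, Measurable fun z => P z i
  measQ : ∀ i, Measurable fun z => Q z i
  bdd : ∀ z i, ‖Y z i‖ ≤ ρ
  ρ_lt : ρ < 1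
  L2P : ∀ i, MemLp (fun z => P z i) 2 (volume.restrict (ball 0 1))
  L2Q : ∀ i, MemLp (fun z => Q z i) 2 (volume.restrict (ball 0 1))
  chain : ∀ f : ℂ × ℂ → ℂ, ContDiff ℝ ∞ f → HasCompactSupport f →
    tsupport f ⊆ ball (0 : ℂ) 1 ×ˢ univ →
    ∫ z in ball (0 : ℂ) 1, ∑ i, (dC f (z, Y z i) (1, 0) + dC f (z, Y z i) (0, 1) * P z i
      + dbC f (z, Y z i) (0, 1) * (starRingEnd ℂ) (Q z i)) = 0
  chainb : ∀ f : ℂ × ℂ → ℂ, ContDiff ℝ ∞ f → HasCompactSupport f →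
    tsupport f ⊆ ball (0 : ℂ) 1 ×ˢ univ →
    ∫ z in ball (0 : ℂ) 1, ∑ i, (dbC f (z, Y z i) (1, 0)
      + dC f (z, Y z i) (0, 1) * Q z i
      + dbC f (z, Y z i) (0, 1) * (starRingEnd ℂ) (P z i)) = 0
  Rfin : R univ < ⊤
  Rsupp : ∀ᵐ p ∂(R), ‖p.1‖ < 1 ∧ ‖p.2‖ ≤ ρ
  quad : ∀ f : ℂ × ℂ → ℂ, ContDiff ℝ ∞ f → HasCompactSupport f →
    tsupport f ⊆ ball (0 : ℂ) 1 ×ˢ univ →
    (∫ z in ball (0 : ℂ) 1, ∑ i, (dC f (z, Y z i) (1, 0) * (starRingEnd ℂ) (P z i)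
      - dbC f (z, Y z i) (1, 0) * (starRingEnd ℂ) (Q z i)
      + dC f (z, Y z i) (0, 1) *
        ((‖P z i‖ ^ 2 - ‖Q z i‖ ^ 2 : ℝ) : ℂ)))
      + ∫ p, dC f p (0, 1) ∂(R) = 0

theorem clm_eq (L : ℂ →L[ℝ] ℂ) (w : ℂ) : L w = w * ((L 1 - Complex.I * L Complex.I) / 2) +
    (starRingEnd ℂ) w * ((L 1 + Complex.I * L Complex.I) / 2) := by
  have h1 : w = w.re • (1 : ℂ) + w.im • Complex.I := by
    simp [Complex.re_add_im]
  have h2 : L w = w.re * L 1 + w.im * L Complex.I := by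
    conv_lhs => rw [h1]
    rw [map_add, map_smul, map_smul]
    simp
  have h3 : (starRingEnd ℂ) w = w.re - w.im * Complex.I := by
    apply Complex.ext <;> simp
  have h4 : w = w.re + w.im * Complex.I := (Complex.re_add_im w).symm
  rw [h2, h3]
  conv_rhs => rw [h4]
  simp only [Complex.add_re, Complex.ofReal_re, Complex.mul_re, Complex.I_re, mul_zero,
    Complex.ofReal_im, Complex.I_im, mul_one, sub_self, add_zero, Complex.add_im, Complex.mul_im,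
    zero_add]
  ring_nf
  rw [Complex.I_sq]
  ring

/-- the derivative of a product `a (z) g (y)` -/
theorem fderiv_prod {a g : ℂ → ℂ} {z y : ℂ} (ha : DifferentiableAt ℝ a z)
    (hg : DifferentiableAt ℝ g y) (v w : ℂ) :
    fderiv ℝ (fun p : ℂ × ℂ => a p.1 * g p.2) (z, y) (v, w) =
      fderiv ℝ a z v * g y + a z * fderiv ℝ g y w := by
  have h1 : HasFDerivAt (fun p : ℂ × ℂ => a p.1)
      ((fderiv ℝ a z).comp (ContinuousLinearMap.fst ℝ ℂ ℂ)) (z, y) :=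
    HasFDerivAt.comp (g := a) (z, y) ha.hasFDerivAt hasFDerivAt_fst
  have h2 : HasFDerivAt (fun p : ℂ × ℂ => g p.2)
      ((fderiv ℝ g y).comp (ContinuousLinearMap.snd ℝ ℂ ℂ)) (z, y) :=
    HasFDerivAt.comp (g := g) (z, y) hg.hasFDerivAt hasFDerivAt_snd
  have h3 : fderiv ℝ (fun p : ℂ × ℂ => a p.1 * g p.2) (z, y) = _ := (h1.mul h2).fderiv
  rw [h3]
  simp only [_root_.add_apply, _root_.smul_apply, ContinuousLinearMap.comp_apply,
    ContinuousLinearMap.coe_fst', ContinuousLinearMap.coe_snd', smul_eq_mul]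
  ring

section

variable {a g : ℂ → ℂ} {z y : ℂ} (ha : DifferentiableAt ℝ a z) (hg : DifferentiableAt ℝ g y)

include ha hg

theorem dC_1 : dC (fun p : ℂ × ℂ => a p.1 * g p.2) (z, y) (1, 0) = dz a z * g y := by
  unfold dC dz
  have h : (Complex.I • ((1 : ℂ), (0 : ℂ))) = (Complex.I, 0) := by simp
  rw [h, fderiv_prod ha hg, fderiv_prod ha hg, map_zero, mul_zero]
  ring

theorem dbC_1 : dbC (fun p : ℂ × ℂ => a p.1 * g p.2) (z, y) (1, 0) = dzb a z * g y := by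
  unfold dbC dzb
  have h : (Complex.I • ((1 : ℂ), (0 : ℂ))) = (Complex.I, 0) := by simp
  rw [h, fderiv_prod ha hg, fderiv_prod ha hg, map_zero, mul_zero]
  ring

theorem dC_2 : dC (fun p : ℂ × ℂ => a p.1 * g p.2) (z, y) (0, 1) = a z * dz g y := by
  unfold dC dz
  have h : (Complex.I • ((0 : ℂ), (1 : ℂ))) = (0, Complex.I) := by simp
  rw [h, fderiv_prod ha hg, fderiv_prod ha hg, map_zero, zero_mul]
  ring

theorem dbC_2 : dbC (fun p : ℂ × ℂ => a p.1 * g p.2) (z, y) (0, 1) = a z * dzb g y := by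
  unfold dbC dzb
  have h : (Complex.I • ((0 : ℂ), (1 : ℂ))) = (0, Complex.I) := by simp
  rw [h, fderiv_prod ha hg, fderiv_prod ha hg, map_zero, zero_mul]
  ring

end

theorem prod_compact {a g : ℂ → ℂ} (hca : HasCompactSupport a) (hcg : HasCompactSupport g)
    (hs : tsupport a ⊆ ball 0 1) : HasCompactSupport (fun p : ℂ × ℂ => a p.1 * g p.2) ∧
      tsupport (fun p : ℂ × ℂ => a p.1 * g p.2) ⊆ ball (0 : ℂ) 1 ×ˢ univ := by
  have h1 : Function.support (fun p : ℂ × ℂ => a p.1 * g p.2) ⊆ tsupport a ×ˢ tsupport g := by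
    intro p hp
    have h2 : a p.1 * g p.2 ≠ 0 := hp
    exact ⟨subset_tsupport a (left_ne_zero_of_mul h2), subset_tsupport g (right_ne_zero_of_mul h2)⟩
  have hcomp : IsCompact (tsupport a ×ˢ tsupport g) := hca.isCompact.prod hcg.isCompact
  have h3 : tsupport (fun p : ℂ × ℂ => a p.1 * g p.2) ⊆ tsupport a ×ˢ tsupport g :=
    closure_minimal h1 hcomp.isClosed
  exact ⟨HasCompactSupport.of_support_subset_isCompact hcomp h1,
    fun p hp => ⟨hs (h3 hp).1, mem_univ _⟩⟩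

theorem prod_smooth {a g : ℂ → ℂ} (ha : ContDiff ℝ ∞ a) (hg : ContDiff ℝ ∞ g) :
    ContDiff ℝ ∞ (fun p : ℂ × ℂ => a p.1 * g p.2) :=
  (ha.comp contDiff_fst).mul (hg.comp contDiff_snd)

/-- the cut off -/
def kap : ContDiffBump (0 : ℂ) := ⟨1, 2, one_pos, one_lt_two⟩

/-- cut off of a real function -/
def cut (G : ℂ → ℝ) (y : ℂ) : ℂ := ((kap y * G y : ℝ) : ℂ)

theorem cut_smooth {G : ℂ → ℝ} (hG : ContDiff ℝ ∞ G) : ContDiff ℝ ∞ (cut G) :=
  Complex.ofRealCLM.contDiff.comp (kap.contDiff.mul hG)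

theorem cut_compact (G : ℂ → ℝ) : HasCompactSupport (cut G) := by
  refine kap.hasCompactSupport.mono ?_
  intro y hy
  rw [Function.mem_support] at hy ⊢
  intro h
  apply hy
  unfold cut
  rw [h, zero_mul, Complex.ofReal_zero]

theorem cut_eq (G : ℂ → ℝ) {y : ℂ} (hy : ‖y‖ < 1) : cut G =ᶠ[𝓝 y] fun y => ((G y : ℝ) : ℂ) := by
  have h1 : y ∈ ball (0 : ℂ) 1 := mem_ball_zero_iff.2 hy
  filter_upwards [isOpen_ball.mem_nhds h1] with w hw
  unfold cut
  rw [kap.one_of_mem_closedBall (ball_subset_closedBall hw), one_mul]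

theorem cut_val (G : ℂ → ℝ) {y : ℂ} (hy : ‖y‖ < 1) : cut G y = G y := (cut_eq G hy).eq_of_nhds

theorem fderiv_cut {G : ℂ → ℝ} (hG : ContDiff ℝ ∞ G) {y : ℂ} (hy : ‖y‖ < 1) (v : ℂ) :
    fderiv ℝ (cut G) y v = ((fderiv ℝ G y v : ℝ) : ℂ) := by
  rw [(cut_eq G hy).fderiv_eq]
  have h1 := (hG.differentiable (by simp) y).hasFDerivAt
  have h2 : HasFDerivAt (fun y => ((G y : ℝ) : ℂ)) (Complex.ofRealCLM.comp (fderiv ℝ G y)) y :=
    Complex.ofRealCLM.hasFDerivAt.comp y h1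
  rw [h2.fderiv]
  rfl

/-! ## Integrability -/

section

variable {N : ℕ} {ρ : ℝ} {Y P Q : ℂ → Fin N → ℂ} {R : Measure (ℂ × ℂ)}

instance finite_ball : IsFiniteMeasure (volume.restrict (ball (0 : ℂ) 1)) :=
  ⟨by rw [Measure.restrict_apply_univ]; exact measure_ball_lt_top⟩

theorem Pre.bound (h : Pre N ρ Y P Q R) {b : ℂ × ℂ → ℂ} (hb : Continuous b) :
    ∃ M, ∀ z ∈ ball (0 : ℂ) 1, ∀ i, ‖b (z, Y z i)‖ ≤ M := by
  have hc : IsCompact (closedBall (0 : ℂ) 1 ×ˢ closedBall (0 : ℂ) ρ) :=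
    (isCompact_closedBall _ _).prod (isCompact_closedBall _ _)
  obtain ⟨M, hM⟩ := hc.exists_bound_of_continuousOn hb.continuousOn
  exact ⟨M, fun z hz i => hM _ ⟨ball_subset_closedBall hz, mem_closedBall_zero_iff.2 (h.bdd z i)⟩⟩

theorem Pre.aesm (h : Pre N ρ Y P Q R) {b : ℂ × ℂ → ℂ} (hb : Continuous b) (i : Fin N) :
    Measurable (fun z => b (z, Y z i)) :=
  hb.measurable.comp (measurable_id.prodMk (h.measY i))

theorem Pre.int_b (h : Pre N ρ Y P Q R) {b : ℂ × ℂ → ℂ} (hb : Continuous b) (i : Fin N) :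
    IntegrableOn (fun z => b (z, Y z i)) (ball 0 1) := by
  obtain ⟨M, hM⟩ := h.bound hb
  refine Integrable.of_bound (h.aesm hb i).aestronglyMeasurable M ?_
  filter_upwards [ae_restrict_mem measurableSet_ball] with z hz
  exact hM z hz i

theorem Pre.int_bu (h : Pre N ρ Y P Q R) {b : ℂ × ℂ → ℂ} (hb : Continuous b) (i : Fin N)
    {u : ℂ → ℂ} (hu : IntegrableOn u (ball 0 1)) :
    IntegrableOn (fun z => b (z, Y z i) * u z) (ball 0 1) := by
  obtain ⟨M, hM⟩ := h.bound hb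
  refine Integrable.bdd_mul (c := M) hu (h.aesm hb i).aestronglyMeasurable ?_
  filter_upwards [ae_restrict_mem measurableSet_ball] with z hz
  exact hM z hz i

theorem Pre.intP (h : Pre N ρ Y P Q R) (i : Fin N) : IntegrableOn (fun z => P z i) (ball 0 1) :=
  (h.L2P i).integrable (by norm_num)

theorem Pre.intQ (h : Pre N ρ Y P Q R) (i : Fin N) : IntegrableOn (fun z => Q z i) (ball 0 1) :=
  (h.L2Q i).integrable (by norm_num)

theorem int_conj {u : ℂ → ℂ} (hu : IntegrableOn u (ball 0 1)) :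
    IntegrableOn (fun z => (starRingEnd ℂ) (u z)) (ball 0 1) :=
  (Complex.conjCLE : ℂ →L[ℝ] ℂ).integrable_comp hu

theorem cont_dC {f : ℂ × ℂ → ℂ} (hf : ContDiff ℝ ∞ f) (v : ℂ × ℂ) :
    Continuous (fun p => dC f p v) := by
  unfold dC
  have h1 := hf.continuous_fderiv (by simp)
  exact ((h1.clm_apply continuous_const).sub (continuous_const.mul
    (h1.clm_apply continuous_const))).div_const _

theorem cont_dbC {f : ℂ × ℂ → ℂ} (hf : ContDiff ℝ ∞ f) (v : ℂ × ℂ) :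
    Continuous (fun p => dbC f p v) := by
  unfold dbC
  have h1 := hf.continuous_fderiv (by simp)
  exact ((h1.clm_apply continuous_const).add (continuous_const.mul
    (h1.clm_apply continuous_const))).div_const _

/-- **The tangential identity.** -/
theorem Pre.tan (h : Pre N ρ Y P Q R) (x : ℂ) {ψ : ℂ → ℂ} (hψ : ContDiff ℝ ∞ ψ)
    (hc : HasCompactSupport ψ) (hs : tsupport ψ ⊆ ball 0 1) {G : ℂ → ℝ} (hG : ContDiff ℝ ∞ G) :
    ∫ z in ball (0 : ℂ) 1, (fderiv ℝ ψ z (Complex.I * (z - x)) * (UG G (Y z) : ℂ) +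
      ψ z * (TG G (Y z) (tau x P Q z) : ℂ)) = 0 := by
  set a₁ : ℂ → ℂ := fun z => (z - x) * ψ z with ha₁
  set a₂ : ℂ → ℂ := fun z => (starRingEnd ℂ) (z - x) * ψ z with ha₂
  have hid : ContDiff ℝ ∞ fun z : ℂ => z - x := contDiff_id.sub contDiff_const
  have hcj : ContDiff ℝ ∞ fun z : ℂ => (starRingEnd ℂ) (z - x) :=
    (Complex.conjCLE : ℂ →L[ℝ] ℂ).contDiff.comp hid
  have hs₁ : ContDiff ℝ ∞ a₁ := hid.mul hψ
  have hs₂ : ContDiff ℝ ∞ a₂ := hcj.mul hψ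
  have hsub : ∀ (c : ℂ → ℂ), tsupport (fun z => c z * ψ z) ⊆ tsupport ψ := fun c =>
    closure_mono (fun z hz => right_ne_zero_of_mul hz)
  have hc₁ : HasCompactSupport a₁ := hc.mul_left
  have hc₂ : HasCompactSupport a₂ := hc.mul_left
  have hg := cut_smooth hG
  have hgc := cut_compact G
  obtain ⟨hf₁c, hf₁s⟩ := prod_compact hc₁ hgc ((hsub _).trans hs)
  obtain ⟨hf₂c, hf₂s⟩ := prod_compact hc₂ hgc ((hsub _).trans hs)
  have hf₁ := prod_smooth hs₁ hg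
  have hf₂ := prod_smooth hs₂ hg
  have e1 := h.chain _ hf₁ hf₁c hf₁s
  have e2 := h.chainb _ hf₂ hf₂c hf₂s
  have i1 : IntegrableOn (fun z => ∑ i, (dC (fun p : ℂ × ℂ => a₁ p.1 * cut G p.2) (z, Y z i) (1, 0)
      + dC (fun p : ℂ × ℂ => a₁ p.1 * cut G p.2) (z, Y z i) (0, 1) * P z i
      + dbC (fun p : ℂ × ℂ => a₁ p.1 * cut G p.2) (z, Y z i) (0, 1) *
        (starRingEnd ℂ) (Q z i))) (ball 0 1) :=
    integrable_finsetSum _ fun i _ => ((h.int_b (cont_dC hf₁ _) i).add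
      (h.int_bu (cont_dC hf₁ _) i (h.intP i))).add
      (h.int_bu (cont_dbC hf₁ _) i (int_conj (h.intQ i)))
  have i2 : IntegrableOn (fun z => ∑ i, (dbC (fun p : ℂ × ℂ => a₂ p.1 * cut G p.2) (z, Y z i) (1, 0)
      + dC (fun p : ℂ × ℂ => a₂ p.1 * cut G p.2) (z, Y z i) (0, 1) * Q z i
      + dbC (fun p : ℂ × ℂ => a₂ p.1 * cut G p.2) (z, Y z i) (0, 1) *
        (starRingEnd ℂ) (P z i))) (ball 0 1) :=
    integrable_finsetSum _ fun i _ => ((h.int_b (cont_dbC hf₂ _) i).add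
      (h.int_bu (cont_dC hf₂ _) i (h.intQ i))).add
      (h.int_bu (cont_dbC hf₂ _) i (int_conj (h.intP i)))
  have e3 : ∫ z in ball (0 : ℂ) 1, (Complex.I *
      (∑ i, (dC (fun p : ℂ × ℂ => a₁ p.1 * cut G p.2) (z, Y z i) (1, 0)
      + dC (fun p : ℂ × ℂ => a₁ p.1 * cut G p.2) (z, Y z i) (0, 1) * P z i
      + dbC (fun p : ℂ × ℂ => a₁ p.1 * cut G p.2) (z, Y z i) (0, 1) *
        (starRingEnd ℂ) (Q z i))) - Complex.I *
      (∑ i, (dbC (fun p : ℂ × ℂ => a₂ p.1 * cut G p.2) (z, Y z i) (1, 0)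
      + dC (fun p : ℂ × ℂ => a₂ p.1 * cut G p.2) (z, Y z i) (0, 1) * Q z i
      + dbC (fun p : ℂ × ℂ => a₂ p.1 * cut G p.2) (z, Y z i) (0, 1) *
        (starRingEnd ℂ) (P z i)))) = 0 := by
    rw [integral_sub (i1.const_mul _) (i2.const_mul _), integral_const_mul, integral_const_mul,
      e1, e2]
    ring
  refine Eq.trans ?_ e3
  have hM : MeasurableSet (ball (0 : ℂ) 1) := measurableSet_ball
  refine setIntegral_congr_fun hM fun z _ => ?_
  have hψd : DifferentiableAt ℝ ψ z := hψ.differentiable (by simp) z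
  have hYi : ∀ i, ‖Y z i‖ < 1 := fun i => lt_of_le_of_lt (h.bdd z i) h.ρ_lt
  have hdz₁ : dz a₁ z = ψ z + (z - x) * dz ψ z := by
    have h1 : HasFDerivAt a₁ ((z - x) • fderiv ℝ ψ z + ψ z • ContinuousLinearMap.id ℝ ℂ) z :=
      ((hasFDerivAt_id z).sub_const x).mul hψd.hasFDerivAt
    unfold dz
    rw [h1.fderiv]
    simp only [_root_.add_apply, _root_.smul_apply, ContinuousLinearMap.id_apply, smul_eq_mul]
    ring_nf
    rw [Complex.I_sq]
    ring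
  have hdz₂ : dzb a₂ z = ψ z + (starRingEnd ℂ) (z - x) * dzb ψ z := by
    have h0 : HasFDerivAt (fun z : ℂ => (starRingEnd ℂ) (z - x)) (Complex.conjCLE : ℂ →L[ℝ] ℂ) z :=
      (Complex.conjCLE : ℂ →L[ℝ] ℂ).hasFDerivAt.comp z ((hasFDerivAt_id z).sub_const x)
    have h1 : HasFDerivAt a₂ ((starRingEnd ℂ) (z - x) • fderiv ℝ ψ z +
      ψ z • (Complex.conjCLE : ℂ →L[ℝ] ℂ)) z := h0.mul hψd.hasFDerivAt
    unfold dzb
    rw [h1.fderiv]
    simp only [_root_.add_apply, _root_.smul_apply, smul_eq_mul, ContinuousLinearEquiv.coe_coe,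
      Complex.conjCLE_apply, map_one, Complex.conj_I]
    ring_nf
    rw [Complex.I_sq]
    ring
  have hda₁ : DifferentiableAt ℝ a₁ z := hs₁.differentiable (by simp) z
  have hda₂ : DifferentiableAt ℝ a₂ z := hs₂.differentiable (by simp) z
  have hgd : ∀ i, DifferentiableAt ℝ (cut G) (Y z i) := fun i => hg.differentiable (by simp) _
  unfold UG TG
  push_cast
  rw [Finset.mul_sum, Finset.mul_sum, Finset.mul_sum, Finset.mul_sum, ← Finset.sum_add_distrib,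
    ← Finset.sum_sub_distrib]
  refine Finset.sum_congr rfl fun i _ => ?_
  rw [dC_1 hda₁ (hgd i), dC_2 hda₁ (hgd i), dbC_2 hda₁ (hgd i), dbC_1 hda₂ (hgd i),
    dC_2 hda₂ (hgd i), dbC_2 hda₂ (hgd i), hdz₁, hdz₂, cut_val G (hYi i)]
  have hT : ((fderiv ℝ G (Y z i) (tau x P Q z i) : ℝ) : ℂ) =
      tau x P Q z i * dz (cut G) (Y z i) + (starRingEnd ℂ) (tau x P Q z i) * dzb (cut G) (Y z i) := by
    rw [← fderiv_cut hG (hYi i), clm_eq]
    rfl
  have hW : fderiv ℝ ψ z (Complex.I * (z - x)) = Complex.I * (z - x) * dz ψ z +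
      (starRingEnd ℂ) (Complex.I * (z - x)) * dzb ψ z := by
    rw [clm_eq]
    rfl
  rw [hT, hW]
  unfold tau
  simp only [map_mul, map_sub, Complex.conj_I, Complex.conj_conj, ha₁, ha₂]
  ring

end

end Vale.Agent.P247.H743.E
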