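import Vale.Agent.P247.H743.Edec4

/-!
# P247, energy decay, part 5: the quadratic identity for radial cut offs
-/

open scoped ContDiff Topology Real
open Set MeasureTheory Filter Metric

noncomputable section

namespace Vale.Agent.P247.H743.E

open Vale.Agent.P247.H574 Vale.Agent.P247.H74

/-- radial functions -/
def rad (η : ℝ → ℝ) (x z : ℂ) : ℂ := ((η (‖z - x‖ ^ 2) : ℝ) : ℂ)

theorem hasFDerivAt_rad {η : ℝ → ℝ} (hη : ContDiff ℝ ∞ η) (x z : ℂ) :
    HasFDerivAt (rad η x) (Complex.ofRealCLM.comp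
      (deriv η (‖z - x‖ ^ 2) • ((2 : ℝ) • innerSL ℝ (z - x)))) z := by
  have h1 : HasFDerivAt (fun z : ℂ => ‖z - x‖ ^ 2) ((2 : ℝ) • innerSL ℝ (z - x)) z := by
    have h2 := (hasStrictFDerivAt_norm_sq (z - x)).hasFDerivAt
    have h3 := h2.comp z ((hasFDerivAt_id z).sub_const x)
    refine h3.congr_fderiv ?_
    ext v
    simp
  have h2 : HasDerivAt η (deriv η (‖z - x‖ ^ 2)) (‖z - x‖ ^ 2) :=
    (hη.differentiable (by simp) _).hasDerivAt
  exact Complex.ofRealCLM.hasFDerivAt.comp z (h2.comp_hasFDerivAt z h1)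

theorem rad_smooth {η : ℝ → ℝ} (hη : ContDiff ℝ ∞ η) (x : ℂ) : ContDiff ℝ ∞ (rad η x) := by
  have h1 : ContDiff ℝ ∞ fun z : ℂ => ‖z - x‖ ^ 2 :=
    (contDiff_norm_sq ℝ).comp (contDiff_id.sub contDiff_const)
  exact Complex.ofRealCLM.contDiff.comp (hη.comp h1)

theorem fderiv_rad {η : ℝ → ℝ} (hη : ContDiff ℝ ∞ η) (x z v : ℂ) :
    fderiv ℝ (rad η x) z v = ((deriv η (‖z - x‖ ^ 2) * (2 * ((z - x).re * v.re +
      (z - x).im * v.im)) : ℝ) : ℂ) := by
  rw [(hasFDerivAt_rad hη x z).fderiv]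
  simp only [ContinuousLinearMap.comp_apply, _root_.smul_apply, Complex.ofRealCLM_apply,
    smul_eq_mul, innerSL_apply_apply, Complex.inner]
  congr 3
  simp
  ring

theorem dz_rad {η : ℝ → ℝ} (hη : ContDiff ℝ ∞ η) (x z : ℂ) :
    dz (rad η x) z = ((deriv η (‖z - x‖ ^ 2) : ℝ) : ℂ) * (starRingEnd ℂ) (z - x) := by
  unfold dz
  rw [fderiv_rad hη, fderiv_rad hη]
  set w := z - x
  have h : (starRingEnd ℂ) w = (w.re : ℂ) - (w.im : ℂ) * Complex.I := by
    apply Complex.ext <;> simp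
  rw [h]
  simp only [Complex.one_re, Complex.one_im, Complex.I_re, Complex.I_im]
  push_cast
  ring

theorem dzb_rad {η : ℝ → ℝ} (hη : ContDiff ℝ ∞ η) (x z : ℂ) :
    dzb (rad η x) z = ((deriv η (‖z - x‖ ^ 2) : ℝ) : ℂ) * (z - x) := by
  unfold dzb
  rw [fderiv_rad hη, fderiv_rad hη]
  set w := z - x
  have h : ((deriv η (‖w‖ ^ 2) : ℝ) : ℂ) * w =
      ((deriv η (‖w‖ ^ 2) : ℝ) : ℂ) * ((w.re : ℂ) + (w.im : ℂ) * Complex.I) := by
    rw [Complex.re_add_im]
  rw [h]
  simp only [Complex.one_re, Complex.one_im, Complex.I_re, Complex.I_im]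
  push_cast
  ring

theorem rad_tan {η : ℝ → ℝ} (hη : ContDiff ℝ ∞ η) (x z : ℂ) :
    fderiv ℝ (rad η x) z (Complex.I * (z - x)) = 0 := by
  rw [fderiv_rad hη]
  simp only [Complex.mul_re, Complex.mul_im, Complex.I_re, Complex.I_im]
  norm_cast
  ring

/-- `y ↦ κ (y) y` -/
def gid (y : ℂ) : ℂ := (kap y : ℂ) * y

theorem gid_smooth : ContDiff ℝ ∞ gid :=
  (Complex.ofRealCLM.contDiff.comp kap.contDiff).mul contDiff_id

theorem gid_compact : HasCompactSupport gid := by
  refine kap.hasCompactSupport.mono ?_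
  intro y hy
  rw [Function.mem_support] at hy ⊢
  intro h
  apply hy
  unfold gid
  rw [h, Complex.ofReal_zero, zero_mul]

theorem gid_eq {y : ℂ} (hy : ‖y‖ < 1) : gid =ᶠ[𝓝 y] id := by
  have h1 : y ∈ ball (0 : ℂ) 1 := mem_ball_zero_iff.2 hy
  filter_upwards [isOpen_ball.mem_nhds h1] with w hw
  unfold gid
  rw [kap.one_of_mem_closedBall (ball_subset_closedBall hw), Complex.ofReal_one, one_mul]
  rfl

theorem dz_gid {y : ℂ} (hy : ‖y‖ < 1) : dz gid y = 1 := by
  unfold dz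
  rw [(gid_eq hy).fderiv_eq, fderiv_id]
  simp

/-- `re * im` -/
def Gri (y : ℂ) : ℝ := y.re * y.im

theorem Gri_smooth : ContDiff ℝ ∞ Gri :=
  Complex.reCLM.contDiff.mul Complex.imCLM.contDiff

theorem fderiv_Gri (y v : ℂ) : fderiv ℝ Gri y v = y.re * v.im + v.re * y.im := by
  have h1 : HasFDerivAt Gri (y.re • Complex.imCLM + y.im • Complex.reCLM) y :=
    (Complex.reCLM.hasFDerivAt (x := y)).mul (Complex.imCLM.hasFDerivAt (x := y))
  rw [h1.fderiv]
  simp
  ring

section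

variable {N : ℕ} {ρ : ℝ} {Y P Q : ℂ → Fin N → ℂ} {R : Measure (ℂ × ℂ)}

theorem Pre.sqP (h : Pre N ρ Y P Q R) (i : Fin N) :
    IntegrableOn (fun z => ‖P z i‖ ^ 2) (ball 0 1) :=
  (memLp_two_iff_integrable_sq_norm (h.L2P i).1).1 (h.L2P i)

theorem Pre.sqQ (h : Pre N ρ Y P Q R) (i : Fin N) :
    IntegrableOn (fun z => ‖Q z i‖ ^ 2) (ball 0 1) :=
  (memLp_two_iff_integrable_sq_norm (h.L2Q i).1).1 (h.L2Q i)

theorem int_cont_mul {E : Type*} [NormedAddCommGroup E] [NormedSpace ℝ E] {w : ℂ → ℝ}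
    (hw : Continuous w) {u : ℂ → E} (hu : IntegrableOn u (ball 0 1)) :
    IntegrableOn (fun z => w z • u z) (ball 0 1) := by
  obtain ⟨M, hM⟩ := (isCompact_closedBall (0 : ℂ) 1).exists_bound_of_continuousOn hw.continuousOn
  refine Integrable.bdd_smul (C := M) hu hw.aestronglyMeasurable ?_
  filter_upwards [ae_restrict_mem measurableSet_ball] with z hz
  exact hM z (ball_subset_closedBall hz)

theorem Pre.int_tau (h : Pre N ρ Y P Q R) (x : ℂ) (i : Fin N) :
    IntegrableOn (fun z => tau x P Q z i) (ball 0 1) := by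
  have hz : ContinuousOn (fun z : ℂ => z - x) (closedBall 0 1) := by fun_prop
  obtain ⟨M, hM⟩ := (isCompact_closedBall (0 : ℂ) 1).exists_bound_of_continuousOn hz
  have h1 : IntegrableOn (fun z => (z - x) * P z i) (ball 0 1) := by
    refine Integrable.bdd_mul (c := M) (h.intP i) (by fun_prop : Continuous fun z : ℂ =>
      z - x).aestronglyMeasurable ?_
    filter_upwards [ae_restrict_mem measurableSet_ball] with z hz
    exact hM z (ball_subset_closedBall hz)
  have h2 : IntegrableOn (fun z => (starRingEnd ℂ) (z - x) * Q z i) (ball 0 1) := by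
    refine Integrable.bdd_mul (c := M) (h.intQ i) (Complex.continuous_conj.comp
      (by fun_prop : Continuous fun z : ℂ => z - x)).aestronglyMeasurable ?_
    filter_upwards [ae_restrict_mem measurableSet_ball] with z hz
    rw [RCLike.norm_conj]
    exact hM z (ball_subset_closedBall hz)
  exact (h1.sub h2).const_mul Complex.I

theorem Pre.meas_tau (h : Pre N ρ Y P Q R) (x : ℂ) (i : Fin N) :
    Measurable (fun z => tau x P Q z i) := by
  unfold tau
  have h1 := h.measP i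
  have h2 := h.measQ i
  have h3 : Measurable fun z : ℂ => (starRingEnd ℂ) (z - x) :=
    Complex.continuous_conj.measurable.comp (measurable_id.sub_const x)
  exact (((measurable_id.sub_const x).mul h1).sub (h3.mul h2)).const_mul _

/-- bounded continuous function of `Y` times `τ` -/
theorem Pre.int_Ytau (h : Pre N ρ Y P Q R) (x : ℂ) {F : ℂ → ℝ} (hF : Continuous F) (i : Fin N)
    (c : ℂ →L[ℝ] ℝ) : IntegrableOn (fun z => F (Y z i) * c (tau x P Q z i)) (ball 0 1) := by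
  obtain ⟨M, hM⟩ := (isCompact_closedBall (0 : ℂ) ρ).exists_bound_of_continuousOn hF.continuousOn
  refine Integrable.bdd_mul (c := M) (c.integrable_comp (h.int_tau x i))
    (hF.measurable.comp (h.measY i)).aestronglyMeasurable ?_
  exact Eventually.of_forall fun z => hM _ (mem_closedBall_zero_iff.2 (h.bdd z i))

/-- **The key identity.** -/
theorem Pre.key (h : Pre N ρ Y P Q R) (x : ℂ) {η : ℝ → ℝ} (hη : ContDiff ℝ ∞ η)
    (hc : HasCompactSupport (rad η x)) (hs : tsupport (rad η x) ⊆ ball 0 1)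
    (hc' : HasCompactSupport (rad (deriv η) x)) (hs' : tsupport (rad (deriv η) x) ⊆ ball 0 1) :
    (∫ z in ball (0 : ℂ) 1, η (‖z - x‖ ^ 2) * ∑ i, (‖P z i‖ ^ 2 - ‖Q z i‖ ^ 2)) +
      (∫ p, η (‖p.1 - x‖ ^ 2) ∂(R)) + 2 * ∫ z in ball (0 : ℂ) 1, deriv η (‖z - x‖ ^ 2) *
        ∑ i, (Y z i).re * (tau x P Q z i).im = 0 := by
  have hYi : ∀ z i, ‖Y z i‖ < 1 := fun z i => lt_of_le_of_lt (h.bdd z i) h.ρ_lt
  have hη' : ContDiff ℝ ∞ (deriv η) := (contDiff_infty_iff_deriv.1 hη).2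
  have hM : MeasurableSet (ball (0 : ℂ) 1) := measurableSet_ball
  have hφ := rad_smooth hη x
  obtain ⟨hfc, hfs⟩ := prod_compact hc gid_compact hs
  have hf := prod_smooth hφ gid_smooth
  have e1 := h.quad _ hf hfc hfs
  have hφd : ∀ z, DifferentiableAt ℝ (rad η x) z := fun z => hφ.differentiable (by simp) z
  have hgd : ∀ y, DifferentiableAt ℝ gid y := fun y => gid_smooth.differentiable (by simp) y
  -- the `R` term
  have e2 : ∫ p, dC (fun p : ℂ × ℂ => rad η x p.1 * gid p.2) p (0, 1) ∂(R) =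
      ((∫ p, η (‖p.1 - x‖ ^ 2) ∂(R) : ℝ) : ℂ) := by
    rw [← integral_complex_ofReal]
    refine integral_congr_ae ?_
    filter_upwards [h.Rsupp] with p hp
    have h1 : ‖p.2‖ < 1 := lt_of_le_of_lt hp.2 h.ρ_lt
    have h2 := dC_2 (hφd p.1) (hgd p.2)
    rw [h2, dz_gid h1, mul_one]
    rfl
  -- the tangential identity
  have e3 := h.tan x (rad_smooth hη' x) hc' hs' Gri_smooth
  have iab : IntegrableOn (fun z => deriv η (‖z - x‖ ^ 2) * ∑ i, (Y z i).re *
      (tau x P Q z i).im) (ball 0 1) := by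
    refine int_cont_mul ?_ (integrable_finsetSum _ fun i _ =>
      h.int_Ytau x Complex.continuous_re i Complex.imCLM)
    exact hη'.continuous.comp (by fun_prop)
  have iba : IntegrableOn (fun z => deriv η (‖z - x‖ ^ 2) * ∑ i, (Y z i).im *
      (tau x P Q z i).re) (ball 0 1) := by
    refine int_cont_mul ?_ (integrable_finsetSum _ fun i _ =>
      h.int_Ytau x Complex.continuous_im i Complex.reCLM)
    exact hη'.continuous.comp (by fun_prop)
  have ipq : IntegrableOn (fun z => η (‖z - x‖ ^ 2) * ∑ i, (‖P z i‖ ^ 2 - ‖Q z i‖ ^ 2))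
      (ball 0 1) := by
    refine int_cont_mul ?_ (integrable_finsetSum _ fun i _ => (h.sqP i).sub (h.sqQ i))
    exact hη.continuous.comp (by fun_prop)
  have e4 : (∫ z in ball (0 : ℂ) 1, deriv η (‖z - x‖ ^ 2) *
      ∑ i, (Y z i).re * (tau x P Q z i).im) + (∫ z in ball (0 : ℂ) 1, deriv η (‖z - x‖ ^ 2) *
        ∑ i, (Y z i).im * (tau x P Q z i).re) = 0 := by
    rw [← integral_add iab iba]
    have h1 : ((∫ z in ball (0 : ℂ) 1, (deriv η (‖z - x‖ ^ 2) *
      (∑ i, (Y z i).re * (tau x P Q z i).im) + deriv η (‖z - x‖ ^ 2) *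
        ∑ i, (Y z i).im * (tau x P Q z i).re) : ℝ) : ℂ) = 0 := by
      rw [← integral_complex_ofReal]
      refine Eq.trans ?_ e3
      refine setIntegral_congr_fun hM fun z _ => ?_
      rw [rad_tan hη', zero_mul, zero_add]
      unfold rad TG
      rw [← Complex.ofReal_mul]
      congr 1
      rw [← mul_add, ← Finset.sum_add_distrib]
      congr 1
      refine Finset.sum_congr rfl fun i _ => ?_
      rw [fderiv_Gri]
      ring
    exact_mod_cast h1
  -- the real part of the quadratic identity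
  have e5 : (∫ z in ball (0 : ℂ) 1, ∑ i, (dC (fun p : ℂ × ℂ => rad η x p.1 * gid p.2) (z, Y z i)
        (1, 0) * (starRingEnd ℂ) (P z i)
      - dbC (fun p : ℂ × ℂ => rad η x p.1 * gid p.2) (z, Y z i) (1, 0) * (starRingEnd ℂ) (Q z i)
      + dC (fun p : ℂ × ℂ => rad η x p.1 * gid p.2) (z, Y z i) (0, 1) *
        ((‖P z i‖ ^ 2 - ‖Q z i‖ ^ 2 : ℝ) : ℂ))).re =
      (∫ z in ball (0 : ℂ) 1, η (‖z - x‖ ^ 2) * ∑ i, (‖P z i‖ ^ 2 - ‖Q z i‖ ^ 2)) +
      ((∫ z in ball (0 : ℂ) 1, deriv η (‖z - x‖ ^ 2) * ∑ i, (Y z i).re * (tau x P Q z i).im) -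
      ∫ z in ball (0 : ℂ) 1, deriv η (‖z - x‖ ^ 2) * ∑ i, (Y z i).im * (tau x P Q z i).re) := by
    rw [← integral_sub iab iba]
    have hadd := integral_add ipq (iab.sub iba)
    simp only [Pi.sub_apply] at hadd
    rw [← hadd]
    have hint : IntegrableOn (fun z => ∑ i, (dC (fun p : ℂ × ℂ => rad η x p.1 * gid p.2)
        (z, Y z i) (1, 0) * (starRingEnd ℂ) (P z i)
      - dbC (fun p : ℂ × ℂ => rad η x p.1 * gid p.2) (z, Y z i) (1, 0) * (starRingEnd ℂ) (Q z i)
      + dC (fun p : ℂ × ℂ => rad η x p.1 * gid p.2) (z, Y z i) (0, 1) *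
        ((‖P z i‖ ^ 2 - ‖Q z i‖ ^ 2 : ℝ) : ℂ))) (ball 0 1) :=
      integrable_finsetSum _ fun i _ => ((h.int_bu (cont_dC hf _) i (int_conj (h.intP i))).sub
        (h.int_bu (cont_dbC hf _) i (int_conj (h.intQ i)))).add
        (h.int_bu (cont_dC hf _) i ((h.sqP i).sub (h.sqQ i)).ofReal)
    have h1 := Complex.reCLM.integral_comp_comm hint
    simp only [Complex.reCLM_apply] at h1
    rw [← h1]
    refine setIntegral_congr_fun hM fun z _ => ?_
    rw [Complex.re_sum, ← mul_sub, ← Finset.sum_sub_distrib, Finset.mul_sum, Finset.mul_sum,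
      ← Finset.sum_add_distrib]
    refine Finset.sum_congr rfl fun i _ => ?_
    rw [dC_1 (hφd z) (hgd _), dbC_1 (hφd z) (hgd _), dC_2 (hφd z) (hgd _), dz_gid (hYi z i),
      dz_rad hη, dzb_rad hη, (gid_eq (hYi z i)).eq_of_nhds]
    unfold tau rad
    simp only [id_eq, mul_one]
    set w := z - x
    simp only [Complex.add_re, Complex.sub_re, Complex.mul_re, Complex.mul_im, Complex.ofReal_re,
      Complex.ofReal_im, Complex.conj_re, Complex.conj_im, Complex.I_re, Complex.I_im,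
      Complex.sub_im]
    ring
  have e6 := congrArg Complex.re e1
  rw [Complex.add_re, e5, e2, Complex.ofReal_re, Complex.zero_re] at e6
  linarith

end

end Vale.Agent.P247.H743.E
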