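import Vale.Agent.P247.H743.Edec5

/-!
# P247, energy decay, part 6: polar coordinates
-/

open scoped ContDiff Topology Real
open Set MeasureTheory Filter Metric

noncomputable section

namespace Vale.Agent.P247.H743.E

open Vale.Agent.P247.H574 Vale.Agent.P247.H74

/-- polar coordinates around `x` -/
def pt (x : ℂ) (r θ : ℝ) : ℂ := x + r * Complex.exp (θ * Complex.I)

theorem norm_pt {x : ℂ} {r θ : ℝ} (hr : 0 ≤ r) : ‖pt x r θ - x‖ = r := by
  unfold pt
  rw [add_sub_cancel_left, norm_mul, Complex.norm_exp_ofReal_mul_I, mul_one, Complex.norm_real,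
    Real.norm_of_nonneg hr]

theorem continuous_pt (x : ℂ) : Continuous fun p : ℝ × ℝ => pt x p.1 p.2 := by
  unfold pt
  fun_prop

theorem symm_eq (x : ℂ) (p : ℝ × ℝ) : x + Complex.polarCoord.symm p = pt x p.1 p.2 := by
  unfold pt
  rw [Complex.polarCoord_symm_apply, Complex.exp_mul_I]
  push_cast
  rfl

section

variable {E : Type*} [NormedAddCommGroup E] [NormedSpace ℝ E] {F : ℂ → E} {x : ℂ} {d : ℝ}

theorem restrict_eq (d : ℝ) : (volume.restrict (Ioo 0 d)).prod (volume.restrict (Ioc (-π) π)) =
    (volume : Measure (ℝ × ℝ)).restrict (Ioo 0 d ×ˢ Ioo (-π) π) := by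
  rw [Measure.volume_eq_prod, ← Measure.prod_restrict,
    Measure.restrict_congr_set (Ioo_ae_eq_Ioc (a := -π) (b := π))]

theorem polar_int (hFm : StronglyMeasurable F) (hF : IntegrableOn F (ball x d)) :
    Integrable (fun p : ℝ × ℝ => p.1 • F (pt x p.1 p.2))
      ((volume.restrict (Ioo 0 d)).prod (volume.restrict (Ioc (-π) π))) ∧
    ∫ z in ball x d, F z = ∫ p, p.1 • F (pt x p.1 p.2)
      ∂((volume.restrict (Ioo 0 d)).prod (volume.restrict (Ioc (-π) π))) := by
  have hM : MeasurableSet (ball x d) := measurableSet_ball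
  set g : ℂ → E := fun z => (ball x d).indicator F (x + z) with hg
  have hgi : Integrable g := (hF.integrable_indicator hM).comp_add_left x
  have hgm : StronglyMeasurable g :=
    (hFm.indicator hM).comp_measurable (measurable_const_add x)
  have hsub : Ioo 0 d ×ˢ Ioo (-π) π ⊆ polarCoord.target := fun p hp => ⟨hp.1.1, hp.2⟩
  have htm : MeasurableSet polarCoord.target := polarCoord.open_target.measurableSet
  have hsm : MeasurableSet (Ioo 0 d ×ˢ Ioo (-π) π) := measurableSet_Ioo.prod measurableSet_Ioo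
  have hon : ∀ p ∈ Ioo 0 d ×ˢ Ioo (-π) π, g (Complex.polarCoord.symm p) = F (pt x p.1 p.2) := by
    intro p hp
    rw [hg]
    simp only
    rw [symm_eq, indicator_of_mem]
    rw [mem_ball_iff_norm, norm_pt hp.1.1.le]
    exact hp.1.2
  have hoff : ∀ p ∈ polarCoord.target \ Ioo 0 d ×ˢ Ioo (-π) π,
      p.1 • g (Complex.polarCoord.symm p) = 0 := by
    rintro p ⟨hp, hp2⟩
    rw [hg]
    simp only
    rw [symm_eq, indicator_of_notMem, smul_zero]
    rw [mem_ball_iff_norm, norm_pt (le_of_lt hp.1)]
    intro h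
    exact hp2 ⟨⟨hp.1, h⟩, hp.2⟩
  have hint : IntegrableOn (fun p : ℝ × ℝ => p.1 • g (Complex.polarCoord.symm p))
      polarCoord.target := by
    refine ⟨?_, ?_⟩
    · have hs : Measurable (Complex.polarCoord.symm : ℝ × ℝ → ℂ) := by
        have h1 : (Complex.polarCoord.symm : ℝ × ℝ → ℂ) = fun p => pt 0 p.1 p.2 := by
          funext p
          rw [← symm_eq, zero_add]
        rw [h1]
        exact (continuous_pt 0).measurable
      exact (measurable_fst.stronglyMeasurable.smul (hgm.comp_measurable hs)).aestronglyMeasurable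
    · have h1 := Complex.lintegral_comp_polarCoord_symm (fun z => ‖g z‖ₑ)
      unfold HasFiniteIntegral
      have h2 : ∫⁻ p in polarCoord.target, ‖p.1 • g (Complex.polarCoord.symm p)‖ₑ =
          ∫⁻ p in polarCoord.target, ENNReal.ofReal p.1 • ‖g (Complex.polarCoord.symm p)‖ₑ := by
        refine setLIntegral_congr_fun htm fun p hp => ?_
        have h3 : (0 : ℝ) < p.1 := hp.1
        rw [enorm_smul, smul_eq_mul, Real.enorm_of_nonneg h3.le]
      rw [h2, h1]
      exact hgi.2
  rw [restrict_eq]
  constructor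
  · refine (hint.mono_set hsub).congr ?_
    filter_upwards [ae_restrict_mem hsm] with p hp
    rw [hon p hp]
  · have h1 : ∫ z in ball x d, F z = ∫ z, g z := by
      rw [← integral_indicator hM]
      exact (integral_add_left_eq_self _ x).symm
    rw [h1, ← Complex.integral_comp_polarCoord_symm,
      setIntegral_eq_of_subset_of_forall_sdiff_eq_zero htm hsub hoff]
    refine setIntegral_congr_fun hsm fun p hp => ?_
    rw [hon p hp]

theorem polar_ae (hFm : StronglyMeasurable F) (hF : IntegrableOn F (ball x d)) :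
    ∀ᵐ r ∂(volume.restrict (Ioo 0 d)), IntegrableOn (fun θ => F (pt x r θ)) (Ioc (-π) π) := by
  have h1 := (polar_int hFm hF).1.prod_right_ae
  filter_upwards [h1, ae_restrict_mem measurableSet_Ioo] with r hr hr2
  have h2 := hr.smul (r⁻¹)
  refine h2.congr (Eventually.of_forall fun θ => ?_)
  simp only [Pi.smul_apply]
  rw [smul_smul, inv_mul_cancel₀ hr2.1.ne', one_smul]

theorem polar_intr [CompleteSpace E] (hFm : StronglyMeasurable F)
    (hF : IntegrableOn F (ball x d)) :
    IntegrableOn (fun r => r • ∫ θ in (-π)..π, F (pt x r θ)) (Ioo 0 d) := by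
  have h1 := (polar_int hFm hF).1.integral_prod_left
  have hab : -π ≤ π := by linarith [Real.pi_pos]
  refine h1.congr (Eventually.of_forall fun r => ?_)
  simp only
  rw [integral_smul, intervalIntegral.integral_of_le hab]

theorem polar_fub [CompleteSpace E] (hFm : StronglyMeasurable F)
    (hF : IntegrableOn F (ball x d)) :
    ∫ z in ball x d, F z = ∫ r in Ioo 0 d, r • ∫ θ in (-π)..π, F (pt x r θ) := by
  have h1 := polar_int hFm hF
  have hab : -π ≤ π := by linarith [Real.pi_pos]
  rw [h1.2, integral_prod _ h1.1]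
  refine integral_congr_ae (Eventually.of_forall fun r => ?_)
  simp only
  rw [integral_smul, intervalIntegral.integral_of_le hab]

theorem int_w {w : ℝ → ℝ} (hw : Continuous w) (hF : IntegrableOn F (ball x d)) :
    IntegrableOn (fun z => w ‖z - x‖ • F z) (ball x d) := by
  have hc : Continuous fun z : ℂ => w ‖z - x‖ := hw.comp (by fun_prop)
  obtain ⟨M, hM⟩ := (isCompact_closedBall x d).exists_bound_of_continuousOn hc.continuousOn
  refine Integrable.bdd_smul (C := M) hF hc.aestronglyMeasurable ?_
  filter_upwards [ae_restrict_mem measurableSet_ball] with z hz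
  exact hM z (ball_subset_closedBall hz)

theorem polar_w [CompleteSpace E] {w : ℝ → ℝ} (hw : Continuous w) (hFm : StronglyMeasurable F)
    (hF : IntegrableOn F (ball x d)) :
    ∫ z in ball x d, w ‖z - x‖ • F z = ∫ r in Ioo 0 d, w r • r • ∫ θ in (-π)..π, F (pt x r θ) := by
  have hc : Continuous fun z : ℂ => w ‖z - x‖ := hw.comp (by fun_prop)
  have hsm : StronglyMeasurable fun z => w ‖z - x‖ • F z := hc.stronglyMeasurable.smul hFm
  rw [polar_fub hsm (int_w hw hF)]
  refine setIntegral_congr_fun measurableSet_Ioo fun r hr => ?_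
  have h1 : ∀ θ, w ‖pt x r θ - x‖ • F (pt x r θ) = w r • F (pt x r θ) := fun θ => by
    rw [norm_pt hr.1.le]
  simp only [h1]
  rw [intervalIntegral.integral_smul, smul_comm]

end

/-- Cauchy-Schwarz on the circle -/
theorem cs_circle {f : ℝ → ℝ} (hf : IntegrableOn f (Ioc (-π) π))
    (hf2 : IntegrableOn (fun θ => f θ ^ 2) (Ioc (-π) π)) :
    (∫ θ in (-π)..π, f θ) ^ 2 ≤ 2 * π * ∫ θ in (-π)..π, f θ ^ 2 := by
  have hpi := Real.pi_pos
  have hab : -π ≤ π := by linarith
  set m : ℝ := (∫ θ in (-π)..π, f θ) / (2 * π) with hm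
  have hi1 : IntervalIntegrable f volume (-π) π := by
    rwa [intervalIntegrable_iff_integrableOn_Ioc_of_le hab]
  have hi2 : IntervalIntegrable (fun θ => f θ ^ 2) volume (-π) π := by
    rwa [intervalIntegrable_iff_integrableOn_Ioc_of_le hab]
  have h1 : 0 ≤ ∫ θ in (-π)..π, (f θ ^ 2 - 2 * m * f θ + m ^ 2) := by
    refine intervalIntegral.integral_nonneg hab fun θ _ => ?_
    nlinarith [sq_nonneg (f θ - m)]
  rw [intervalIntegral.integral_add (hi2.sub (hi1.const_mul _)) intervalIntegrable_const,
    intervalIntegral.integral_sub hi2 (hi1.const_mul _), intervalIntegral.integral_const_mul,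
    intervalIntegral.integral_const, smul_eq_mul] at h1
  have h2 : ∫ θ in (-π)..π, f θ = 2 * π * m := by
    rw [hm]
    field_simp
  rw [h2] at h1 ⊢
  nlinarith

end Vale.Agent.P247.H743.E
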