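import Vale.Agent.P247.H743.Edec6

/-!
# P247, energy decay, part 7: the circle relations
-/

open scoped ContDiff Topology Real
open Set MeasureTheory Filter Metric

noncomputable section

namespace Vale.Agent.P247.H743.E

open Vale.Agent.P247.H574 Vale.Agent.P247.H74

theorem rclm_eq (L : ℂ →L[ℝ] ℝ) (w : ℂ) : L w = L 1 * w.re + L Complex.I * w.im := by
  have h1 : w = w.re • (1 : ℂ) + w.im • Complex.I := by
    simp [Complex.re_add_im]
  conv_lhs => rw [h1]
  rw [map_add, map_smul, map_smul, smul_eq_mul, smul_eq_mul]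
  ring

/-- the test functions `g (|z - x|) (z - x) ^ k` -/
def psi (g : ℝ → ℝ) (x : ℂ) (k : ℕ) (z : ℂ) : ℂ := (g ‖z - x‖ : ℂ) * (z - x) ^ k

theorem near_zero {g : ℝ → ℝ} {d : ℝ} (hs : tsupport g ⊆ Ioo 0 d) : ∀ᶠ r in 𝓝 (0 : ℝ), g r = 0 := by
  have h1 : (0 : ℝ) ∉ tsupport g := fun h => lt_irrefl _ (hs h).1
  have h2 : IsOpen (tsupport g)ᶜ := (isClosed_tsupport g).isOpen_compl
  filter_upwards [h2.mem_nhds h1] with r hr
  exact image_eq_zero_of_notMem_tsupport hr

theorem psi_smooth {g : ℝ → ℝ} {d : ℝ} (hg : ContDiff ℝ ∞ g) (hs : tsupport g ⊆ Ioo 0 d)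
    (x : ℂ) (k : ℕ) : ContDiff ℝ ∞ (psi g x k) := by
  have hz : ContDiff ℝ ∞ fun z : ℂ => z - x := contDiff_id.sub contDiff_const
  refine ContDiff.mul ?_ (hz.pow k)
  refine Complex.ofRealCLM.contDiff.comp ?_
  rw [contDiff_iff_contDiffAt]
  intro z
  by_cases hzx : z = x
  · have h1 : Tendsto (fun z : ℂ => ‖z - x‖) (𝓝 z) (𝓝 0) := by
      have h2 : Continuous fun z : ℂ => ‖z - x‖ := by fun_prop
      have h3 := h2.tendsto z
      have h4 : ‖z - x‖ = 0 := by rw [hzx, sub_self, norm_zero]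
      rwa [h4] at h3
    have h2 : (fun z : ℂ => g ‖z - x‖) =ᶠ[𝓝 z] fun _ => (0 : ℝ) := h1.eventually (near_zero hs)
    exact contDiffAt_const.congr_of_eventuallyEq h2
  · have h1 : ContDiffAt ℝ ∞ (fun z : ℂ => ‖z - x‖) z :=
      (contDiffAt_norm ℝ (sub_ne_zero.2 hzx)).comp z hz.contDiffAt
    exact hg.contDiffAt.comp z h1

theorem psi_supp {g : ℝ → ℝ} {d : ℝ} (hs : tsupport g ⊆ Ioo 0 d)
    (x : ℂ) (k : ℕ) : HasCompactSupport (psi g x k) ∧ tsupport (psi g x k) ⊆ ball x d := by
  have hcont : Continuous fun z : ℂ => ‖z - x‖ := by fun_prop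
  have h1 : Function.support (psi g x k) ⊆ {z | ‖z - x‖ ∈ tsupport g} := by
    intro z hz
    have h2 : psi g x k z ≠ 0 := hz
    unfold psi at h2
    have h3 := left_ne_zero_of_mul h2
    have h4 : g ‖z - x‖ ≠ 0 := by
      intro h
      apply h3
      rw [h, Complex.ofReal_zero]
    exact subset_tsupport g h4
  have h2 : tsupport (psi g x k) ⊆ {z | ‖z - x‖ ∈ tsupport g} :=
    closure_minimal h1 ((isClosed_tsupport g).preimage hcont)
  have h3 : tsupport (psi g x k) ⊆ ball x d := by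
    intro z hz
    rw [mem_ball_iff_norm]
    exact (hs (h2 hz)).2
  refine ⟨?_, h3⟩
  refine HasCompactSupport.of_support_subset_isCompact (isCompact_closedBall x d) ?_
  exact (subset_tsupport _).trans (h3.trans ball_subset_closedBall)

theorem psi_rot (g : ℝ → ℝ) (x z : ℂ) (k : ℕ) (t : ℝ) :
    psi g x k (x + Complex.exp (t * Complex.I) * (z - x)) =
      Complex.exp (k * t * Complex.I) * psi g x k z := by
  unfold psi
  rw [add_sub_cancel_left, norm_mul, Complex.norm_exp_ofReal_mul_I, one_mul, mul_pow,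
    ← Complex.exp_nat_mul]
  have : (k : ℂ) * (t * Complex.I) = k * t * Complex.I := by ring
  rw [this]
  ring

theorem psi_tan {g : ℝ → ℝ} {d : ℝ} (hg : ContDiff ℝ ∞ g) (hs : tsupport g ⊆ Ioo 0 d)
    (x z : ℂ) (k : ℕ) : fderiv ℝ (psi g x k) z (Complex.I * (z - x)) =
      Complex.I * k * psi g x k z := by
  have h0 : HasDerivAt (fun t : ℝ => (t : ℂ)) 1 (0 : ℝ) := by
    have h : HasDerivAt (fun t : ℝ => (t : ℂ)) ((1 : ℝ) : ℂ) (0 : ℝ) :=
      Complex.ofRealCLM.hasDerivAt
    rwa [Complex.ofReal_one] at h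
  have h1 : HasDerivAt (fun t : ℝ => x + Complex.exp (t * Complex.I) * (z - x))
      (Complex.I * (z - x)) 0 := by
    have h2 := (((h0.mul_const Complex.I).cexp).mul_const (z - x)).const_add x
    simpa using h2
  have h2 : HasDerivAt (fun t : ℝ => psi g x k (x + Complex.exp (t * Complex.I) * (z - x)))
      (fderiv ℝ (psi g x k) z (Complex.I * (z - x))) 0 := by
    have h3 : HasFDerivAt (psi g x k) (fderiv ℝ (psi g x k) z)
        (x + Complex.exp (((0 : ℝ) : ℂ) * Complex.I) * (z - x)) := by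
      have h4 : x + Complex.exp (((0 : ℝ) : ℂ) * Complex.I) * (z - x) = z := by simp
      rw [h4]
      exact ((psi_smooth hg hs x k).differentiable (by simp) z).hasFDerivAt
    exact h3.comp_hasDerivAt (0 : ℝ) h1
  have h3 : HasDerivAt (fun t : ℝ => psi g x k (x + Complex.exp (t * Complex.I) * (z - x)))
      (Complex.I * k * psi g x k z) 0 := by
    have h4 : (fun t : ℝ => psi g x k (x + Complex.exp (t * Complex.I) * (z - x))) =
        fun t : ℝ => Complex.exp (k * t * Complex.I) * psi g x k z :=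
      funext fun t => psi_rot g x z k t
    rw [h4]
    have h5 := (((h0.const_mul (k : ℂ)).mul_const Complex.I).cexp).mul_const (psi g x k z)
    have h6 : Complex.exp (k * ((0 : ℝ) : ℂ) * Complex.I) * (k * 1 * Complex.I) * psi g x k z =
        Complex.I * k * psi g x k z := by
      rw [Complex.ofReal_zero, mul_zero, zero_mul, Complex.exp_zero]
      ring
    rw [h6] at h5
    exact h5
  exact h2.unique h3

theorem pt_pow (x : ℂ) (r θ : ℝ) (k : ℕ) : (pt x r θ - x) ^ k =
    (r : ℂ) ^ k * Complex.exp (k * θ * Complex.I) := by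
  unfold pt
  rw [add_sub_cancel_left, mul_pow, ← Complex.exp_nat_mul]
  have : (k : ℂ) * (θ * Complex.I) = k * θ * Complex.I := by ring
  rw [this]

section

variable {N : ℕ} {ρ : ℝ} {Y P Q : ℂ → Fin N → ℂ} {R : Measure (ℂ × ℂ)}

theorem Pre.int_T (h : Pre N ρ Y P Q R) (x : ℂ) {G : ℂ → ℝ} (hG : ContDiff ℝ ∞ G) (i : Fin N) :
    IntegrableOn (fun z => fderiv ℝ G (Y z i) (tau x P Q z i)) (ball 0 1) := by
  have hc : ∀ v, Continuous fun y => fderiv ℝ G y v := fun v =>
    (hG.continuous_fderiv (by simp)).clm_apply continuous_const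
  have h1 := (h.int_Ytau x (hc 1) i Complex.reCLM).add (h.int_Ytau x (hc Complex.I) i Complex.imCLM)
  refine h1.congr (Eventually.of_forall fun z => ?_)
  simp only [Pi.add_apply, Complex.reCLM_apply, Complex.imCLM_apply]
  rw [← rclm_eq]

theorem Pre.meas_T (h : Pre N ρ Y P Q R) (x : ℂ) {G : ℂ → ℝ} (hG : ContDiff ℝ ∞ G) (i : Fin N) :
    Measurable (fun z => fderiv ℝ G (Y z i) (tau x P Q z i)) := by
  have hc : ∀ v, Continuous fun y => fderiv ℝ G y v := fun v =>
    (hG.continuous_fderiv (by simp)).clm_apply continuous_const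
  have h1 : Measurable fun z => fderiv ℝ G (Y z i) 1 * (tau x P Q z i).re +
      fderiv ℝ G (Y z i) Complex.I * (tau x P Q z i).im :=
    (((hc 1).measurable.comp (h.measY i)).mul (Complex.measurable_re.comp (h.meas_tau x i))).add
      (((hc Complex.I).measurable.comp (h.measY i)).mul
        (Complex.measurable_im.comp (h.meas_tau x i)))
  convert h1 using 2 with z
  rw [← rclm_eq]

/-- the integrand -/
def FF {N : ℕ} (Y P Q : ℂ → Fin N → ℂ) (G : ℂ → ℝ) (x : ℂ) (k : ℕ) (z : ℂ) : ℂ :=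
  (z - x) ^ k * ((TG G (Y z) (tau x P Q z) : ℂ) + Complex.I * k * (UG G (Y z) : ℂ))

theorem Pre.meas_FF (h : Pre N ρ Y P Q R) (x : ℂ) {G : ℂ → ℝ} (hG : ContDiff ℝ ∞ G) (k : ℕ) :
    Measurable (FF Y P Q G x k) := by
  unfold FF UG TG
  have h1 : Measurable fun z => ∑ i, fderiv ℝ G (Y z i) (tau x P Q z i) :=
    Finset.measurable_fun_sum _ fun i _ => h.meas_T x hG i
  have h2 : Measurable fun z => ∑ i, G (Y z i) :=
    Finset.measurable_fun_sum _ fun i _ => hG.continuous.measurable.comp (h.measY i)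
  exact ((measurable_id.sub_const x).pow_const k).mul ((Complex.measurable_ofReal.comp h1).add
    ((Complex.measurable_ofReal.comp h2).const_mul _))

theorem Pre.int_FF (h : Pre N ρ Y P Q R) (x : ℂ) {G : ℂ → ℝ} (hG : ContDiff ℝ ∞ G) (k : ℕ) :
    IntegrableOn (FF Y P Q G x k) (ball 0 1) := by
  unfold FF UG TG
  have h1 : IntegrableOn (fun z => ∑ i, fderiv ℝ G (Y z i) (tau x P Q z i)) (ball 0 1) :=
    integrable_finsetSum _ fun i _ => h.int_T x hG i
  have h2 : IntegrableOn (fun z => ∑ i, G (Y z i)) (ball 0 1) := by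
    refine integrable_finsetSum _ fun i _ => ?_
    obtain ⟨M, hM⟩ := (isCompact_closedBall (0 : ℂ) ρ).exists_bound_of_continuousOn
      hG.continuous.continuousOn
    exact Integrable.of_bound (hG.continuous.measurable.comp (h.measY i)).aestronglyMeasurable M
      (Eventually.of_forall fun z => hM _ (mem_closedBall_zero_iff.2 (h.bdd z i)))
  have hc : Continuous fun z : ℂ => (z - x) ^ k := by fun_prop
  obtain ⟨M, hM⟩ := (isCompact_closedBall (0 : ℂ) 1).exists_bound_of_continuousOn hc.continuousOn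
  refine Integrable.bdd_mul (c := M) (h1.ofReal.add (h2.ofReal.const_mul _))
    hc.aestronglyMeasurable ?_
  filter_upwards [ae_restrict_mem measurableSet_ball] with z hz
  exact hM z (ball_subset_closedBall hz)

theorem Pre.circ1 (h : Pre N ρ Y P Q R) {x : ℂ} {d : ℝ} (hx : ball x d ⊆ ball 0 1)
    {G : ℂ → ℝ} (hG : ContDiff ℝ ∞ G) (k : ℕ) :
    ∀ᵐ r ∂(volume.restrict (Ioo 0 d)), ∫ θ in (-π)..π, Complex.exp (k * θ * Complex.I) *
      ((TG G (Y (pt x r θ)) (tau x P Q (pt x r θ)) : ℂ) +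
        Complex.I * k * (UG G (Y (pt x r θ)) : ℂ)) = 0 := by
  have hFm := (h.meas_FF x hG k).stronglyMeasurable
  have hFi : IntegrableOn (FF Y P Q G x k) (ball x d) := (h.int_FF x hG k).mono_set hx
  have hH := polar_intr hFm hFi
  have hloc : LocallyIntegrableOn (fun r : ℝ => r • ∫ θ in (-π)..π, FF Y P Q G x k (pt x r θ))
      (Ioo 0 d) := hH.locallyIntegrableOn
  have hae := IsOpen.ae_eq_zero_of_integral_contDiff_smul_eq_zero isOpen_Ioo hloc
    (fun g hg hgc hgs => by
      obtain ⟨hc, hs⟩ := psi_supp hgs x k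
      have e1 := h.tan x (psi_smooth hg hgs x k) hc (hs.trans hx) hG
      have e2 : ∫ z in ball (0 : ℂ) 1, g ‖z - x‖ • FF Y P Q G x k z = 0 := by
        refine Eq.trans ?_ e1
        have hM : MeasurableSet (ball (0 : ℂ) 1) := measurableSet_ball
        refine setIntegral_congr_fun hM fun z _ => ?_
        rw [psi_tan hg hgs]
        unfold FF psi
        rw [Complex.real_smul]
        ring
      have e3 : ∫ z in ball x d, g ‖z - x‖ • FF Y P Q G x k z = 0 := by
        rw [← e2]
        have hM : MeasurableSet (ball (0 : ℂ) 1) := measurableSet_ball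
        refine (setIntegral_eq_of_subset_of_forall_sdiff_eq_zero hM hx fun z hz => ?_).symm
        have hz2 : ¬ ‖z - x‖ < d := fun h => hz.2 (mem_ball_iff_norm.2 h)
        have h3 : g ‖z - x‖ = 0 := image_eq_zero_of_notMem_tsupport fun h => hz2 (hgs h).2
        rw [h3, zero_smul]
      rw [polar_w hg.continuous hFm hFi] at e3
      refine Eq.trans ?_ e3
      have h4 := setIntegral_eq_of_subset_of_forall_sdiff_eq_zero (μ := volume)
        (f := fun r : ℝ => g r • r • ∫ θ in (-π)..π, FF Y P Q G x k (pt x r θ))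
        MeasurableSet.univ (subset_univ (Ioo 0 d)) (fun r hr => by
          have h3 : g r = 0 := image_eq_zero_of_notMem_tsupport fun h => hr.2 (hgs h)
          rw [h3, zero_smul])
      rw [setIntegral_univ] at h4
      exact h4)
  rw [ae_restrict_iff' measurableSet_Ioo]
  filter_upwards [hae] with r hr hr2
  have h1 := hr hr2
  have h2 : ∫ θ in (-π)..π, FF Y P Q G x k (pt x r θ) = (r : ℂ) ^ k *
      ∫ θ in (-π)..π, Complex.exp (k * θ * Complex.I) *
        ((TG G (Y (pt x r θ)) (tau x P Q (pt x r θ)) : ℂ) +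
        Complex.I * k * (UG G (Y (pt x r θ)) : ℂ)) := by
    rw [← intervalIntegral.integral_const_mul]
    congr 1
    funext θ
    unfold FF
    rw [pt_pow, mul_assoc]
  rw [h2] at h1
  have hr0 : r ≠ 0 := hr2.1.ne'
  rcases smul_eq_zero.1 h1 with h3 | h3
  · exact absurd h3 hr0
  · rcases mul_eq_zero.1 h3 with h4 | h4
    · exact absurd h4 (pow_ne_zero _ (Complex.ofReal_ne_zero.2 hr0))
    · exact h4

end

end Vale.Agent.P247.H743.E
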