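import Vale.Agent.P247.H743.Edec7

/-!
# P247, energy decay, part 8: the isoperimetric inequality
-/

open scoped ContDiff Topology Real
open Set MeasureTheory Filter Metric

noncomputable section

namespace Vale.Agent.P247.H743.E

open Vale.Agent.P247.H574 Vale.Agent.P247.H74

theorem int_w1 {w : ℝ → ℝ} (hw : Continuous w) {u : ℝ → ℝ} {d : ℝ} (hu : IntegrableOn u (Ioo 0 d)) :
    IntegrableOn (fun r => w r • u r) (Ioo 0 d) := by
  obtain ⟨M, hM⟩ := isCompact_Icc.exists_bound_of_continuousOn (s := Icc 0 d) hw.continuousOn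
  refine Integrable.bdd_smul (C := M) hu hw.aestronglyMeasurable ?_
  filter_upwards [ae_restrict_mem measurableSet_Ioo] with z hz
  exact hM z (Ioo_subset_Icc_self hz)

theorem tau_sq_le {N : ℕ} (x : ℂ) (P Q : ℂ → Fin N → ℂ) (z : ℂ) (i : Fin N) :
    ‖tau x P Q z i‖ ^ 2 ≤ 2 * ‖z - x‖ ^ 2 * (‖P z i‖ ^ 2 + ‖Q z i‖ ^ 2) := by
  unfold tau
  rw [norm_mul, Complex.norm_I, one_mul]
  have h1 : ‖(z - x) * P z i - (starRingEnd ℂ) (z - x) * Q z i‖ ≤
      ‖z - x‖ * (‖P z i‖ + ‖Q z i‖) := by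
    refine (norm_sub_le _ _).trans ?_
    rw [norm_mul, norm_mul, RCLike.norm_conj]
    ring_nf
    rfl
  calc _ ≤ (‖z - x‖ * (‖P z i‖ + ‖Q z i‖)) ^ 2 := by
        exact pow_le_pow_left₀ (norm_nonneg _) h1 2
    _ = ‖z - x‖ ^ 2 * (‖P z i‖ + ‖Q z i‖) ^ 2 := by ring
    _ ≤ ‖z - x‖ ^ 2 * (2 * (‖P z i‖ ^ 2 + ‖Q z i‖ ^ 2)) := by
        refine mul_le_mul_of_nonneg_left ?_ (by positivity)
        nlinarith [sq_nonneg (‖P z i‖ - ‖Q z i‖)]
    _ = _ := by ring

section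

variable {N : ℕ} {ρ : ℝ} {Y P Q : ℂ → Fin N → ℂ} {R : Measure (ℂ × ℂ)}

theorem Pre.int_tau2 (h : Pre N ρ Y P Q R) (x : ℂ) (i : Fin N) :
    IntegrableOn (fun z => ‖tau x P Q z i‖ ^ 2) (ball 0 1) := by
  have hc : Continuous fun z : ℂ => 2 * ‖z - x‖ ^ 2 := by fun_prop
  have h1 := int_cont_mul hc ((h.sqP i).add (h.sqQ i))
  refine Integrable.mono' h1 ((h.meas_tau x i).norm.pow_const 2).aestronglyMeasurable ?_
  refine Eventually.of_forall fun z => ?_
  rw [Real.norm_of_nonneg (by positivity)]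
  exact tau_sq_le x P Q z i

theorem Pre.meas_tau2 (h : Pre N ρ Y P Q R) (x : ℂ) (i : Fin N) :
    Measurable (fun z => ‖tau x P Q z i‖ ^ 2) := (h.meas_tau x i).norm.pow_const 2

theorem Pre.ae_tau (h : Pre N ρ Y P Q R) {x : ℂ} {d : ℝ} (hx : ball x d ⊆ ball 0 1) :
    ∀ᵐ r ∂(volume.restrict (Ioo 0 d)), ∀ i,
      IntegrableOn (fun θ => tau x P Q (pt x r θ) i) (Ioc (-π) π) := by
  rw [ae_all_iff]
  intro i
  have h1 := polar_ae (h.meas_tau x i).stronglyMeasurable ((h.int_tau x i).mono_set hx)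
  exact h1

theorem Pre.ae_tau2 (h : Pre N ρ Y P Q R) {x : ℂ} {d : ℝ} (hx : ball x d ⊆ ball 0 1) :
    ∀ᵐ r ∂(volume.restrict (Ioo 0 d)), ∀ i,
      IntegrableOn (fun θ => ‖tau x P Q (pt x r θ) i‖ ^ 2) (Ioc (-π) π) := by
  rw [ae_all_iff]
  intro i
  have h1 := polar_ae (h.meas_tau2 x i).stronglyMeasurable ((h.int_tau2 x i).mono_set hx)
  exact h1

theorem Pre.int_S (h : Pre N ρ Y P Q R) (x : ℂ) :
    IntegrableOn (fun z => ∑ i, (Y z i).re * (tau x P Q z i).im) (ball 0 1) :=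
  integrable_finsetSum _ fun i _ => h.int_Ytau x Complex.continuous_re i Complex.imCLM

theorem Pre.int_S2 (h : Pre N ρ Y P Q R) (x : ℂ) :
    IntegrableOn (fun z => ∑ i, ‖tau x P Q z i‖ ^ 2) (ball 0 1) :=
  integrable_finsetSum _ fun i _ => h.int_tau2 x i

theorem Pre.int_PQ (h : Pre N ρ Y P Q R) :
    IntegrableOn (fun z => ∑ i, (‖P z i‖ ^ 2 + ‖Q z i‖ ^ 2)) (ball 0 1) :=
  integrable_finsetSum _ fun i _ => (h.sqP i).add (h.sqQ i)

theorem Pre.circ_rel (h : Pre N ρ Y P Q R) {x : ℂ} {d : ℝ} (hx : ball x d ⊆ ball 0 1)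
    {G : ℂ → ℝ} (hG : ContDiff ℝ ∞ G) (k : ℕ) :
    ∀ᵐ r ∂(volume.restrict (Ioo 0 d)),
      ∫ θ in (-π)..π, (Real.cos (k * θ) * TG G (Y (pt x r θ)) (tau x P Q (pt x r θ)) -
        k * Real.sin (k * θ) * UG G (Y (pt x r θ))) = 0 ∧
      ∫ θ in (-π)..π, (Real.sin (k * θ) * TG G (Y (pt x r θ)) (tau x P Q (pt x r θ)) +
        k * Real.cos (k * θ) * UG G (Y (pt x r θ))) = 0 := by
  have hab : -π ≤ π := by linarith [Real.pi_pos]
  have hFm := (h.meas_FF x hG k).stronglyMeasurable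
  have hFi : IntegrableOn (FF Y P Q G x k) (ball x d) := (h.int_FF x hG k).mono_set hx
  filter_upwards [h.circ1 hx hG k, polar_ae hFm hFi, ae_restrict_mem measurableSet_Ioo]
    with r hr hri hr2
  set I : ℝ → ℂ := fun θ => Complex.exp (k * θ * Complex.I) *
      ((TG G (Y (pt x r θ)) (tau x P Q (pt x r θ)) : ℂ) +
        Complex.I * k * (UG G (Y (pt x r θ)) : ℂ)) with hI
  have hr0 : (r : ℂ) ^ k ≠ 0 := pow_ne_zero _ (Complex.ofReal_ne_zero.2 hr2.1.ne')
  have hint : IntervalIntegrable I volume (-π) π := by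
    rw [intervalIntegrable_iff_integrableOn_Ioc_of_le hab]
    refine (hri.const_mul ((r : ℂ) ^ k)⁻¹).congr (Eventually.of_forall fun θ => ?_)
    simp only [hI]
    unfold FF
    rw [pt_pow]
    field_simp
  have hre : ∀ θ, (I θ).re = Real.cos (k * θ) * TG G (Y (pt x r θ)) (tau x P Q (pt x r θ)) -
        k * Real.sin (k * θ) * UG G (Y (pt x r θ)) := by
    intro θ
    simp only [hI]
    have h1 : (k : ℂ) * θ * Complex.I = ((k * θ : ℝ) : ℂ) * Complex.I := by push_cast; ring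
    rw [h1, Complex.exp_mul_I, ← Complex.ofReal_cos, ← Complex.ofReal_sin]
    generalize Real.cos (k * θ) = c
    generalize Real.sin (k * θ) = s
    generalize TG G (Y (pt x r θ)) (tau x P Q (pt x r θ)) = T
    generalize UG G (Y (pt x r θ)) = U
    simp
    ring
  have him : ∀ θ, (I θ).im = Real.sin (k * θ) * TG G (Y (pt x r θ)) (tau x P Q (pt x r θ)) +
        k * Real.cos (k * θ) * UG G (Y (pt x r θ)) := by
    intro θ
    simp only [hI]
    have h1 : (k : ℂ) * θ * Complex.I = ((k * θ : ℝ) : ℂ) * Complex.I := by push_cast; ring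
    rw [h1, Complex.exp_mul_I, ← Complex.ofReal_cos, ← Complex.ofReal_sin]
    generalize Real.cos (k * θ) = c
    generalize Real.sin (k * θ) = s
    generalize TG G (Y (pt x r θ)) (tau x P Q (pt x r θ)) = T
    generalize UG G (Y (pt x r θ)) = U
    simp
    ring
  have e1 := Complex.reCLM.intervalIntegral_comp_comm hint
  have e2 := Complex.imCLM.intervalIntegral_comp_comm hint
  simp only [Complex.reCLM_apply, Complex.imCLM_apply, hre, him] at e1 e2
  rw [e1, e2]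
  have e3 : ∫ θ in (-π)..π, I θ = 0 := hr
  rw [e3]
  exact ⟨rfl, rfl⟩

/-- **The isoperimetric inequality** on almost every circle. -/
theorem circ_ineq (N : ℕ) : ∃ C : ℝ, 0 ≤ C ∧ ∀ {ρ : ℝ} {Y P Q : ℂ → Fin N → ℂ}
    {R : Measure (ℂ × ℂ)}, Pre N ρ Y P Q R → ∀ {x : ℂ} {d : ℝ}, ball x d ⊆ ball 0 1 →
    ∀ᵐ r ∂(volume.restrict (Ioo 0 d)),
      |∫ θ in (-π)..π, ∑ i, (Y (pt x r θ) i).re * (tau x P Q (pt x r θ) i).im| ≤
        C * ∫ θ in (-π)..π, ∑ i, ‖tau x P Q (pt x r θ) i‖ ^ 2 := by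
  obtain ⟨C, hC0, hC⟩ := circle N
  have hpi := Real.pi_pos
  have hab : -π ≤ π := by linarith
  refine ⟨C * (2 * π * N), by positivity, fun {ρ Y P Q R} h {x d} hx => ?_⟩
  have h1 : ∀ᵐ r ∂(volume.restrict (Ioo 0 d)), ∀ q : ℚ, ∀ j k : ℕ,
      ∫ θ in (-π)..π, (Real.cos (k * θ) *
          TG (Sf (N + 1) q j) (Y (pt x r θ)) (tau x P Q (pt x r θ)) -
        k * Real.sin (k * θ) * UG (Sf (N + 1) q j) (Y (pt x r θ))) = 0 ∧
      ∫ θ in (-π)..π, (Real.sin (k * θ) *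
          TG (Sf (N + 1) q j) (Y (pt x r θ)) (tau x P Q (pt x r θ)) +
        k * Real.cos (k * θ) * UG (Sf (N + 1) q j) (Y (pt x r θ))) = 0 := by
    rw [ae_all_iff]
    intro q
    rw [ae_all_iff]
    intro j
    rw [ae_all_iff]
    intro k
    exact h.circ_rel hx (contDiff_Sf _ _ _) k
  have h2 : ∀ᵐ r ∂(volume.restrict (Ioo 0 d)), ∀ q : ℚ, ∀ j : ℕ,
      ∫ θ in (-π)..π, TG (Gf (N + 1) q j) (Y (pt x r θ)) (tau x P Q (pt x r θ)) = 0 := by
    rw [ae_all_iff]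
    intro q
    rw [ae_all_iff]
    intro j
    filter_upwards [h.circ_rel hx (contDiff_Gf (N + 1) q j) 0] with r hr
    rw [← hr.1]
    refine intervalIntegral.integral_congr fun θ _ => ?_
    simp only [Nat.cast_zero, zero_mul, Real.cos_zero, one_mul, sub_zero]
  filter_upwards [h1, h2, h.ae_tau hx, h.ae_tau2 hx] with r hr1 hr2 hr3 hr4
  have hptm : Measurable fun θ => pt x r θ :=
    ((continuous_pt x).comp (by fun_prop : Continuous fun θ : ℝ => (r, θ))).measurable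
  have e1 := hC (fun θ => Y (pt x r θ)) (fun θ => tau x P Q (pt x r θ))
    (fun i => ((h.measY i).comp hptm).aestronglyMeasurable) hr3
    (fun θ i => (h.bdd _ i).trans h.ρ_lt.le) (fun q _ j _ k => hr1 q j k)
    (fun q _ j _ => hr2 q j)
  refine e1.trans ?_
  rw [mul_assoc]
  refine mul_le_mul_of_nonneg_left ?_ hC0
  have hsum1 : IntegrableOn (fun θ => ∑ i, ‖tau x P Q (pt x r θ) i‖) (Ioc (-π) π) :=
    integrable_finsetSum _ fun i _ => (hr3 i).norm
  have hsum2 : IntegrableOn (fun θ => ∑ i, ‖tau x P Q (pt x r θ) i‖ ^ 2) (Ioc (-π) π) :=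
    integrable_finsetSum _ fun i _ => hr4 i
  have hpw : ∀ θ, (∑ i, ‖tau x P Q (pt x r θ) i‖) ^ 2 ≤
      N * ∑ i, ‖tau x P Q (pt x r θ) i‖ ^ 2 := by
    intro θ
    have := sq_sum_le_card_mul_sum_sq (s := (Finset.univ : Finset (Fin N)))
      (f := fun i => ‖tau x P Q (pt x r θ) i‖)
    simpa using this
  have hsq : IntegrableOn (fun θ => (∑ i, ‖tau x P Q (pt x r θ) i‖) ^ 2) (Ioc (-π) π) := by
    refine Integrable.mono' (hsum2.const_mul (N : ℝ)) (hsum1.1.pow 2)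
      (Eventually.of_forall fun θ => ?_)
    rw [Real.norm_of_nonneg (by positivity)]
    exact hpw θ
  refine (cs_circle hsum1 hsq).trans ?_
  rw [mul_assoc (2 * π)]
  refine mul_le_mul_of_nonneg_left ?_ (by positivity)
  rw [← intervalIntegral.integral_const_mul]
  refine intervalIntegral.integral_mono_on hab ?_ ?_ fun θ _ => hpw θ
  · rwa [intervalIntegrable_iff_integrableOn_Ioc_of_le hab]
  · rw [intervalIntegrable_iff_integrableOn_Ioc_of_le hab]
    exact hsum2.const_mul _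

/-- integrated form -/
theorem disc_ineq (N : ℕ) : ∃ C : ℝ, 0 ≤ C ∧ ∀ {ρ : ℝ} {Y P Q : ℂ → Fin N → ℂ}
    {R : Measure (ℂ × ℂ)}, Pre N ρ Y P Q R → ∀ {x : ℂ} {d : ℝ}, ball x d ⊆ ball 0 1 →
    ∀ w : ℝ → ℝ, Continuous w →
      |∫ z in ball x d, w ‖z - x‖ * ∑ i, (Y z i).re * (tau x P Q z i).im| ≤
        C * ∫ z in ball x d, |w ‖z - x‖| * (‖z - x‖ ^ 2 * ∑ i, (‖P z i‖ ^ 2 + ‖Q z i‖ ^ 2)) := by
  obtain ⟨C, hC0, hC⟩ := circ_ineq N
  have hpi := Real.pi_pos
  have hab : -π ≤ π := by linarith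
  refine ⟨C * 2, by positivity, fun {ρ Y P Q R} h {x d} hx w hw => ?_⟩
  have hae := hC h hx
  have hm1 : StronglyMeasurable fun z => ∑ i, (Y z i).re * (tau x P Q z i).im :=
    (Finset.measurable_fun_sum _ fun i _ => (Complex.measurable_re.comp (h.measY i)).mul
      (Complex.measurable_im.comp (h.meas_tau x i))).stronglyMeasurable
  have hi1 : IntegrableOn (fun z => ∑ i, (Y z i).re * (tau x P Q z i).im) (ball x d) :=
    (h.int_S x).mono_set hx
  have hm2 : StronglyMeasurable fun z => ∑ i, ‖tau x P Q z i‖ ^ 2 :=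
    (Finset.measurable_fun_sum _ fun i _ =>
      (h.meas_tau x i).norm.pow_const 2).stronglyMeasurable
  have hi2 : IntegrableOn (fun z => ∑ i, ‖tau x P Q z i‖ ^ 2) (ball x d) :=
    (h.int_S2 x).mono_set hx
  have e1 := polar_w hw hm1 hi1
  have e2 := polar_w hw.abs hm2 hi2
  have f1 : IntegrableOn (fun r => w r • r • ∫ θ in (-π)..π,
      ∑ i, (Y (pt x r θ) i).re * (tau x P Q (pt x r θ) i).im) (Ioo 0 d) :=
    int_w1 hw (polar_intr hm1 hi1)
  have f2 : IntegrableOn (fun r => |w r| • r • ∫ θ in (-π)..π,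
      ∑ i, ‖tau x P Q (pt x r θ) i‖ ^ 2) (Ioo 0 d) :=
    int_w1 hw.abs (polar_intr hm2 hi2)
  simp only [smul_eq_mul] at e1 e2 f1 f2
  rw [e1]
  calc |∫ r in Ioo 0 d, w r * (r * ∫ θ in (-π)..π,
        ∑ i, (Y (pt x r θ) i).re * (tau x P Q (pt x r θ) i).im)|
      ≤ ∫ r in Ioo 0 d, |w r * (r * ∫ θ in (-π)..π,
        ∑ i, (Y (pt x r θ) i).re * (tau x P Q (pt x r θ) i).im)| :=
        abs_integral_le_integral_abs
    _ ≤ ∫ r in Ioo 0 d, C * (|w r| * (r * ∫ θ in (-π)..π,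
        ∑ i, ‖tau x P Q (pt x r θ) i‖ ^ 2)) := by
        refine integral_mono_ae f1.abs (f2.const_mul C) ?_
        filter_upwards [hae, ae_restrict_mem measurableSet_Ioo] with r hr hr2
        rw [abs_mul, abs_mul, abs_of_pos hr2.1]
        have := mul_le_mul_of_nonneg_left hr (mul_nonneg (abs_nonneg (w r)) hr2.1.le)
        calc _ = |w r| * r * |∫ θ in (-π)..π,
              ∑ i, (Y (pt x r θ) i).re * (tau x P Q (pt x r θ) i).im| := by ring
          _ ≤ _ := this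
          _ = _ := by ring
    _ = C * ∫ z in ball x d, |w ‖z - x‖| * ∑ i, ‖tau x P Q z i‖ ^ 2 := by
        rw [integral_const_mul, e2]
    _ ≤ C * ∫ z in ball x d, 2 * (|w ‖z - x‖| *
          (‖z - x‖ ^ 2 * ∑ i, (‖P z i‖ ^ 2 + ‖Q z i‖ ^ 2))) := by
        refine mul_le_mul_of_nonneg_left ?_ hC0
        refine integral_mono (int_w hw.abs hi2) ?_ fun z => ?_
        · have hi3 : IntegrableOn (fun z => ∑ i, (‖P z i‖ ^ 2 + ‖Q z i‖ ^ 2)) (ball x d) :=
            h.int_PQ.mono_set hx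
          have hi4 := int_w (x := x) (d := d) (w := fun r => r ^ 2) (by fun_prop) hi3
          exact (int_w hw.abs hi4).const_mul 2
        · have h5 : ∑ i, ‖tau x P Q z i‖ ^ 2 ≤
              ∑ i, 2 * ‖z - x‖ ^ 2 * (‖P z i‖ ^ 2 + ‖Q z i‖ ^ 2) :=
            Finset.sum_le_sum fun i _ => tau_sq_le x P Q z i
          rw [← Finset.mul_sum] at h5
          simp only
          calc _ ≤ |w ‖z - x‖| * (2 * ‖z - x‖ ^ 2 * ∑ i, (‖P z i‖ ^ 2 + ‖Q z i‖ ^ 2)) :=
                mul_le_mul_of_nonneg_left h5 (abs_nonneg _)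
            _ = _ := by ring
    _ = _ := by
        rw [integral_const_mul]
        ring

end

end Vale.Agent.P247.H743.E
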