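import Vale.Agent.P247.H743.Edec8

/-!
# P247, energy decay, part 9: the decay inequality
-/

open scoped ContDiff Topology Real
open Set MeasureTheory Filter Metric

noncomputable section

namespace Vale.Agent.P247.H743.E

open Vale.Agent.P247.H574 Vale.Agent.P247.H74

/-- the cut off function -/
def eta0 (s : ℝ) : ℝ := Real.smoothTransition ((4 - s) / 3)

theorem eta0_smooth : ContDiff ℝ ∞ eta0 := by
  have h : ContDiff ℝ ∞ Real.smoothTransition := Real.smoothTransition.contDiff
  exact h.comp ((contDiff_const.sub contDiff_id).div_const _)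

theorem eta0_nonneg (s : ℝ) : 0 ≤ eta0 s := Real.smoothTransition.nonneg _
theorem eta0_le (s : ℝ) : eta0 s ≤ 1 := Real.smoothTransition.le_one _

theorem eta0_one {s : ℝ} (hs : s ≤ 1) : eta0 s = 1 :=
  Real.smoothTransition.one_of_one_le (by linarith)

theorem eta0_zero {s : ℝ} (hs : 4 ≤ s) : eta0 s = 0 :=
  Real.smoothTransition.zero_of_nonpos (by linarith)

theorem deriv_eta0_one {s : ℝ} (hs : s ≤ 1) : deriv eta0 s = 0 := by
  have h : IsLocalMax eta0 s := Eventually.of_forall fun r => by
    rw [eta0_one hs]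
    exact eta0_le r
  exact h.deriv_eq_zero

theorem deriv_eta0_zero {s : ℝ} (hs : 4 ≤ s) : deriv eta0 s = 0 := by
  have h : IsLocalMin eta0 s := Eventually.of_forall fun r => by
    rw [eta0_zero hs]
    exact eta0_nonneg r
  exact h.deriv_eq_zero

theorem deriv_eta0_bound : ∃ L : ℝ, 0 ≤ L ∧ ∀ s, |deriv eta0 s| ≤ L := by
  have hc : Continuous (deriv eta0) := eta0_smooth.continuous_deriv (by simp)
  obtain ⟨L, hL⟩ := isCompact_Icc.exists_bound_of_continuousOn (s := Icc (1 : ℝ) 4) hc.continuousOn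
  have hL0 : 0 ≤ L := (norm_nonneg _).trans (hL 1 ⟨le_rfl, by norm_num⟩)
  refine ⟨L, hL0, fun s => ?_⟩
  rcases le_total s 1 with h | h
  · rw [deriv_eta0_one h, abs_zero]
    exact hL0
  · rcases le_total 4 s with h2 | h2
    · rw [deriv_eta0_zero h2, abs_zero]
      exact hL0
    · exact hL s ⟨h, h2⟩

/-- scaled version -/
def etat (t s : ℝ) : ℝ := eta0 (s / t ^ 2)

theorem etat_smooth (t : ℝ) : ContDiff ℝ ∞ (etat t) :=
  eta0_smooth.comp (contDiff_id.div_const _)

theorem deriv_etat (t s : ℝ) : deriv (etat t) s = deriv eta0 (s / t ^ 2) / t ^ 2 := by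
  have h1 : HasDerivAt eta0 (deriv eta0 (s / t ^ 2)) (s / t ^ 2) :=
    (eta0_smooth.differentiable (by simp) _).hasDerivAt
  have h2 : HasDerivAt (fun s : ℝ => s / t ^ 2) (1 / t ^ 2) s := (hasDerivAt_id s).div_const _
  have h3 := h1.comp s h2
  have h4 : deriv (etat t) s = _ := h3.deriv
  rw [h4]
  ring

theorem rad_supp {η : ℝ → ℝ} {x : ℂ} {δ : ℝ} (hδ : 0 ≤ δ) (h : ∀ s, δ ^ 2 ≤ s → η s = 0)
    (hx : closedBall x δ ⊆ ball 0 1) :
    HasCompactSupport (rad η x) ∧ tsupport (rad η x) ⊆ ball 0 1 := by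
  have h1 : Function.support (rad η x) ⊆ closedBall x δ := by
    intro z hz
    by_contra hz2
    apply hz
    rw [mem_closedBall_iff_norm, not_le] at hz2
    unfold rad
    rw [h _ (pow_le_pow_left₀ hδ hz2.le 2), Complex.ofReal_zero]
  exact ⟨HasCompactSupport.of_support_subset_isCompact (isCompact_closedBall x δ) h1,
    (closure_minimal h1 isClosed_closedBall).trans hx⟩

instance finite_ball' (x : ℂ) (r : ℝ) : IsFiniteMeasure (volume.restrict (ball x r)) :=
  ⟨by rw [Measure.restrict_apply_univ]; exact measure_ball_lt_top⟩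

theorem vol_ball (x : ℂ) {r : ℝ} (hr : 0 ≤ r) : volume.real (ball x r) = π * r ^ 2 := by
  unfold Measure.real
  rw [Complex.volume_ball, ENNReal.toReal_mul, ENNReal.toReal_pow, ENNReal.toReal_ofReal hr]
  simp
  ring

section

variable {N : ℕ} {ρ : ℝ} {Y P Q : ℂ → Fin N → ℂ} {R : Measure (ℂ × ℂ)}

theorem Pre.int_p (h : Pre N ρ Y P Q R) :
    IntegrableOn (fun z => ∑ i, ‖P z i‖ ^ 2) (ball 0 1) :=
  integrable_finsetSum _ fun i _ => h.sqP i

/-- the energy -/
def eng {N : ℕ} (P : ℂ → Fin N → ℂ) (x : ℂ) (t : ℝ) : ℝ :=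
  ∫ z in ball (0 : ℂ) 1 ∩ ball x t, ∑ i, ‖P z i‖ ^ 2

theorem Pre.step (h : Pre N ρ Y P Q R) {c C₁ : ℝ} (hc : 0 < c) (hC₁ : 0 ≤ C₁)
    (hPQ : ∀ z ∈ ball (0 : ℂ) 1, ∀ i, ‖Q z i‖ ^ 2 ≤ (1 - c) * ‖P z i‖ ^ 2 + C₁) :
    ∃ θ B : ℝ, 0 ≤ θ ∧ θ < 1 ∧ 0 ≤ B ∧ ∀ x ∈ ball (0 : ℂ) (1 / 4), ∀ t, 0 < t → t ≤ 1 / 4 →
      eng P x t ≤ θ * eng P x (2 * t) + B * t ^ 2 := by
  obtain ⟨C, hC0, hC⟩ := disc_ineq N
  obtain ⟨L, hL0, hL⟩ := deriv_eta0_bound
  have hpi := Real.pi_pos
  have hD : 0 < c + 16 * C * L := by positivity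
  refine ⟨16 * C * L / (c + 16 * C * L), (1 + 8 * C * L) * (4 * π * (N * C₁)) / (c + 16 * C * L),
    by positivity, by rw [div_lt_one hD]; linarith, by positivity, fun x hx t ht0 ht => ?_⟩
  have hxn : ‖x‖ < 1 / 4 := mem_ball_zero_iff.1 hx
  have hM : MeasurableSet (ball (0 : ℂ) 1) := measurableSet_ball
  have hsub : closedBall x (3 / 4) ⊆ ball 0 1 := by
    intro z hz
    rw [mem_closedBall_iff_norm] at hz
    rw [mem_ball_zero_iff]
    have := norm_add_le (z - x) x
    rw [sub_add_cancel] at this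
    linarith
  have hb34 : ball x (3 / 4) ⊆ ball 0 1 := ball_subset_closedBall.trans hsub
  have ht2 : 0 < t ^ 2 := by positivity
  have hzero : ∀ s, (2 * t) ^ 2 ≤ s → etat t s = 0 := fun s hs => by
    unfold etat
    refine eta0_zero ?_
    rw [le_div_iff₀ ht2]
    linarith
  have hzero' : ∀ s, (2 * t) ^ 2 ≤ s → deriv (etat t) s = 0 := fun s hs => by
    rw [deriv_etat, deriv_eta0_zero, zero_div]
    rw [le_div_iff₀ ht2]
    linarith
  have hcb : closedBall x (2 * t) ⊆ ball 0 1 :=
    (closedBall_subset_closedBall (by linarith)).trans hsub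
  obtain ⟨k1, k2⟩ := rad_supp (η := etat t) (x := x) (δ := 2 * t) (by positivity) hzero hcb
  obtain ⟨k3, k4⟩ := rad_supp (η := deriv (etat t)) (x := x) (δ := 2 * t) (by positivity)
    hzero' hcb
  have key := h.key x (etat_smooth t) k1 k2 k3 k4
  have hR : 0 ≤ ∫ p, etat t (‖p.1 - x‖ ^ 2) ∂(R) := integral_nonneg fun p => eta0_nonneg _
  set p : ℂ → ℝ := fun z => ∑ i, ‖P z i‖ ^ 2 with hp
  have hpi0 : IntegrableOn p (ball 0 1) := h.int_p
  set K : ℝ := N * C₁ with hK
  have hK0 : 0 ≤ K := by positivity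
  have hp0 : ∀ z, 0 ≤ p z := fun z => Finset.sum_nonneg fun i _ => by positivity
  have hw : Continuous fun r : ℝ => deriv (etat t) (r ^ 2) :=
    ((etat_smooth t).continuous_deriv (by simp)).comp (by fun_prop)
  -- volumes
  have hvol : ∀ r, 0 ≤ r → volume.real (ball (0 : ℂ) 1 ∩ ball x r) ≤ π * r ^ 2 := fun r hr => by
    rw [← vol_ball x hr]
    exact measureReal_mono inter_subset_right measure_ball_lt_top.ne
  -- lower bound for the first term
  have hlow : c * eng P x t - K * (π * (2 * t) ^ 2) ≤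
      ∫ z in ball (0 : ℂ) 1, etat t (‖z - x‖ ^ 2) * ∑ i, (‖P z i‖ ^ 2 - ‖Q z i‖ ^ 2) := by
    have e1 : ∫ z in ball (0 : ℂ) 1, ((ball x t).indicator (fun z => c * p z) z -
        (ball x (2 * t)).indicator (fun _ => K) z) =
        c * eng P x t - K * volume.real (ball (0 : ℂ) 1 ∩ ball x (2 * t)) := by
      rw [integral_sub, setIntegral_indicator measurableSet_ball,
        setIntegral_indicator measurableSet_ball, integral_const_mul, setIntegral_const,
        smul_eq_mul, mul_comm K]
      · rfl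
      · exact (hpi0.const_mul c).indicator measurableSet_ball
      · exact (integrable_const K).indicator measurableSet_ball
    have e2 : c * eng P x t - K * (π * (2 * t) ^ 2) ≤
        c * eng P x t - K * volume.real (ball (0 : ℂ) 1 ∩ ball x (2 * t)) := by
      have := mul_le_mul_of_nonneg_left (hvol (2 * t) (by positivity)) hK0
      linarith
    refine e2.trans ?_
    rw [← e1]
    refine setIntegral_mono_on ?_ ?_ hM fun z hz => ?_
    · exact ((hpi0.const_mul c).indicator measurableSet_ball).sub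
        ((integrable_const K).indicator measurableSet_ball)
    · refine int_cont_mul ?_ (integrable_finsetSum _ fun i _ => (h.sqP i).sub (h.sqQ i))
      exact (etat_smooth t).continuous.comp (by fun_prop)
    · have f1 : c * p z - K ≤ ∑ i, (‖P z i‖ ^ 2 - ‖Q z i‖ ^ 2) := by
        have f2 : ∑ i, (c * ‖P z i‖ ^ 2 - C₁) ≤ ∑ i, (‖P z i‖ ^ 2 - ‖Q z i‖ ^ 2) :=
          Finset.sum_le_sum fun i _ => by linarith [hPQ z hz i]
        rw [Finset.sum_sub_distrib, ← Finset.mul_sum] at f2
        simpa [hK] using f2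
      have f3 : etat t (‖z - x‖ ^ 2) * (c * p z - K) ≤
          etat t (‖z - x‖ ^ 2) * ∑ i, (‖P z i‖ ^ 2 - ‖Q z i‖ ^ 2) :=
        mul_le_mul_of_nonneg_left f1 (eta0_nonneg _)
      refine le_trans ?_ f3
      have f4 : (ball x t).indicator (fun z => c * p z) z ≤ etat t (‖z - x‖ ^ 2) * (c * p z) := by
        by_cases hz1 : z ∈ ball x t
        · rw [indicator_of_mem hz1]
          have f5 : etat t (‖z - x‖ ^ 2) = 1 := by
            unfold etat
            refine eta0_one ?_
            rw [div_le_one ht2]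
            exact pow_le_pow_left₀ (norm_nonneg _) (mem_ball_iff_norm.1 hz1).le 2
          rw [f5, one_mul]
        · rw [indicator_of_notMem hz1]
          exact mul_nonneg (eta0_nonneg _) (mul_nonneg hc.le (hp0 z))
      have f6 : etat t (‖z - x‖ ^ 2) * K ≤ (ball x (2 * t)).indicator (fun _ => K) z := by
        by_cases hz1 : z ∈ ball x (2 * t)
        · rw [indicator_of_mem hz1]
          calc etat t (‖z - x‖ ^ 2) * K ≤ 1 * K := mul_le_mul_of_nonneg_right (eta0_le _) hK0
            _ = K := one_mul _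
        · rw [indicator_of_notMem hz1]
          have f5 : etat t (‖z - x‖ ^ 2) = 0 := by
            refine hzero _ ?_
            rw [mem_ball_iff_norm, not_lt] at hz1
            exact pow_le_pow_left₀ (by positivity) hz1 2
          rw [f5, zero_mul]
      rw [mul_sub]
      linarith
  -- upper bound for the last term
  have hup : |∫ z in ball (0 : ℂ) 1, deriv (etat t) (‖z - x‖ ^ 2) *
      ∑ i, (Y z i).re * (tau x P Q z i).im| ≤
      C * (4 * L * (2 * eng P x (2 * t) + K * (π * (2 * t) ^ 2) - 2 * eng P x t)) := by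
    have e1 : ∫ z in ball (0 : ℂ) 1, deriv (etat t) (‖z - x‖ ^ 2) *
        ∑ i, (Y z i).re * (tau x P Q z i).im = ∫ z in ball x (3 / 4),
          deriv (etat t) (‖z - x‖ ^ 2) * ∑ i, (Y z i).re * (tau x P Q z i).im := by
      refine setIntegral_eq_of_subset_of_forall_sdiff_eq_zero hM hb34 fun z hz => ?_
      have h3 : deriv (etat t) (‖z - x‖ ^ 2) = 0 := by
        refine hzero' _ (pow_le_pow_left₀ (by positivity) ?_ 2)
        by_contra h4
        exact hz.2 (mem_ball_iff_norm.2 (by linarith [not_le.1 h4]))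
      rw [h3, zero_mul]
    rw [e1]
    refine (hC h hb34 (fun r => deriv (etat t) (r ^ 2)) hw).trans ?_
    refine mul_le_mul_of_nonneg_left ?_ hC0
    set u : ℂ → ℝ := fun z => 2 * p z + K with hu
    have hui : IntegrableOn u (ball x (3 / 4)) :=
      ((hpi0.mono_set hb34).const_mul 2).add (integrable_const K)
    have e2 : ∀ r, r ≤ 3 / 4 → ∫ z in ball x (3 / 4), (ball x r).indicator u z =
        2 * eng P x r + K * volume.real (ball x r) := by
      intro r hr
      have hsr : ball x (3 / 4) ∩ ball x r = ball x r :=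
        inter_eq_right.2 (ball_subset_ball hr)
      have hsr' : ball (0 : ℂ) 1 ∩ ball x r = ball x r :=
        inter_eq_right.2 ((ball_subset_ball hr).trans hb34)
      rw [setIntegral_indicator measurableSet_ball, hsr, hu]
      unfold eng
      rw [hsr', integral_add, integral_const_mul, setIntegral_const, smul_eq_mul, mul_comm K]
      · exact ((hpi0.mono_set hb34).mono_set (ball_subset_ball hr)).const_mul 2
      · exact integrable_const K
    have e3 : ∫ z in ball x (3 / 4), 4 * L * ((ball x (2 * t)).indicator u z -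
        (ball x t).indicator u z) ≤
        4 * L * (2 * eng P x (2 * t) + K * (π * (2 * t) ^ 2) - 2 * eng P x t) := by
      rw [integral_const_mul, integral_sub (hui.indicator measurableSet_ball)
        (hui.indicator measurableSet_ball), e2 _ (by linarith), e2 _ (by linarith)]
      refine mul_le_mul_of_nonneg_left ?_ (by positivity)
      rw [vol_ball x (by positivity : 0 ≤ 2 * t)]
      have : 0 ≤ K * volume.real (ball x t) := mul_nonneg hK0 measureReal_nonneg
      linarith
    refine le_trans ?_ e3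
    refine setIntegral_mono_on ?_ ?_ measurableSet_ball fun z hz => ?_
    · have hi3 : IntegrableOn (fun z => ∑ i, (‖P z i‖ ^ 2 + ‖Q z i‖ ^ 2)) (ball x (3 / 4)) :=
        h.int_PQ.mono_set hb34
      have hi4 := int_w (x := x) (d := 3 / 4) (w := fun r => r ^ 2) (by fun_prop) hi3
      exact int_w hw.abs hi4
    · exact ((hui.indicator measurableSet_ball).sub (hui.indicator measurableSet_ball)).const_mul _
    · have hq : ∑ i, (‖P z i‖ ^ 2 + ‖Q z i‖ ^ 2) ≤ u z := by
        have f2 : ∑ i, (‖P z i‖ ^ 2 + ‖Q z i‖ ^ 2) ≤ ∑ i, (2 * ‖P z i‖ ^ 2 + C₁) :=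
          Finset.sum_le_sum fun i _ => by
            have := hPQ z (hb34 hz) i
            nlinarith [sq_nonneg ‖P z i‖]
        have f3 : ∑ i, (2 * ‖P z i‖ ^ 2 + C₁) = u z := by
          rw [Finset.sum_add_distrib, ← Finset.mul_sum, Finset.sum_const, Finset.card_univ,
            Fintype.card_fin, nsmul_eq_mul]
        rw [f3] at f2
        exact f2
      have hu0 : 0 ≤ u z := by
        have := hp0 z
        simp only [hu]
        positivity
      have hq0 : 0 ≤ ∑ i, (‖P z i‖ ^ 2 + ‖Q z i‖ ^ 2) :=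
        Finset.sum_nonneg fun i _ => by positivity
      by_cases hz2 : z ∈ ball x (2 * t)
      · by_cases hz1 : z ∈ ball x t
        · rw [indicator_of_mem hz2, indicator_of_mem hz1, sub_self, mul_zero, deriv_etat,
            deriv_eta0_one, zero_div, abs_zero, zero_mul]
          rw [div_le_one ht2]
          exact pow_le_pow_left₀ (norm_nonneg _) (mem_ball_iff_norm.1 hz1).le 2
        · rw [indicator_of_mem hz2, indicator_of_notMem hz1, sub_zero, deriv_etat, abs_div,
            abs_of_pos ht2]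
          have f1 : ‖z - x‖ ^ 2 ≤ 4 * t ^ 2 := by
            have := pow_le_pow_left₀ (norm_nonneg _) (mem_ball_iff_norm.1 hz2).le 2
            linarith
          calc |deriv eta0 (‖z - x‖ ^ 2 / t ^ 2)| / t ^ 2 *
                (‖z - x‖ ^ 2 * ∑ i, (‖P z i‖ ^ 2 + ‖Q z i‖ ^ 2))
              ≤ L / t ^ 2 * (4 * t ^ 2 * u z) := by
                refine mul_le_mul ?_ (mul_le_mul f1 hq hq0 (by positivity)) (by positivity)
                  (by positivity)
                exact div_le_div_of_nonneg_right (hL _) ht2.le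
            _ = 4 * L * u z := by
                field_simp
      · have hz1 : z ∉ ball x t := fun h => hz2 (ball_subset_ball (by linarith) h)
        rw [indicator_of_notMem hz2, indicator_of_notMem hz1, sub_zero, mul_zero, hzero',
          abs_zero, zero_mul]
        rw [mem_ball_iff_norm, not_lt] at hz2
        exact pow_le_pow_left₀ (by positivity) hz2 2
  -- conclusion
  set e1 := eng P x t
  set e2 := eng P x (2 * t)
  have habs := neg_abs_le (∫ z in ball (0 : ℂ) 1, deriv (etat t) (‖z - x‖ ^ 2) *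
      ∑ i, (Y z i).re * (tau x P Q z i).im)
  have hfin : (c + 16 * C * L) * e1 ≤ 16 * C * L * e2 + (1 + 8 * C * L) * (4 * π * K) * t ^ 2 := by
    nlinarith
  have : e1 ≤ (16 * C * L * e2 + (1 + 8 * C * L) * (4 * π * K) * t ^ 2) / (c + 16 * C * L) := by
    rw [le_div_iff₀ hD]
    linarith
  refine this.trans (le_of_eq ?_)
  field_simp

end

end Vale.Agent.P247.H743.E
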