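import Vale.Agent.P247.H743.Basic

/-!
# P247, package A-EQ: the total map of the global family is proper and onto
-/

open scoped ContDiff Topology
open Set MeasureTheory Filter Metric

noncomputable section

namespace Vale.Agent.P247.H743

open Vale.Agent.P247.H74

theorem norm_Lk_le (D : Data) (v : R4) :
    ‖Lk D v‖ ≤ (‖(D.η 0).κ (e 2)‖ + ‖(D.η 0).κ (e 3)‖) * ‖v‖ := by
  have h1 : ‖(D.η 0).κ (e 2) v‖ ≤ ‖(D.η 0).κ (e 2)‖ * ‖v‖ := ContinuousLinearMap.le_opNorm _ _
  have h2 : ‖(D.η 0).κ (e 3) v‖ ≤ ‖(D.η 0).κ (e 3)‖ * ‖v‖ := ContinuousLinearMap.le_opNorm _ _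
  have h3 : 0 ≤ ‖(D.η 0).κ (e 2)‖ * ‖v‖ := by positivity
  have h4 : 0 ≤ ‖(D.η 0).κ (e 3)‖ * ‖v‖ := by positivity
  unfold Lk
  rw [Prod.norm_def]
  simp only [norm_neg]
  refine max_le ?_ ?_
  · linarith
  · linarith

theorem mean_comp_two {D : Data} {f : P2 → R4} {τ : ℂ} (h : JT D f τ) (hc : Cen f) :
    mean f 2 = 0 ∧ mean f 3 = 0 := by
  rw [mean_apply h.smooth.continuous, mean_apply h.smooth.continuous]
  exact hc

/-- bounds in a global family: `y` and `p` are controlled by the image point -/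
theorem bounds (hPB : PB_statement) {D : Data} : ∃ C₀ : ℝ, 0 ≤ C₀ ∧
    ∀ {U : Set P2} {F : P2 → P2 → R4} {T : P2 → ℂ}, Fam D U F T → ∀ y ∈ U, ∀ (p : P2) (C : ℝ),
      |tot F (y, p) 0| ≤ C → |tot F (y, p) 1| ≤ C →
      ‖y‖ ≤ C₀ + (‖(D.η 0).κ (e 2)‖ + ‖(D.η 0).κ (e 3)‖) * (C + C₀) ∧
      |tot F (y, p) 2 - p.1| ≤ C₀ ∧ |tot F (y, p) 3 - p.2| ≤ C₀ := by
  obtain ⟨C₀, h⟩ := hPB D
  refine ⟨|C₀|, abs_nonneg _, ?_⟩
  intro U F T hF y hy p C h0 h1
  obtain ⟨ha, hb⟩ := h (F y) (T y) (hF.jt y hy)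
  have hp := ha p
  have hC := le_abs_self C₀
  obtain ⟨m2, m3⟩ := mean_comp_two (hF.jt y hy) (hF.cen y hy)
  have hcomp : ∀ i, |F y p i - mean (F y) i| ≤ |C₀| := fun i => by
    have := (norm_le_pi_norm (F y p - mean (F y)) i).trans hp
    rw [Pi.sub_apply, Real.norm_eq_abs] at this
    linarith
  have e0 : tot F (y, p) 0 = F y p 0 := by
    show lin p 0 + F y p 0 = _
    rw [lin_apply_zero, zero_add]
  have e1 : tot F (y, p) 1 = F y p 1 := by
    show lin p 1 + F y p 1 = _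
    rw [lin_apply_one, zero_add]
  have e2 : tot F (y, p) 2 = p.1 + F y p 2 := by
    show lin p 2 + F y p 2 = _
    rw [lin_apply_two]
  have e3 : tot F (y, p) 3 = p.2 + F y p 3 := by
    show lin p 3 + F y p 3 = _
    rw [lin_apply_three]
  have k0 := hcomp 0
  have k1 := hcomp 1
  have k2 := hcomp 2
  have k3 := hcomp 3
  rw [e0] at h0
  rw [e1] at h1
  rw [m2, sub_zero] at k2
  rw [m3, sub_zero] at k3
  have hCnn : 0 ≤ C := (abs_nonneg _).trans h0
  have hm : ‖mean (F y)‖ ≤ C + |C₀| := by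
    rw [pi_norm_le_iff_of_nonneg (by positivity)]
    intro i
    rw [Real.norm_eq_abs]
    fin_cases i
    · show |mean (F y) 0| ≤ _
      have : mean (F y) 0 = F y p 0 - (F y p 0 - mean (F y) 0) := by ring
      rw [this]
      exact (abs_sub _ _).trans (add_le_add h0 k0)
    · show |mean (F y) 1| ≤ _
      have : mean (F y) 1 = F y p 1 - (F y p 1 - mean (F y) 1) := by ring
      rw [this]
      exact (abs_sub _ _).trans (add_le_add h1 k1)
    · show |mean (F y) 2| ≤ _
      rw [m2, abs_zero]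
      positivity
    · show |mean (F y) 3| ≤ _
      rw [m3, abs_zero]
      positivity
  refine ⟨?_, ?_, ?_⟩
  · have h5 := hF.flux_eq y hy
    rw [h5] at hb
    have h6 : ‖y‖ ≤ ‖y - Lk D (mean (F y))‖ + ‖Lk D (mean (F y))‖ := by
      have := norm_add_le (y - Lk D (mean (F y))) (Lk D (mean (F y)))
      rwa [sub_add_cancel] at this
    have h7 := norm_Lk_le D (mean (F y))
    have h8 : (‖(D.η 0).κ (e 2)‖ + ‖(D.η 0).κ (e 3)‖) * ‖mean (F y)‖ ≤
        (‖(D.η 0).κ (e 2)‖ + ‖(D.η 0).κ (e 3)‖) * (C + |C₀|) :=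
      mul_le_mul_of_nonneg_left hm (by positivity)
    linarith
  · rw [e2]
    rwa [add_sub_cancel_left]
  · rw [e3]
    rwa [add_sub_cancel_left]

theorem surj_of_inj (L : P2 × P2 →L[ℝ] R4) (h : Function.Injective L) : L.range = ⊤ := by
  have h1 : Module.finrank ℝ (P2 × P2) = Module.finrank ℝ R4 := by
    simp
  have h2 : Function.Surjective (L : P2 × P2 →ₗ[ℝ] R4) :=
    (LinearMap.injective_iff_surjective_of_finrank_eq_finrank h1).1 h
  exact LinearMap.range_eq_top.2 h2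

theorem SURJ (hPB : PB_statement) (hD : DPsi_statement) : SURJ_statement := by
  intro D F T hF _
  obtain ⟨C₀, hC₀, hb⟩ := bounds hPB (D := D)
  refine ⟨?_, fun C => ⟨_, fun y p h0 h1 => (hb hF y (mem_univ _) p C h0 h1).1⟩⟩
  have hsm := contDiff_tot hF
  have hopen : IsOpen (range (tot F)) := by
    rw [isOpen_iff_mem_nhds]
    rintro x ⟨⟨y, p⟩, rfl⟩
    have h1 : HasStrictFDerivAt (tot F) (fderiv ℝ (tot F) (y, p)) (y, p) :=
      hsm.contDiffAt.hasStrictFDerivAt (by simp)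
    have h2 := h1.map_nhds_eq_of_surj
      (surj_of_inj _ (hD D univ F T isOpen_univ hF y (mem_univ _) p))
    rw [← h2, mem_map]
    exact Filter.mem_of_superset univ_mem fun q _ => mem_range_self q
  have hclosed : IsClosed (range (tot F)) := by
    refine IsSeqClosed.isClosed ?_
    intro x x₀ hx hlim
    choose q hq using hx
    obtain ⟨C, hC⟩ := (Metric.isBounded_range_of_tendsto x hlim).exists_norm_le
    have hCk : ∀ k, ‖x k‖ ≤ C := fun k => hC _ (mem_range_self k)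
    have hCi : ∀ k i, |x k i| ≤ C := fun k i => (norm_le_pi_norm (x k) i).trans (hCk k)
    have hbk : ∀ k, q k ∈ closedBall (0 : P2 × P2)
        (max (C₀ + (‖(D.η 0).κ (e 2)‖ + ‖(D.η 0).κ (e 3)‖) * (C + C₀)) (C + C₀)) := by
      intro k
      obtain ⟨h1, h2, h3⟩ := hb hF (q k).1 (mem_univ _) (q k).2 C
        (by rw [Prod.mk.eta, hq k]; exact hCi k 0) (by rw [Prod.mk.eta, hq k]; exact hCi k 1)
      rw [Prod.mk.eta, hq k] at h2 h3
      rw [mem_closedBall_zero_iff, Prod.norm_def]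
      refine max_le (h1.trans (le_max_left _ _)) ?_
      refine le_trans ?_ (le_max_right _ _)
      rw [Prod.norm_def, Real.norm_eq_abs, Real.norm_eq_abs]
      refine max_le ?_ ?_
      · have : (q k).2.1 = x k 2 - (x k 2 - (q k).2.1) := by ring
        rw [this]
        exact (abs_sub _ _).trans (add_le_add (hCi k 2) h2)
      · have : (q k).2.2 = x k 3 - (x k 3 - (q k).2.2) := by ring
        rw [this]
        exact (abs_sub _ _).trans (add_le_add (hCi k 3) h3)
    obtain ⟨q₀, -, φ, hφ, hlim2⟩ := (isCompact_closedBall _ _).tendsto_subseq hbk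
    refine ⟨q₀, ?_⟩
    have h1 : Tendsto (fun k => tot F (q (φ k))) atTop (𝓝 (tot F q₀)) :=
      (hsm.continuous.tendsto q₀).comp hlim2
    have h2 : Tendsto (fun k => tot F (q (φ k))) atTop (𝓝 x₀) := by
      have : (fun k => tot F (q (φ k))) = x ∘ φ := by
        funext k
        exact hq (φ k)
      rw [this]
      exact hlim.comp hφ.tendsto_atTop
    exact tendsto_nhds_unique h1 h2
  have h1 : range (tot F) = univ := IsClopen.eq_univ ⟨hclosed, hopen⟩ (range_nonempty _)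
  exact range_eq_univ.1 h1

end Vale.Agent.P247.H743
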