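import Vale.Agent.P247.H743.Mean
import Vale.Agent.P247.H743.Surj

/-!
# P247, package A-EQ: equivariance of the global family
-/

open scoped ContDiff Topology
open Set MeasureTheory Filter Metric

noncomputable section

namespace Vale.Agent.P247.H743

open Vale.Agent.P247.H74

theorem tendC1_const {u : ℂ → R4} : TendC1 (fun _ : ℕ => u) u := by
  refine ⟨?_, ?_⟩
  · intro s hs x
    exact ⟨univ, univ_mem, Eventually.of_forall fun n y _ => refl_mem_uniformity hs⟩
  · intro s hs x
    exact ⟨univ, univ_mem, Eventually.of_forall fun n y _ => refl_mem_uniformity hs⟩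

/-- reduction of the parameter to the unit square -/
theorem reduce_pair {f g : P2 → R4} (hf : Per f) (hg : Per g) {p q : P2}
    (h : phi f p = phi g q) : ∃ p' ∈ Icc (0 : P2) 1, ∃ q', phi f p' = phi g q' := by
  refine ⟨(p.1 + (-⌊p.1⌋ : ℤ), p.2 + (-⌊p.2⌋ : ℤ)), ?_, (q.1 + (-⌊p.1⌋ : ℤ), q.2 + (-⌊p.2⌋ : ℤ)), ?_⟩
  · have h1 : p.1 + ((-⌊p.1⌋ : ℤ) : ℝ) = Int.fract p.1 := by
      rw [Int.fract]; push_cast; ring
    have h2 : p.2 + ((-⌊p.2⌋ : ℤ) : ℝ) = Int.fract p.2 := by
      rw [Int.fract]; push_cast; ring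
    rw [h1, h2]
    exact ⟨⟨Int.fract_nonneg _, Int.fract_nonneg _⟩,
      ⟨(Int.fract_lt_one _).le, (Int.fract_lt_one _).le⟩⟩
  · rw [phi_per hf, phi_per hg, h]

theorem Inj_fam {F : P2 → P2 → R4} (h : Function.Injective (tot F)) (y : P2) : Inj (F y) := by
  intro p q hpq
  have h1 : tot F (y, p) = tot F (y, q) := hpq
  exact (Prod.mk.inj (h h1)).2

/-- a torus is a member of a global family as soon as the family is onto -/
theorem mem_family (hPB : PB_statement) (hL1 : L1_statement) (hL2 : L2_statement) {D : Data}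
    {F : P2 → P2 → R4} {T : P2 → ℂ} (hF : Fam D univ F T) (hinj : Function.Injective (tot F))
    (hsurj : Function.Surjective (tot F)) {f : P2 → R4} {τ : ℂ} (hf : JT D f τ) (hc : Cen f) :
    f = F (flux D f) := by
  obtain ⟨C₀, hC₀, hb⟩ := bounds hPB (D := D)
  obtain ⟨C, hC⟩ := (isCompact_Icc (a := (0 : P2)) (b := 1)).exists_bound_of_continuousOn
    (contDiff_phi hf.smooth).continuous.continuousOn
  obtain ⟨⟨y₁, p₁⟩, h₁⟩ := hsurj (phi f 0)
  set w : P2 := (1, 0) with hw
  have hwn : ‖w‖ = 1 := by simp [hw, Prod.norm_def]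
  have hsm := contDiff_tot hF
  set K : Set (ℝ × P2 × P2) := {k | 0 ≤ k.1 ∧ k.2.1 ∈ Icc (0 : P2) 1 ∧
    phi f k.2.1 = tot F (y₁ + k.1 • w, k.2.2)} with hK
  have hKne : K.Nonempty := by
    refine ⟨(0, 0, p₁), le_rfl, ⟨le_rfl, zero_le_one⟩, ?_⟩
    simp only [zero_smul, add_zero]
    exact h₁.symm
  have hKclosed : IsClosed K := by
    refine IsClosed.inter (isClosed_le continuous_const continuous_fst) (IsClosed.inter ?_ ?_)
    · exact isClosed_Icc.preimage (continuous_fst.comp continuous_snd)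
    · refine isClosed_eq ?_ ?_
      · exact (contDiff_phi hf.smooth).continuous.comp (continuous_fst.comp continuous_snd)
      · refine hsm.continuous.comp ?_
        fun_prop
  have hKb : Bornology.IsBounded K := by
    rw [isBounded_iff_forall_norm_le]
    set B := C₀ + (‖(D.η 0).κ (e 2)‖ + ‖(D.η 0).κ (e 3)‖) * (C + C₀) with hB
    refine ⟨max (‖y₁‖ + B) (max 1 (C + C₀)), ?_⟩
    rintro ⟨s, p, q⟩ ⟨hs, hp, hpq⟩
    simp only at hs hp hpq
    have hn := hC p hp
    have hi : ∀ i, |phi f p i| ≤ C := fun i => (norm_le_pi_norm (phi f p) i).trans hn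
    obtain ⟨k1, k2, k3⟩ := hb hF (y₁ + s • w) (mem_univ _) q C (by rw [← hpq]; exact hi 0)
      (by rw [← hpq]; exact hi 1)
    rw [← hpq] at k2 k3
    rw [Prod.norm_def]
    refine max_le ?_ ?_
    · refine le_trans ?_ (le_max_left _ _)
      have h2 : ‖s • w‖ ≤ ‖y₁ + s • w‖ + ‖y₁‖ := by
        have := norm_sub_le (y₁ + s • w) y₁
        rwa [add_sub_cancel_left] at this
      rw [norm_smul, hwn, mul_one] at h2
      show ‖s‖ ≤ _
      linarith
    · refine le_trans ?_ (le_max_right _ _)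
      show ‖(p, q)‖ ≤ _
      rw [Prod.norm_def]
      refine max_le ?_ ?_
      · refine le_trans ?_ (le_max_left _ _)
        show ‖p‖ ≤ 1
        rw [Prod.norm_def, Real.norm_eq_abs, Real.norm_eq_abs, abs_of_nonneg hp.1.1,
          abs_of_nonneg hp.1.2]
        exact max_le hp.2.1 hp.2.2
      · refine le_trans ?_ (le_max_right _ _)
        show ‖q‖ ≤ _
        rw [Prod.norm_def, Real.norm_eq_abs, Real.norm_eq_abs]
        refine max_le ?_ ?_
        · have : q.1 = phi f p 2 - (phi f p 2 - q.1) := by ring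
          rw [this]
          exact (abs_sub _ _).trans (add_le_add (hi 2) k2)
        · have : q.2 = phi f p 3 - (phi f p 3 - q.2) := by ring
          rw [this]
          exact (abs_sub _ _).trans (add_le_add (hi 3) k3)
  have hKc : IsCompact K := Metric.isCompact_of_isClosed_isBounded hKclosed hKb
  obtain ⟨⟨s, p, q⟩, ⟨hs, hp, hpq⟩, hmax⟩ := hKc.exists_isMaxOn hKne continuous_fst.continuousOn
  simp only at hs hp hpq
  set y := y₁ + s • w with hy
  set z₀ : ℂ := (p.1 : ℂ) + p.2 * τ with hz₀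
  set w₀ : ℂ := (q.1 : ℂ) + q.2 * T y with hw₀
  have hτ := hf.im_pos
  have hTy := (hF.jt y (mem_univ _)).im_pos
  have hcz : coord τ z₀ = p := K2H.coord_apply τ hτ p
  have hcw : coord (T y) w₀ = q := K2H.coord_apply (T y) hTy q
  have hu := K2H.JH_up hf
  have hv := K2H.JH_up (hF.jt y (mem_univ _))
  have huv : up f τ z₀ = up (F y) (T y) w₀ := by
    unfold up
    rw [hcz, hcw]
    exact hpq
  have hvi : fderiv ℝ (up (F y) (T y)) w₀ 1 ≠ 0 := by
    rw [K2H.fderiv_up_one (hF.jt y (mem_univ _)).smooth]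
    exact hF.imm y (mem_univ _) _
  rcases hL1 D _ _ z₀ w₀ hu hv huv hvi with h | ⟨-, h⟩
  · obtain ⟨h2, -⟩ := hL2 D f (F y) τ (T y) hf (hF.jt y (mem_univ _)) hc (hF.cen y (mem_univ _))
      (hF.imm y (mem_univ _)) (Inj_fam hinj y) ⟨z₀, w₀, h⟩
    have h3 : flux D f = y := by rw [h2]; exact hF.flux_eq y (mem_univ _)
    rw [h3]
    exact h2
  · exfalso
    set yn : ℕ → P2 := fun n => y₁ + (s + 1 / ((n : ℝ) + 1)) • w with hyn
    have hlim : Tendsto yn atTop (𝓝 y) := by
      have h4 : Tendsto (fun n : ℕ => s + 1 / ((n : ℝ) + 1)) atTop (𝓝 (s + 0)) :=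
        tendsto_const_nhds.add tendsto_one_div_add_atTop_nhds_zero_nat
      rw [add_zero] at h4
      exact tendsto_const_nhds.add (h4.smul_const w)
    have h5 := h 1 one_pos (fun _ => up f τ) (fun n => up (F (yn n)) (T (yn n)))
      (fun _ => hu.1.of_le (by exact_mod_cast le_top))
      (fun n => (K2H.JH_up (hF.jt (yn n) (mem_univ _))).1.of_le (by exact_mod_cast le_top))
      tendC1_const (tendC1_fam isOpen_univ hF (mem_univ y) (fun n => mem_univ _) hlim)
    obtain ⟨n, z, -, w', -, hzw⟩ := h5.exists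
    obtain ⟨p', hp', q', hpq'⟩ := reduce_pair hf.per (hF.jt (yn n) (mem_univ _)).per
      (p := coord τ z) (q := coord (T (yn n)) w') hzw
    have hmem : ((s + 1 / ((n : ℝ) + 1), p', q') : ℝ × P2 × P2) ∈ K :=
      ⟨by positivity, hp', hpq'⟩
    have h6 := hmax hmem
    simp only [mem_setOf_eq] at h6
    have h7 : (0 : ℝ) < 1 / ((n : ℝ) + 1) := by positivity
    linarith

theorem EQ (hPB : PB_statement) (hL1 : L1_statement) (hL2 : L2_statement)
    (hS : SURJ_statement) : EQ_statement := by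
  intro D F T hF hinj k l y
  have h1 := mem_family hPB hL1 hL2 hF hinj (hS D F T hF hinj).1
    (JT_tr (hF.jt y (mem_univ _)) k l) (Cen_tr (hF.cen y (mem_univ _)) k l)
  rw [flux_tr D (hF.jt y (mem_univ _)).smooth (hF.jt y (mem_univ _)).per,
    hF.flux_eq y (mem_univ _)] at h1
  have h2 : Lk D ((k : ℝ) • e 0 + (l : ℝ) • e 1) = Lk D (vv k l) := rfl
  rw [h2, ← h1]
  rfl

end Vale.Agent.P247.H743
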