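import Vale.Agent.P247.H720.H.All

/-!
# P247: the operators `∂ₛ Δ⁻¹`, `∂ₜ Δ⁻¹` on the weighted Wiener algebras
-/

open scoped ContDiff Topology
open Set MeasureTheory Filter Metric

noncomputable section

namespace Vale.Agent.P247.H743

open Vale.Agent.P247.H74 Vale.Agent.P247.H720

/-- the symbol of `∂ Δ⁻¹` in the direction `z` -/
def mg (z : ℤ × ℤ → ℤ) (n : ℤ × ℤ) : ℂ :=
  -(Complex.I * z n) / (2 * Real.pi * ((n.1 : ℂ) ^ 2 + (n.2 : ℂ) ^ 2))

theorem sq_pos_of_ne {n : ℤ × ℤ} (h : n ≠ 0) : (1 : ℝ) ≤ (n.1 : ℝ) ^ 2 + (n.2 : ℝ) ^ 2 := by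
  have h1 : (1 : ℤ) ≤ n.1 ^ 2 + n.2 ^ 2 := by
    by_contra hc
    push Not at hc
    have h2 : n.1 ^ 2 + n.2 ^ 2 = 0 := le_antisymm (by omega) (by positivity)
    have h3 : n.1 = 0 := by nlinarith [sq_nonneg n.1, sq_nonneg n.2]
    have h4 : n.2 = 0 := by nlinarith [sq_nonneg n.1, sq_nonneg n.2]
    exact h (Prod.ext h3 h4)
  exact_mod_cast h1

theorem mg_zero (z : ℤ × ℤ → ℤ) : mg z 0 = 0 := by
  unfold mg
  simp

theorem mg_bound (z : ℤ × ℤ → ℤ) (hz : ∀ n, |(z n : ℝ)| ≤ |(n.1 : ℝ)| + |(n.2 : ℝ)|) (m : ℕ)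
    (n : ℤ × ℤ) : wt n ^ (m + 1) * ‖mg z n‖ ≤ 4 * wt n ^ m := by
  have hw : 0 ≤ wt n ^ m := wt_pow_nonneg m n
  by_cases h : n = 0
  · subst h
    rw [mg_zero, norm_zero, mul_zero]
    positivity
  have h1 := sq_pos_of_ne h
  set x := |(n.1 : ℝ)| with hx
  set y := |(n.2 : ℝ)| with hy
  have hx0 : 0 ≤ x := abs_nonneg _
  have hy0 : 0 ≤ y := abs_nonneg _
  have hx2 : (n.1 : ℝ) ^ 2 = x ^ 2 := (sq_abs _).symm
  have hy2 : (n.2 : ℝ) ^ 2 = y ^ 2 := (sq_abs _).symm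
  rw [hx2, hy2] at h1
  have hn : ‖mg z n‖ = |(z n : ℝ)| / (2 * Real.pi * (x ^ 2 + y ^ 2)) := by
    unfold mg
    rw [norm_div, norm_neg, norm_mul, Complex.norm_I, one_mul, Complex.norm_intCast]
    congr 1
    rw [← hx2, ← hy2]
    have : (2 * Real.pi * ((n.1 : ℂ) ^ 2 + (n.2 : ℂ) ^ 2) : ℂ) =
        ((2 * Real.pi * ((n.1 : ℝ) ^ 2 + (n.2 : ℝ) ^ 2) : ℝ) : ℂ) := by push_cast; ring
    rw [this, Complex.norm_real, Real.norm_eq_abs, abs_of_nonneg (by positivity)]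
  have hwt : wt n = 1 + x + y := rfl
  have key : wt n * ‖mg z n‖ ≤ 4 := by
    rw [hn, hwt]
    have hpi : 1 ≤ 2 * Real.pi := by linarith [Real.pi_gt_three]
    have hd : 0 < 2 * Real.pi * (x ^ 2 + y ^ 2) := by positivity
    rw [mul_div_assoc', div_le_iff₀ hd]
    have h2 := hz n
    have h3 : (1 + x + y) * |(z n : ℝ)| ≤ (1 + x + y) * (x + y) :=
      mul_le_mul_of_nonneg_left h2 (by positivity)
    have h4 : (1 + x + y) * (x + y) ≤ 4 * (x ^ 2 + y ^ 2) := by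
      nlinarith [sq_nonneg (x - y), sq_nonneg (x - 1), sq_nonneg (y - 1), sq_nonneg (x + y - 1)]
    have h5 : 4 * (x ^ 2 + y ^ 2) ≤ 4 * (2 * Real.pi * (x ^ 2 + y ^ 2)) := by
      have : 1 * (x ^ 2 + y ^ 2) ≤ 2 * Real.pi * (x ^ 2 + y ^ 2) :=
        mul_le_mul_of_nonneg_right hpi (by positivity)
      linarith
    linarith
  calc wt n ^ (m + 1) * ‖mg z n‖ = (wt n * ‖mg z n‖) * wt n ^ m := by ring
    _ ≤ 4 * wt n ^ m := mul_le_mul_of_nonneg_right key hw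

theorem mg_conj (z : ℤ × ℤ → ℤ) (hz : ∀ n, z (-n) = - z n) (n : ℤ × ℤ) :
    mg z (-n) = (starRingEnd ℂ) (mg z n) := by
  unfold mg
  simp only [map_div₀, map_neg, map_mul, Complex.conj_I, map_add, map_pow, map_intCast,
    Complex.conj_ofReal, map_ofNat, hz, Prod.fst_neg, Prod.snd_neg, Int.cast_neg]
  ring

/-- `∂ₛ Δ⁻¹` -/
def G1 (m : ℕ) : WR m →L[ℝ] WR (m + 1) :=
  mulW m (m + 1) (mg Prod.fst) 4 (mg_bound Prod.fst (fun n => by
    linarith [abs_nonneg (n.2 : ℝ)]) m) (mg_conj Prod.fst fun n => rfl)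

/-- `∂ₜ Δ⁻¹` -/
def G2 (m : ℕ) : WR m →L[ℝ] WR (m + 1) :=
  mulW m (m + 1) (mg Prod.snd) 4 (mg_bound Prod.snd (fun n => by
    linarith [abs_nonneg (n.1 : ℝ)]) m) (mg_conj Prod.snd fun n => rfl)

/-- the projection to the constants -/
def P0 (m : ℕ) : WR m →L[ℝ] WR m :=
  mulW m m (fun n => if n = 0 then 1 else 0) 1 (fun n => by
    have hw : 0 ≤ wt n ^ m := wt_pow_nonneg m n
    split_ifs <;> simp [hw]) (fun n => by
    by_cases h : n = 0
    · subst h; simp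
    · have : -n ≠ 0 := neg_ne_zero.2 h
      simp [h, this])

/-- the constant term -/
def mL (m : ℕ) : WR m →L[ℝ] ℝ := (evL m 0).comp (P0 m)

theorem cf_P0 {m : ℕ} (a : WR m) (n : ℤ × ℤ) : cf (P0 m a) n = if n = 0 then cf a n else 0 := by
  unfold P0
  rw [cf_mulW]
  split_ifs <;> simp

theorem ev_P0_eq {m : ℕ} (a : WR m) (p : P2) : ev (P0 m a) p = (cf a 0).re := by
  rw [ev_eq]
  unfold ser
  rw [tsum_eq_single 0]
  · rw [cf_P0, if_pos rfl, ch_zero, mul_one]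
  · intro n hn
    rw [cf_P0, if_neg hn, zero_mul]

theorem ev_P0 {m : ℕ} (a : WR m) (p : P2) : ev (P0 m a) p = mL m a := by
  show _ = ev (P0 m a) 0
  rw [ev_P0_eq, ev_P0_eq]

theorem identity_div {m : ℕ} (h : WR m) :
    SW m (G1 m h) + TW' m (G2 m h) = h - P0 m h := by
  refine ext_cf fun n => ?_
  rw [cf_add, cf_SW, cf_TW, cf_sub, cf_P0]
  unfold dsc dtc G1 G2
  rw [cf_mulW, cf_mulW]
  by_cases hn : n = 0
  · subst hn
    rw [mg_zero, mg_zero, if_pos rfl]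
    simp
  · rw [if_neg hn, sub_zero]
    have h1 := sq_pos_of_ne hn
    have h2 : ((n.1 : ℂ) ^ 2 + (n.2 : ℂ) ^ 2) ≠ 0 := by
      have : ((n.1 : ℂ) ^ 2 + (n.2 : ℂ) ^ 2) = (((n.1 : ℝ) ^ 2 + (n.2 : ℝ) ^ 2 : ℝ) : ℂ) := by
        push_cast; ring
      rw [this]
      exact_mod_cast (by linarith : (n.1 : ℝ) ^ 2 + (n.2 : ℝ) ^ 2 ≠ 0)
    have hpi : (Real.pi : ℂ) ≠ 0 := by exact_mod_cast Real.pi_ne_zero
    unfold mg
    field_simp
    ring_nf
    rw [Complex.I_sq]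
    ring

theorem identity_curl {m : ℕ} (h : WR m) : TW' m (G1 m h) = SW m (G2 m h) := by
  refine ext_cf fun n => ?_
  rw [cf_SW, cf_TW]
  unfold dsc dtc G1 G2
  rw [cf_mulW, cf_mulW]
  unfold mg
  ring

/-! ## A smooth periodic function which is the identity near `0` -/

/-- the cut off identity -/
def qf (t : ℝ) : ℝ :=
  Real.smoothTransition (4 * Real.cos (2 * Real.pi * t) - 1) * Real.arcsin (Real.sin (2 * Real.pi * t))
    / (2 * Real.pi)

theorem contDiff_qf : ContDiff ℝ ∞ qf := by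
  rw [contDiff_iff_contDiffAt]
  intro t
  have hs : ContDiff ℝ ∞ fun t : ℝ => Real.sin (2 * Real.pi * t) := by fun_prop
  have hc : ContDiff ℝ ∞ fun t : ℝ => Real.cos (2 * Real.pi * t) := by fun_prop
  by_cases h : Real.cos (2 * Real.pi * t) < 1 / 4
  · have h1 : ∀ᶠ x in 𝓝 t, Real.cos (2 * Real.pi * x) < 1 / 4 :=
      hc.continuous.continuousAt.eventually_lt continuousAt_const h
    refine (contDiffAt_const (c := (0 : ℝ))).congr_of_eventuallyEq ?_
    filter_upwards [h1] with x hx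
    unfold qf
    rw [Real.smoothTransition.zero_of_nonpos (by linarith), zero_mul, zero_div]
  · push Not at h
    have hne : Real.sin (2 * Real.pi * t) ^ 2 + Real.cos (2 * Real.pi * t) ^ 2 = 1 :=
      Real.sin_sq_add_cos_sq _
    have h1 : Real.sin (2 * Real.pi * t) ≠ 1 := by
      intro h2
      rw [h2] at hne
      nlinarith
    have h2 : Real.sin (2 * Real.pi * t) ≠ -1 := by
      intro h2
      rw [h2] at hne
      nlinarith
    unfold qf
    refine ContDiffAt.div_const (ContDiffAt.mul ?_ ?_) _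
    · have h3 : ContDiff ℝ ∞ Real.smoothTransition := Real.smoothTransition.contDiff
      exact (h3.comp ((contDiff_const.mul hc).sub contDiff_const)).contDiffAt
    · exact ContDiffAt.comp (g := Real.arcsin) t (Real.contDiffAt_arcsin h2 h1) hs.contDiffAt

theorem qf_per (t : ℝ) (m : ℤ) : qf (t + m) = qf t := by
  have h : 2 * Real.pi * (t + m) = 2 * Real.pi * t + m * (2 * Real.pi) := by ring
  unfold qf
  rw [h, Real.cos_add_int_mul_two_pi, Real.sin_add_int_mul_two_pi]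

theorem qf_eq {t : ℝ} (h : |t| ≤ 1 / 6) : qf t = t := by
  have hpi := Real.pi_pos
  rw [abs_le] at h
  have h1 : 2 * Real.pi * t ≤ Real.pi / 3 := by nlinarith
  have h2 : -(Real.pi / 3) ≤ 2 * Real.pi * t := by nlinarith
  have h3 : 1 / 2 ≤ Real.cos (2 * Real.pi * t) := by
    rw [← Real.cos_pi_div_three, ← Real.cos_abs (2 * Real.pi * t)]
    refine Real.cos_le_cos_of_nonneg_of_le_pi (abs_nonneg _) (by linarith) ?_
    rw [abs_le]
    exact ⟨h2, h1⟩
  unfold qf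
  rw [Real.smoothTransition.one_of_one_le (by linarith), one_mul,
    Real.arcsin_sin (by linarith) (by linarith)]
  field_simp

/-- elements of `WR m` which are the coordinates near the origin -/
theorem exists_coords (m : ℕ) : ∃ X Y : WR m, (∀ p : P2, |p.1| ≤ 1 / 6 → ev X p = p.1) ∧
    ∀ p : P2, |p.2| ≤ 1 / 6 → ev Y p = p.2 := by
  obtain ⟨X, hX⟩ := H1 m (fun p : P2 => qf p.1) (contDiff_qf.comp contDiff_fst)
    (fun a b p => qf_per p.1 a)
  obtain ⟨Y, hY⟩ := H1 m (fun p : P2 => qf p.2) (contDiff_qf.comp contDiff_snd)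
    (fun a b p => qf_per p.2 b)
  refine ⟨X, Y, fun p hp => ?_, fun p hp => ?_⟩
  · rw [hX]
    exact qf_eq hp
  · rw [hY]
    exact qf_eq hp

end Vale.Agent.P247.H743
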