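import Mathlib

/-!
# A fixed point theorem with parameters near a compact set
-/

open scoped ContDiff Topology NNReal
open Set Filter Metric

noncomputable section

namespace Vale.Agent.P247.H743

theorem ufp {P E : Type*} [NormedAddCommGroup P] [NormedSpace ℝ P] [CompleteSpace P]
    [NormedAddCommGroup E] [NormedSpace ℝ E] [CompleteSpace E] (N : P × E → E)
    (hN : ContDiff ℝ ∞ N) (K : Set P) (hK : IsCompact K) (h0 : ∀ q ∈ K, ∀ h, N (q, h) = 0) :
    ∃ U : Set P, IsOpen U ∧ K ⊆ U ∧ ∃ ψ : P → E, ∃ η > 0,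
      ContDiffOn ℝ ∞ ψ U ∧ (∀ q ∈ U, ψ q = N (q, ψ q)) ∧ (∀ q ∈ U, ‖ψ q‖ < η) ∧
      ∀ q ∈ U, ∀ h, ‖h‖ < η → h = N (q, h) → h = ψ q := by
  set A : P × E → E →L[ℝ] E := fun w => (fderiv ℝ N w).comp (ContinuousLinearMap.inr ℝ P E)
    with hA
  have hAc : Continuous A :=
    (hN.continuous_fderiv (by simp)).clm_comp continuous_const
  have hder : ∀ q h, HasFDerivAt (fun h => N (q, h)) (A (q, h)) h := by
    intro q h
    have h1 : HasFDerivAt N (fderiv ℝ N (q, h)) (q, h) :=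
      (hN.differentiable (by simp) _).hasFDerivAt
    exact h1.comp h (hasFDerivAt_prodMk_right q h)
  have hA0 : ∀ q ∈ K, A (q, 0) = 0 := by
    intro q hq
    have h1 : (fun h : E => N (q, h)) = fun _ => 0 := funext fun h => h0 q hq h
    have h2 := hder q 0
    rw [h1] at h2
    exact h2.unique (hasFDerivAt_const 0 0)
  have hO : IsOpen {w : P × E | ‖A w‖ < 1 / 2} := isOpen_lt hAc.norm continuous_const
  obtain ⟨U₁, V, hU₁, hV, hKU₁, h0V, hUV⟩ := generalized_tube_lemma hK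
    (isCompact_singleton (x := (0 : E))) hO (by
      rintro ⟨q, h⟩ ⟨hq, hh⟩
      rw [mem_singleton_iff] at hh
      simp only at hh hq
      subst hh
      show ‖A (q, 0)‖ < 1 / 2
      rw [hA0 q hq, norm_zero]
      norm_num)
  obtain ⟨η, hη, hηV⟩ := Metric.isOpen_iff.1 hV 0 (h0V rfl)
  set U₂ : Set P := {q | ‖N (q, 0)‖ < η / 8} with hU₂
  have hU₂o : IsOpen U₂ := by
    have : Continuous fun q : P => N (q, 0) :=
      hN.continuous.comp (continuous_id.prodMk continuous_const)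
    exact isOpen_lt this.norm continuous_const
  have hlip : ∀ q ∈ U₁, ∀ h ∈ ball (0 : E) η, ∀ h' ∈ ball (0 : E) η,
      ‖N (q, h) - N (q, h')‖ ≤ 1 / 2 * ‖h - h'‖ := by
    intro q hq h hh h' hh'
    refine (convex_ball (0 : E) η).norm_image_sub_le_of_norm_hasFDerivWithin_le
      (f := fun h => N (q, h)) (f' := fun h => A (q, h))
      (fun x _ => (hder q x).hasFDerivWithinAt) (fun x hx => ?_) hh' hh
    exact (hUV ⟨hq, hηV hx⟩ : ‖A (q, x)‖ < 1 / 2).le
  -- existence
  have hex : ∀ q ∈ U₁ ∩ U₂, ∃ h, ‖h‖ ≤ η / 2 ∧ h = N (q, h) := by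
    rintro q ⟨hq₁, hq₂⟩
    have hsub : closedBall (0 : E) (η / 2) ⊆ ball 0 η := closedBall_subset_ball (by linarith)
    have hmaps : MapsTo (fun h => N (q, h)) (closedBall (0 : E) (η / 2)) (closedBall 0 (η / 2)) := by
      intro h hh
      have h1 := hlip q hq₁ h (hsub hh) 0 (mem_ball_self hη)
      rw [mem_closedBall_zero_iff] at hh ⊢
      have h2 : ‖N (q, h)‖ ≤ ‖N (q, h) - N (q, 0)‖ + ‖N (q, 0)‖ := by
        simpa using norm_add_le (N (q, h) - N (q, 0)) (N (q, 0))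
      have h3 : ‖N (q, 0)‖ < η / 8 := hq₂
      rw [sub_zero] at h1
      linarith
    have hcon : ContractingWith (1 / 2 : ℝ≥0) (hmaps.restrict _ _ _) := by
      refine ⟨?_, LipschitzWith.of_dist_le_mul fun x y => ?_⟩
      · rw [← NNReal.coe_lt_coe]
        norm_num
      · rw [Subtype.dist_eq, Subtype.dist_eq, dist_eq_norm, dist_eq_norm]
        have h2 := hlip q hq₁ x (hsub x.2) y (hsub y.2)
        simpa using h2
    obtain ⟨h, hh, hfix, -⟩ := hcon.exists_fixedPoint' isClosed_closedBall.isComplete hmaps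
      (x := 0) (mem_closedBall_self (by linarith)) (edist_ne_top _ _)
    exact ⟨h, mem_closedBall_zero_iff.1 hh, hfix.symm⟩
  classical
  choose! ψ hψn hψ using hex
  have huniq : ∀ q ∈ U₁ ∩ U₂, ∀ h, ‖h‖ < η → h = N (q, h) → h = ψ q := by
    intro q hq h hh heq
    have h1 := hlip q hq.1 h (mem_ball_zero_iff.2 hh) (ψ q)
      (mem_ball_zero_iff.2 (lt_of_le_of_lt (hψn q hq) (by linarith)))
    rw [← heq, ← hψ q hq] at h1
    have h2 : ‖h - ψ q‖ = 0 := by
      have := norm_nonneg (h - ψ q)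
      linarith
    exact sub_eq_zero.1 (norm_eq_zero.1 h2)
  refine ⟨U₁ ∩ U₂, hU₁.inter hU₂o, fun q hq => ⟨hKU₁ hq, ?_⟩, ψ, η, hη, ?_, hψ,
    fun q hq => lt_of_le_of_lt (hψn q hq) (by linarith), huniq⟩
  · show ‖N (q, 0)‖ < η / 8
    rw [h0 q hq 0, norm_zero]
    positivity
  -- smoothness
  intro q hq
  refine ContDiffAt.contDiffWithinAt ?_
  set f : P × E → E := fun w => w.2 - N w with hf
  have hfs : ContDiff ℝ ∞ f := contDiff_snd.sub hN
  have hcd : ContDiffAt ℝ ∞ f (q, ψ q) := hfs.contDiffAt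
  have hAn : ‖A (q, ψ q)‖ < 1 := by
    have h1 : ‖A (q, ψ q)‖ < 1 / 2 := hUV ⟨hq.1, hηV (mem_ball_zero_iff.2
      (lt_of_le_of_lt (hψn q hq) (by linarith)))⟩
    linarith
  have hinv : (fderiv ℝ f (q, ψ q) ∘L ContinuousLinearMap.inr ℝ P E).IsInvertible := by
    have h1 : fderiv ℝ f (q, ψ q) ∘L ContinuousLinearMap.inr ℝ P E =
        ContinuousLinearMap.id ℝ E - A (q, ψ q) := by
      have h2 : HasFDerivAt f (ContinuousLinearMap.snd ℝ P E - fderiv ℝ N (q, ψ q)) (q, ψ q) :=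
        (ContinuousLinearMap.snd ℝ P E).hasFDerivAt.sub
          (hN.differentiable (by simp) _).hasFDerivAt
      rw [h2.fderiv]
      ext v
      simp [hA]
    rw [h1]
    have h3 : IsUnit (1 - A (q, ψ q)) := by
      have := (Units.oneSub (A (q, ψ q)) hAn).isUnit
      simpa using this
    obtain ⟨u, hu⟩ := h3
    refine ⟨ContinuousLinearEquiv.unitsEquiv ℝ E u, ?_⟩
    ext v
    have : (ContinuousLinearEquiv.unitsEquiv ℝ E u) v = (u : E →L[ℝ] E) v := rfl
    rw [ContinuousLinearEquiv.coe_coe, this, hu]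
    rfl
  have h2 := hcd.contDiffAt_implicitFunction (by simp) hinv
  refine h2.congr_of_eventuallyEq ?_
  have h3 := hcd.eventually_apply_implicitFunction (by simp) hinv
  have h4 : ∀ᶠ x in 𝓝 q, ‖hcd.implicitFunction (by simp) hinv x‖ < η := by
    have h5 := h2.continuousAt.norm
    refine h5.eventually_lt continuousAt_const ?_
    rw [hcd.implicitFunction_apply_self (by simp) hinv]
    exact lt_of_le_of_lt (hψn q hq) (by linarith)
  filter_upwards [h3, h4, (hU₁.inter hU₂o).mem_nhds hq] with x hx3 hx4 hx5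
  refine (huniq x hx5 _ hx4 ?_).symm
  have h6 : f (q, ψ q) = 0 := sub_eq_zero.2 (hψ q hq)
  rw [h6] at hx3
  exact sub_eq_zero.1 hx3

end Vale.Agent.P247.H743
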