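import Vale.Agent.P247.H743.Disc2
import Vale.Agent.P247.H743.Ufp

/-!
# P247: the equation of the discs with a translation parameter
-/

open scoped ContDiff Topology
open Set MeasureTheory Filter Metric

noncomputable section

namespace Vale.Agent.P247.H743

open Vale.Agent.P247.H74 Vale.Agent.P247.H720

/-! ## Translations -/

/-- translation -/
def trW (m : ℕ) (τ : P2) : WR m →L[ℝ] WR m :=
  mulW m m (fun n => ch n τ) 1 (fun n => by rw [norm_ch, mul_one, one_mul]) (fun n => ch_neg n τ)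

theorem cf_trW {m : ℕ} (τ : P2) (a : WR m) (n : ℤ × ℤ) : cf (trW m τ a) n = ch n τ * cf a n :=
  cf_mulW _ _ a n

theorem ch_padd (n : ℤ × ℤ) (p τ : P2) : ch n (p + τ) = ch n p * ch n τ := by
  rw [ch_eq, ch_eq, ch_eq, map_add, Complex.exp_add]

theorem ev_trW {m : ℕ} (τ : P2) (a : WR m) (p : P2) : ev (trW m τ a) p = ev a (p + τ) := by
  rw [ev_eq, ev_eq]
  unfold ser
  congr 1
  refine tsum_congr fun n => ?_
  rw [cf_trW, ch_padd]
  ring

theorem norm_trW {m : ℕ} (τ : P2) (a : WR m) : ‖trW m τ a‖ ≤ ‖a‖ := by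
  have := norm_mulW_apply_le (m := m) (m' := m) (μ := fun n => ch n τ) (C := 1)
    (fun n => by rw [norm_ch, mul_one, one_mul]) (fun n => ch_neg n τ) a
  rw [one_mul] at this
  exact this

theorem mL_trW {m : ℕ} (τ : P2) (a : WR m) : mL m (trW m τ a) = mL m a := by
  have h1 : ∀ a : WR m, mL m a = (cf a 0).re := fun a => ev_P0_eq a 0
  rw [h1, h1, cf_trW, ch_zero, one_mul]

theorem mulW_trW {m m' : ℕ} {A : WR m →L[ℝ] WR m'} (μ : ℤ × ℤ → ℂ)
    (hA : ∀ a n, cf (A a) n = μ n * cf a n) (τ : P2) (a : WR m) :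
    A (trW m τ a) = trW m' τ (A a) := by
  refine ext_cf fun n => ?_
  rw [hA, cf_trW, cf_trW, hA]
  ring

theorem G1_trW {m : ℕ} (τ : P2) (a : WR m) : G1 m (trW m τ a) = trW (m + 1) τ (G1 m a) :=
  mulW_trW (A := G1 m) (mg Prod.fst) (fun a n => by unfold G1; exact cf_mulW _ _ a n) τ a

theorem G2_trW {m : ℕ} (τ : P2) (a : WR m) : G2 m (trW m τ a) = trW (m + 1) τ (G2 m a) :=
  mulW_trW (A := G2 m) (mg Prod.snd) (fun a n => by unfold G2; exact cf_mulW _ _ a n) τ a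

theorem TW'_trW {m : ℕ} (τ : P2) (a : WR (m + 1)) :
    TW' m (trW (m + 1) τ a) = trW m τ (TW' m a) :=
  mulW_trW (A := TW' m) (fun n => 2 * Real.pi * Complex.I * n.2)
    (fun a n => by rw [cf_TW]; rfl) τ a

theorem incl_trW0 {m : ℕ} (τ : P2) (a : WR (m + 1)) :
    incl (m + 1) m (Nat.le_succ m) (trW (m + 1) τ a) =
      trW m τ (incl (m + 1) m (Nat.le_succ m) a) :=
  mulW_trW (A := incl (m + 1) m (Nat.le_succ m)) (fun _ => 1)
    (fun a n => by unfold incl; exact cf_mulW _ _ a n) τ a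

theorem Gv_trW {m : ℕ} (J₀ : R4 →L[ℝ] R4) (τ : P2) (h : HH m) :
    Gv J₀ m (cw (trW m τ) h) = cw (trW (m + 1) τ) (Gv J₀ m h) := by
  unfold Gv
  rw [_root_.sub_apply, _root_.sub_apply, map_sub, ContinuousLinearMap.comp_apply,
    ContinuousLinearMap.comp_apply, ew_cw_matv]
  congr 1
  · funext i
    exact G1_trW τ (h i)
  · congr 1
    funext i
    exact G2_trW τ (h i)

theorem ew_trW {m : ℕ} (τ : P2) (h : HH m) (p : P2) : ew (cw (trW m τ) h) p = ew h (p + τ) := by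
  funext i
  exact ev_trW τ (h i) p

theorem TW_trW {m : ℕ} (τ : P2) (h : HH (m + 1)) :
    cw (TW' m) (cw (trW (m + 1) τ) h) = cw (trW m τ) (cw (TW' m) h) := by
  funext i
  exact TW'_trW τ (h i)

theorem incl_trW {m : ℕ} (τ : P2) (h : HH (m + 1)) :
    cw (incl (m + 1) m (Nat.le_succ m)) (cw (trW (m + 1) τ) h) =
      cw (trW m τ) (cw (incl (m + 1) m (Nat.le_succ m)) h) := by
  funext i
  exact incl_trW0 τ (h i)

theorem ew_incl {m : ℕ} (h : HH (m + 1)) (p : P2) :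
    ew (cw (incl (m + 1) m (Nat.le_succ m)) h) p = ew h p := by
  funext i
  exact ev_incl (Nat.le_succ m) _ p

theorem cf4_trW {m : ℕ} (τ : P2) (h : HH m) : cf4 (mL m) (cw (trW m τ) h) = cf4 (mL m) h := by
  funext i
  exact mL_trW τ (h i)

theorem norm_cw_trW {m : ℕ} (τ : P2) (h : HH m) : ‖cw (trW m τ) h‖ ≤ ‖h‖ := by
  refine (pi_norm_le_iff_of_nonneg (norm_nonneg h)).2 fun i => ?_
  exact (norm_trW τ (h i)).trans (norm_le_pi_norm h i)

/-! ## Smoothness of the building blocks -/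

section

variable {E : Type*} [NormedAddCommGroup E] [NormedSpace ℝ E]

theorem cd_ent {L : E → R4 →L[ℝ] R4} (hL : ContDiff ℝ ∞ L) (i j : Fin 4) :
    ContDiff ℝ ∞ fun q => ent (L q) i j := by
  unfold ent
  have h1 : ContDiff ℝ ∞ fun q => L q (e j) := hL.clm_apply contDiff_const
  exact contDiff_pi.1 h1 i

theorem cd_matv {m : ℕ} {L : E → R4 →L[ℝ] R4} {f : E → HH m} (hL : ContDiff ℝ ∞ L)
    (hf : ContDiff ℝ ∞ f) : ContDiff ℝ ∞ fun q => matv m (L q) (f q) := by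
  refine contDiff_pi.2 fun i => ?_
  have h1 : (fun q => matv m (L q) (f q) i) = fun q => ∑ j, ent (L q) i j • f q j := by
    funext q
    unfold matv
    rw [ContinuousLinearMap.coe_pi']
    simp only
    rw [_root_.sum_apply]
    rfl
  rw [h1]
  exact ContDiff.sum fun j _ => (cd_ent hL i j).smul (contDiff_pi.1 hf j)

theorem cd_Gv {m : ℕ} {L : E → R4 →L[ℝ] R4} {f : E → HH m} (hL : ContDiff ℝ ∞ L)
    (hf : ContDiff ℝ ∞ f) : ContDiff ℝ ∞ fun q => Gv (L q) m (f q) := by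
  have h1 : (fun q => Gv (L q) m (f q)) =
      fun q => cw (G1 m) (f q) - matv (m + 1) (L q) (cw (G2 m) (f q)) := rfl
  rw [h1]
  exact ((cw (G1 m)).contDiff.comp hf).sub (cd_matv hL ((cw (G2 m)).contDiff.comp hf))

theorem cd_be {m : ℕ} {L : E → R4 →L[ℝ] R4} {f : E → HH m} (hL : ContDiff ℝ ∞ L)
    (hf : ContDiff ℝ ∞ f) : ContDiff ℝ ∞ fun q => be (L q) m (f q) := by
  have h1 : (fun q => be (L q) m (f q)) =
      fun q => cf4 (mL m) (f q) + cf4 (evL m 0) (cw (SW m) (Gv (L q) m (f q))) := rfl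
  rw [h1]
  exact ((cf4 (mL m)).contDiff.comp hf).add
    ((cf4 (evL m 0)).contDiff.comp ((cw (SW m)).contDiff.comp (cd_Gv hL hf)))

theorem cd_ew {m : ℕ} {f : E → HH m} (hf : ContDiff ℝ ∞ f) (p : P2) :
    ContDiff ℝ ∞ fun q => ew (f q) p :=
  (cf4 (evL m p)).contDiff.comp hf

theorem cd_sv {m : ℕ} {X : E → WR m} {b : E → R4} (hX : ContDiff ℝ ∞ X) (hb : ContDiff ℝ ∞ b) :
    ContDiff ℝ ∞ fun q => sv (X q) (b q) := by
  refine contDiff_pi.2 fun i => ?_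
  have h1 : (fun q => sv (X q) (b q) i) = fun q => b q i • X q := rfl
  rw [h1]
  exact (contDiff_pi.1 hb i).smul hX

end

/-! ## The nonlinear map -/

section

variable (J : R4 → R4 →L[ℝ] R4) (m : ℕ)

/-- the unknown map minus `x₀`, divided by `r` -/
def uarg (J₀ : R4 →L[ℝ] R4) (w b : R4) (X Y : WR m) (h : HH m) : HH m :=
  cv m w + sv X b + sv Y (J₀ b) + sv X (cf4 (mL m) h) +
    cw (incl (m + 1) m (Nat.le_succ m)) (Gv J₀ m h)

/-- its `t` derivative -/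
def varg (J₀ : R4 →L[ℝ] R4) (b : R4) (h : HH m) : HH m := cv m (J₀ b) + cw (TW' m) (Gv J₀ m h)

/-- the right-hand side -/
def NN (r : ℝ) (x w b : R4) (X Y : WR (m + 2)) (h : HH (m + 2)) : HH (m + 2) := fun i =>
  -∑ j, prL (m + 2) (nem (0 : P2 →L[ℝ] (Fin 4 → ℝ)) (m + 2) (fun y => ent (J y) i j)
      (cv (m + 2) x + r • uarg (m + 2) (J x) w b X Y h) - cst (m + 2) (ent (J x) i j))
    (varg (m + 2) (J x) b h j)

theorem ew_uarg {m : ℕ} (J₀ : R4 →L[ℝ] R4) (w b : R4) (X Y : WR m) (h : HH m) (p : P2) :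
    ew (uarg m J₀ w b X Y h) p = w + ev X p • b + ev Y p • J₀ b + ev X p • cf4 (mL m) h +
      ew (Gv J₀ m h) p := by
  unfold uarg
  rw [ew_add, ew_add, ew_add, ew_add, ew_sv, ew_sv, ew_sv, ew_cv, ew_incl]

theorem ew_varg {m : ℕ} (J₀ : R4 →L[ℝ] R4) (b : R4) (h : HH m) (p : P2) :
    ew (varg m J₀ b h) p = J₀ b + ew (cw (TW' m) (Gv J₀ m h)) p := by
  unfold varg
  rw [ew_add, ew_cv]

variable {J}

theorem ew_NN (hJ : ContDiff ℝ ∞ J) (r : ℝ) (x w b : R4) (X Y : WR (m + 2)) (h : HH (m + 2))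
    (p : P2) : ew (NN J m r x w b X Y h) p =
      -((J (x + r • ew (uarg (m + 2) (J x) w b X Y h) p) - J x)
        (ew (varg (m + 2) (J x) b h) p)) := by
  funext i
  show ev (NN J m r x w b X Y h i) p = _
  unfold NN
  rw [Pi.neg_apply, clm_apply_eq]
  have h0 : ∀ a : WR (m + 2), ev (-a) p = - ev a p := fun a => by
    have := ev_smul (-1) a p
    simpa using this
  rw [h0, ev_sum']
  congr 1
  refine Finset.sum_congr rfl fun j _ => ?_
  rw [prL_apply, ev_pr, ev_sub, ev_cst, nem_spec _ m (contDiff_ent hJ i j) (perL_zero _)]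
  have h2 : ew (cv (m + 2) x + r • uarg (m + 2) (J x) w b X Y h) p =
      x + r • ew (uarg (m + 2) (J x) w b X Y h) p := by
    rw [ew_add, ew_smul, ew_cv]
  have h1 : sup (0 : P2 →L[ℝ] (Fin 4 → ℝ)) (fun y => ent (J y) i j)
      (cv (m + 2) x + r • uarg (m + 2) (J x) w b X Y h) p =
      ent (J (x + r • ew (uarg (m + 2) (J x) w b X Y h) p)) i j := by
    rw [← h2]
    unfold sup arg
    have : (0 : P2 →L[ℝ] (Fin 4 → ℝ)) p +
        (fun i => ev ((cv (m + 2) x + r • uarg (m + 2) (J x) w b X Y h) i) p) =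
        ew (cv (m + 2) x + r • uarg (m + 2) (J x) w b X Y h) p := by
      rw [_root_.zero_apply, zero_add]
      rfl
    rw [this]
  rw [h1]
  rfl

theorem NN_zero (hJ : ContDiff ℝ ∞ J) (x w b : R4) (X Y : WR (m + 2)) (h : HH (m + 2)) :
    NN J m 0 x w b X Y h = 0 := by
  refine ew_inj fun p => ?_
  rw [ew_NN m hJ, zero_smul, add_zero, sub_self, _root_.zero_apply, neg_zero]
  funext i
  exact (ev_zero p).symm

/-- equivariance -/
theorem NN_trW (hJ : ContDiff ℝ ∞ J) (r : ℝ) (x w b : R4) {X Y X' Y' : WR (m + 2)} (τ : P2)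
    (hX : ∀ p, ev X' p = ev X (p + τ)) (hY : ∀ p, ev Y' p = ev Y (p + τ)) (h : HH (m + 2)) :
    NN J m r x w b X' Y' (cw (trW (m + 2) τ) h) = cw (trW (m + 2) τ) (NN J m r x w b X Y h) := by
  refine ew_inj fun p => ?_
  rw [ew_NN m hJ, ew_trW, ew_NN m hJ, ew_uarg, ew_uarg, ew_varg, ew_varg, hX, hY, cf4_trW, Gv_trW,
    TW_trW, ew_trW, ew_trW]

variable {E : Type*} [NormedAddCommGroup E] [NormedSpace ℝ E]

theorem cd_uarg {m : ℕ} {L : E → R4 →L[ℝ] R4} {w b : E → R4} {X Y : E → WR m} {h : E → HH m}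
    (hL : ContDiff ℝ ∞ L) (hw : ContDiff ℝ ∞ w) (hb : ContDiff ℝ ∞ b) (hX : ContDiff ℝ ∞ X)
    (hY : ContDiff ℝ ∞ Y) (hh : ContDiff ℝ ∞ h) :
    ContDiff ℝ ∞ fun q => uarg m (L q) (w q) (b q) (X q) (Y q) (h q) := by
  unfold uarg
  exact (((((cv m).contDiff.comp hw).add (cd_sv hX hb)).add (cd_sv hY (hL.clm_apply hb))).add
    (cd_sv hX ((cf4 (mL m)).contDiff.comp hh))).add
    ((cw (incl (m + 1) m (Nat.le_succ m))).contDiff.comp (cd_Gv hL hh))

theorem cd_varg {m : ℕ} {L : E → R4 →L[ℝ] R4} {b : E → R4} {h : E → HH m}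
    (hL : ContDiff ℝ ∞ L) (hb : ContDiff ℝ ∞ b) (hh : ContDiff ℝ ∞ h) :
    ContDiff ℝ ∞ fun q => varg m (L q) (b q) (h q) := by
  unfold varg
  exact ((cv m).contDiff.comp (hL.clm_apply hb)).add
    ((cw (TW' m)).contDiff.comp (cd_Gv hL hh))

theorem cd_NN (hJ : ContDiff ℝ ∞ J) {r : E → ℝ} {x w b : E → R4} {X Y : E → WR (m + 2)}
    {h : E → HH (m + 2)} (hr : ContDiff ℝ ∞ r) (hx : ContDiff ℝ ∞ x) (hw : ContDiff ℝ ∞ w)
    (hb : ContDiff ℝ ∞ b) (hX : ContDiff ℝ ∞ X) (hY : ContDiff ℝ ∞ Y) (hh : ContDiff ℝ ∞ h) :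
    ContDiff ℝ ∞ fun q => NN J m (r q) (x q) (w q) (b q) (X q) (Y q) (h q) := by
  refine contDiff_pi.2 fun i => ?_
  unfold NN
  refine ContDiff.neg (ContDiff.sum fun j _ => ?_)
  have hL : ContDiff ℝ ∞ fun q => J (x q) := hJ.comp hx
  have h1 : ContDiff ℝ ∞ fun q => cv (m + 2) (x q) +
      r q • uarg (m + 2) (J (x q)) (w q) (b q) (X q) (Y q) (h q) :=
    ((cv (m + 2)).contDiff.comp hx).add (hr.smul (cd_uarg hL hw hb hX hY hh))
  have h4 : ContDiff ℝ ∞ fun q => nem (0 : P2 →L[ℝ] (Fin 4 → ℝ)) (m + 2)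
      (fun y => ent (J y) i j) (cv (m + 2) (x q) +
        r q • uarg (m + 2) (J (x q)) (w q) (b q) (X q) (Y q) (h q)) :=
    (contDiff_nem _ m (contDiff_ent hJ i j) (perL_zero _)).comp h1
  have h5 : ContDiff ℝ ∞ fun q => varg (m + 2) (J (x q)) (b q) (h q) j :=
    contDiff_pi.1 (cd_varg hL hb hh) j
  have h6 : ContDiff ℝ ∞ fun q => cst (m + 2) (ent (J (x q)) i j) :=
    (cstL (m + 2)).contDiff.comp (cd_ent hL i j)
  exact ((prL (m + 2)).contDiff.comp (h4.sub h6)).clm_apply h5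

end

/-! ## The translated coordinates -/

/-- a translate of the cut off coordinate -/
def Xt (m : ℕ) (l : P2 →L[ℝ] ℝ) (τ : P2) : WR m :=
  nem (ContinuousLinearMap.pi fun _ : Fin 1 => l) m (fun y => qf (y 0)) fun _ => cst m (l τ)

theorem perL_Xt {l : P2 →L[ℝ] ℝ} (hl : ∀ a b : ℤ, ∃ k : ℤ, l (a, b) = k) :
    PerL (ContinuousLinearMap.pi fun _ : Fin 1 => l) (fun y : Fin 1 → ℝ => qf (y 0)) := by
  intro a b x
  obtain ⟨k, hk⟩ := hl a b
  simp only [Pi.add_apply, ContinuousLinearMap.coe_pi', hk]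
  exact qf_per _ _

theorem contDiff_qf0 : ContDiff ℝ ∞ fun y : Fin 1 → ℝ => qf (y 0) :=
  contDiff_qf.comp (contDiff_apply ℝ ℝ (0 : Fin 1))

theorem ev_Xt (m : ℕ) {l : P2 →L[ℝ] ℝ} (hl : ∀ a b : ℤ, ∃ k : ℤ, l (a, b) = k) (τ p : P2) :
    ev (Xt (m + 2) l τ) p = qf (l (p + τ)) := by
  unfold Xt
  rw [nem_spec _ m contDiff_qf0 (perL_Xt hl)]
  unfold sup arg
  simp only [Pi.add_apply, ContinuousLinearMap.coe_pi', ev_cst, map_add]

theorem contDiff_Xt (m : ℕ) {l : P2 →L[ℝ] ℝ} (hl : ∀ a b : ℤ, ∃ k : ℤ, l (a, b) = k) :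
    ContDiff ℝ ∞ (Xt (m + 2) l) := by
  unfold Xt
  have h1 : ContDiff ℝ ∞ fun τ : P2 => (fun _ : Fin 1 => cst (m + 2) (l τ)) :=
    contDiff_pi.2 fun _ => (cstL (m + 2)).contDiff.comp l.contDiff
  exact (contDiff_nem _ m contDiff_qf0 (perL_Xt hl)).comp h1

theorem int_fst : ∀ a b : ℤ, ∃ k : ℤ, ContinuousLinearMap.fst ℝ ℝ ℝ ((a : ℝ), (b : ℝ)) = k :=
  fun a _ => ⟨a, rfl⟩

theorem int_snd : ∀ a b : ℤ, ∃ k : ℤ, ContinuousLinearMap.snd ℝ ℝ ℝ ((a : ℝ), (b : ℝ)) = k :=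
  fun _ b => ⟨b, rfl⟩

end Vale.Agent.P247.H743
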