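import Vale.Agent.P247.H743.JDa

/-!
# P247: families of discs, uniformly small parameters
-/

open scoped ContDiff Topology
open Set MeasureTheory Filter Metric

noncomputable section

namespace Vale.Agent.P247.H743

open Vale.Agent.P247.H74 Vale.Agent.P247.H720

/-! ## Partial derivatives -/

section

variable {P W G : Type*} [NormedAddCommGroup P] [NormedSpace ℝ P] [NormedAddCommGroup W]
  [NormedSpace ℝ W] [NormedAddCommGroup G] [NormedSpace ℝ G]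

/-- the partial derivative in the second variable -/
def pdv (F : P × W → G) (q : P × W) : W →L[ℝ] G :=
  (fderiv ℝ F q).comp (ContinuousLinearMap.inr ℝ P W)

theorem contDiffOn_pdv {F : P × W → G} {U : Set (P × W)} (hU : IsOpen U)
    (hF : ContDiffOn ℝ ∞ F U) : ContDiffOn ℝ ∞ (pdv F) U := by
  have h1 : ContDiffOn ℝ ∞ (fderiv ℝ F) U := hF.fderiv_of_isOpen hU (by simp)
  exact h1.clm_comp contDiffOn_const

theorem hasFDerivAt_pdv {F : P × W → G} {U : Set (P × W)} (hU : IsOpen U)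
    (hF : ContDiffOn ℝ ∞ F U) {q : P × W} (hq : q ∈ U) :
    HasFDerivAt (fun t => F (q.1, t)) (pdv F q) q.2 := by
  have h1 : HasFDerivAt F (fderiv ℝ F q) q :=
    ((hF.contDiffAt (hU.mem_nhds hq)).differentiableAt (by simp)).hasFDerivAt
  exact h1.comp q.2 (hasFDerivAt_prodMk_right q.1 q.2)

theorem eventually_mem {U : Set (P × W)} (hU : IsOpen U) {q : P × W} (hq : q ∈ U) :
    ∀ᶠ t in 𝓝 q.2, (q.1, t) ∈ U := by
  have h1 : ContinuousAt (fun t => (q.1, t)) q.2 := by fun_prop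
  exact h1.eventually (hU.mem_nhds hq)

theorem fderiv_pdv {F : P × W → G} {U : Set (P × W)} (hU : IsOpen U)
    (hF : ContDiffOn ℝ ∞ F U) {q : P × W} (hq : q ∈ U) :
    fderiv ℝ (fderiv ℝ fun t => F (q.1, t)) q.2 = pdv (pdv F) q := by
  have h1 : (fderiv ℝ fun t => F (q.1, t)) =ᶠ[𝓝 q.2] fun t => pdv F (q.1, t) := by
    filter_upwards [eventually_mem hU hq] with t ht
    exact (hasFDerivAt_pdv hU hF ht).fderiv
  rw [h1.fderiv_eq]
  exact (hasFDerivAt_pdv hU (contDiffOn_pdv hU hF) hq).fderiv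

theorem pdv_zero {F : P × W → G} {U : Set (P × W)} (hU : IsOpen U)
    (hF : ContDiffOn ℝ ∞ F U) {S : Set P} (h0 : ∀ q ∈ U, q.1 ∈ S → F q = 0) :
    ∀ q ∈ U, q.1 ∈ S → pdv F q = 0 := by
  intro q hq hS
  have h1 : (fun t => F (q.1, t)) =ᶠ[𝓝 q.2] fun _ => 0 := by
    filter_upwards [eventually_mem hU hq] with t ht
    exact h0 _ ht hS
  have h2 := hasFDerivAt_pdv hU hF hq
  have h3 : HasFDerivAt (fun t => F (q.1, t)) (0 : W →L[ℝ] G) q.2 :=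
    (hasFDerivAt_const (0 : G) q.2).congr_of_eventuallyEq h1
  exact h2.unique h3

/-- uniform smallness -/
theorem small_unif {Q : Type*} [NormedAddCommGroup Q] [NormedSpace ℝ Q] {F : (ℝ × Q) × W → G}
    {U : Set ((ℝ × Q) × W)} (hU : IsOpen U) (hF : ContDiffOn ℝ ∞ F U)
    (h0 : ∀ q ∈ U, q.1.1 = 0 → F q = 0) {A : Set Q} {B : Set W} (hA : IsCompact A)
    (hB : IsCompact B) (hsub : ∀ x ∈ A, ∀ t ∈ B, ((0, x), t) ∈ U) {δ : ℝ} (hδ : 0 < δ) :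
    ∃ ε₀ > 0, ∀ ε, |ε| ≤ ε₀ → ∀ x ∈ A, ∀ t ∈ B, ((ε, x), t) ∈ U ∧ ‖F ((ε, x), t)‖ ≤ δ ∧
      ‖pdv F ((ε, x), t)‖ ≤ δ ∧ ‖pdv (pdv F) ((ε, x), t)‖ ≤ δ := by
  have hF1 := contDiffOn_pdv hU hF
  have hF2 := contDiffOn_pdv hU hF1
  have h1 : ∀ q ∈ U, q.1.1 = 0 → pdv F q = 0 :=
    pdv_zero hU hF (S := {p | p.1 = 0}) h0
  have h2 : ∀ q ∈ U, q.1.1 = 0 → pdv (pdv F) q = 0 :=
    pdv_zero hU hF1 (S := {p | p.1 = 0}) h1
  set O : Set ((ℝ × Q) × W) := U ∩ ((fun q => ‖F q‖) ⁻¹' Iio δ) ∩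
    (U ∩ ((fun q => ‖pdv F q‖) ⁻¹' Iio δ)) ∩ (U ∩ ((fun q => ‖pdv (pdv F) q‖) ⁻¹' Iio δ)) with hO
  have hOo : IsOpen O :=
    ((hF.continuousOn.norm.isOpen_inter_preimage hU isOpen_Iio).inter
      (hF1.continuousOn.norm.isOpen_inter_preimage hU isOpen_Iio)).inter
      (hF2.continuousOn.norm.isOpen_inter_preimage hU isOpen_Iio)
  have hKc : IsCompact ((({0} : Set ℝ) ×ˢ A) ×ˢ B) := (isCompact_singleton.prod hA).prod hB
  have hKO : (({0} : Set ℝ) ×ˢ A) ×ˢ B ⊆ O := by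
    rintro ⟨⟨r, x⟩, t⟩ ⟨⟨hr, hx⟩, ht⟩
    simp only [mem_singleton_iff] at hr hx ht
    subst hr
    have hu := hsub x hx t ht
    refine ⟨⟨⟨hu, ?_⟩, hu, ?_⟩, hu, ?_⟩
    · show ‖F _‖ < δ
      rw [h0 _ hu rfl, norm_zero]
      exact hδ
    · show ‖pdv F _‖ < δ
      rw [h1 _ hu rfl, norm_zero]
      exact hδ
    · show ‖pdv (pdv F) _‖ < δ
      rw [h2 _ hu rfl, norm_zero]
      exact hδ
  obtain ⟨η, hη, hth⟩ := hKc.exists_thickening_subset_open hOo hKO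
  refine ⟨η / 2, by positivity, fun ε hε x hx t ht => ?_⟩
  have hmem : ((ε, x), t) ∈ O := by
    refine hth (mem_thickening_iff.2 ⟨((0, x), t), ⟨⟨rfl, hx⟩, ht⟩, ?_⟩)
    rw [Prod.dist_eq, Prod.dist_eq]
    simp only [dist_self, Real.dist_eq, sub_zero]
    have : max (max |ε| 0) 0 = |ε| := by
      rw [max_eq_left (abs_nonneg ε), max_eq_left (abs_nonneg ε)]
    rw [this]
    linarith
  exact ⟨hmem.1.1.1, (show ‖F _‖ < δ from hmem.1.1.2).le,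
    (show ‖pdv F _‖ < δ from hmem.1.2.2).le, (show ‖pdv (pdv F) _‖ < δ from hmem.2.2).le⟩

end

/-! ## The parameters -/

section

variable (J : R4 → R4 →L[ℝ] R4)

/-- complex multiplication -/
def cmJ (x : R4) (w : ℂ) (a : R4) : R4 := w.re • a + w.im • J x a

/-- the parameters `(r, x, w, a, τ)` -/
abbrev PQ : Type := ℝ × R4 × R4 × R4 × P2

/-- the geometric parameters `(x, v, h)` -/
abbrev Q3 : Type := R4 × R4 × R4

/-- the complex parameters `(l, z, y)` -/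
abbrev C3 : Type := ℂ × ℂ × ℂ

/-- from `((ε, x, v, h), (l, z, y))` to the parameters of the equation -/
def bet (q : (ℝ × Q3) × C3) : PQ :=
  (12 * q.1.1, q.1.2.1, (1 / 12 : ℝ) • cmJ J q.1.2.1 q.2.2.1 q.1.2.2.2,
    q.1.2.2.1 + cmJ J q.1.2.1 q.2.1 q.1.2.2.2, (q.2.2.2.re / 12, q.2.2.2.im / 12))

variable {J}

theorem cd_cmJ {E : Type*} [NormedAddCommGroup E] [NormedSpace ℝ E] (hJ : ContDiff ℝ ∞ J)
    {x : E → R4} {w : E → ℂ} {a : E → R4} (hx : ContDiff ℝ ∞ x) (hw : ContDiff ℝ ∞ w)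
    (ha : ContDiff ℝ ∞ a) : ContDiff ℝ ∞ fun q => cmJ J (x q) (w q) (a q) := by
  unfold cmJ
  have h1 : ContDiff ℝ ∞ fun q => (w q).re := Complex.reCLM.contDiff.comp hw
  have h2 : ContDiff ℝ ∞ fun q => (w q).im := Complex.imCLM.contDiff.comp hw
  exact (h1.smul ha).add (h2.smul ((hJ.comp hx).clm_apply ha))

theorem contDiff_bet (hJ : ContDiff ℝ ∞ J) : ContDiff ℝ ∞ (bet J) := by
  unfold bet
  have e1 : ContDiff ℝ ∞ fun q : (ℝ × Q3) × C3 => q.1.1 := by fun_prop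
  have e2 : ContDiff ℝ ∞ fun q : (ℝ × Q3) × C3 => q.1.2.1 := by fun_prop
  have e3 : ContDiff ℝ ∞ fun q : (ℝ × Q3) × C3 => q.1.2.2.1 := by fun_prop
  have e4 : ContDiff ℝ ∞ fun q : (ℝ × Q3) × C3 => q.1.2.2.2 := by fun_prop
  have e5 : ContDiff ℝ ∞ fun q : (ℝ × Q3) × C3 => q.2.1 := by fun_prop
  have e6 : ContDiff ℝ ∞ fun q : (ℝ × Q3) × C3 => q.2.2.1 := by fun_prop
  have e7 : ContDiff ℝ ∞ fun q : (ℝ × Q3) × C3 => q.2.2.2 := by fun_prop
  have e8 : ContDiff ℝ ∞ fun q : (ℝ × Q3) × C3 => q.2.2.2.re := Complex.reCLM.contDiff.comp e7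
  have e9 : ContDiff ℝ ∞ fun q : (ℝ × Q3) × C3 => q.2.2.2.im := Complex.imCLM.contDiff.comp e7
  exact (contDiff_const.mul e1).prodMk (e2.prodMk (((cd_cmJ hJ e2 e6 e4).const_smul _).prodMk
    ((e3.add (cd_cmJ hJ e2 e5 e4)).prodMk ((e8.div_const 12).prodMk (e9.div_const 12)))))

end

/-! ## The system -/

section

variable (J : R4 → R4 →L[ℝ] R4) (m : ℕ)

/-- `w` -/
def wq (q : PQ) (h : HH (m + 2)) : R4 := q.2.2.1 - ew (Gv (J q.2.1) (m + 2) h) 0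

/-- `b` -/
def bq (q : PQ) (h : HH (m + 2)) : R4 := q.2.2.2.1 - be (J q.2.1) (m + 2) h

/-- the system -/
def NS (w : PQ × (HH (m + 2) × HH (m + 2))) : HH (m + 2) × HH (m + 2) :=
  (NN J m w.1.1 w.1.2.1 (wq J m w.1 w.2.1) (bq J m w.1 w.2.1)
      (Xt (m + 2) (ContinuousLinearMap.fst ℝ ℝ ℝ) 0) (Xt (m + 2) (ContinuousLinearMap.snd ℝ ℝ ℝ) 0)
      w.2.1,
    NN J m w.1.1 w.1.2.1 (wq J m w.1 w.2.1) (bq J m w.1 w.2.1)
      (Xt (m + 2) (ContinuousLinearMap.fst ℝ ℝ ℝ) w.1.2.2.2.2)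
      (Xt (m + 2) (ContinuousLinearMap.snd ℝ ℝ ℝ) w.1.2.2.2.2) w.2.2)

/-- the displacement, divided by `r` -/
def LL (q : PQ) (H : HH (m + 2) × HH (m + 2)) : R4 :=
  q.2.2.2.2.1 • (cf4 (mL (m + 2)) H.1 - be (J q.2.1) (m + 2) H.1) -
    q.2.2.2.2.2 • J q.2.1 (be (J q.2.1) (m + 2) H.1) + ew (Gv (J q.2.1) (m + 2) H.2) 0 -
    ew (Gv (J q.2.1) (m + 2) H.1) 0

variable {J}

theorem contDiff_NS (hJ : ContDiff ℝ ∞ J) : ContDiff ℝ ∞ (NS J m) := by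
  have e1 : ContDiff ℝ ∞ fun w : PQ × (HH (m + 2) × HH (m + 2)) => w.1.1 := by fun_prop
  have e2 : ContDiff ℝ ∞ fun w : PQ × (HH (m + 2) × HH (m + 2)) => w.1.2.1 := by fun_prop
  have e3 : ContDiff ℝ ∞ fun w : PQ × (HH (m + 2) × HH (m + 2)) => w.1.2.2.1 := by fun_prop
  have e4 : ContDiff ℝ ∞ fun w : PQ × (HH (m + 2) × HH (m + 2)) => w.1.2.2.2.1 := by fun_prop
  have e5 : ContDiff ℝ ∞ fun w : PQ × (HH (m + 2) × HH (m + 2)) => w.1.2.2.2.2 := by fun_prop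
  have e6 : ContDiff ℝ ∞ fun w : PQ × (HH (m + 2) × HH (m + 2)) => w.2.1 := by fun_prop
  have e7 : ContDiff ℝ ∞ fun w : PQ × (HH (m + 2) × HH (m + 2)) => w.2.2 := by fun_prop
  have eL : ContDiff ℝ ∞ fun w : PQ × (HH (m + 2) × HH (m + 2)) => J w.1.2.1 := hJ.comp e2
  have ew' : ContDiff ℝ ∞ fun w : PQ × (HH (m + 2) × HH (m + 2)) => wq J m w.1 w.2.1 := by
    unfold wq
    exact e3.sub (cd_ew (cd_Gv eL e6) 0)
  have eb : ContDiff ℝ ∞ fun w : PQ × (HH (m + 2) × HH (m + 2)) => bq J m w.1 w.2.1 := by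
    unfold bq
    exact e4.sub (cd_be eL e6)
  have eX : ContDiff ℝ ∞ fun w : PQ × (HH (m + 2) × HH (m + 2)) =>
      Xt (m + 2) (ContinuousLinearMap.fst ℝ ℝ ℝ) w.1.2.2.2.2 :=
    (contDiff_Xt m int_fst).comp e5
  have eY : ContDiff ℝ ∞ fun w : PQ × (HH (m + 2) × HH (m + 2)) =>
      Xt (m + 2) (ContinuousLinearMap.snd ℝ ℝ ℝ) w.1.2.2.2.2 :=
    (contDiff_Xt m int_snd).comp e5
  exact (cd_NN m hJ e1 e2 ew' eb contDiff_const contDiff_const e6).prodMk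
    (cd_NN m hJ e1 e2 ew' eb eX eY e7)

theorem NS_zero (hJ : ContDiff ℝ ∞ J) {q : PQ} (hq : q.1 = 0) (H : HH (m + 2) × HH (m + 2)) :
    NS J m (q, H) = 0 := by
  unfold NS
  simp only [hq]
  rw [NN_zero m hJ, NN_zero m hJ]
  rfl

theorem cd_LL (hJ : ContDiff ℝ ∞ J) :
    ContDiff ℝ ∞ fun w : PQ × (HH (m + 2) × HH (m + 2)) => LL J m w.1 w.2 := by
  have e2 : ContDiff ℝ ∞ fun w : PQ × (HH (m + 2) × HH (m + 2)) => w.1.2.1 := by fun_prop
  have e5 : ContDiff ℝ ∞ fun w : PQ × (HH (m + 2) × HH (m + 2)) => w.1.2.2.2.2.1 := by fun_prop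
  have e5' : ContDiff ℝ ∞ fun w : PQ × (HH (m + 2) × HH (m + 2)) => w.1.2.2.2.2.2 := by fun_prop
  have e6 : ContDiff ℝ ∞ fun w : PQ × (HH (m + 2) × HH (m + 2)) => w.2.1 := by fun_prop
  have e7 : ContDiff ℝ ∞ fun w : PQ × (HH (m + 2) × HH (m + 2)) => w.2.2 := by fun_prop
  have eL : ContDiff ℝ ∞ fun w : PQ × (HH (m + 2) × HH (m + 2)) => J w.1.2.1 := hJ.comp e2
  unfold LL
  exact (((e5.smul (((cf4 (mL (m + 2))).contDiff.comp e6).sub (cd_be eL e6))).sub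
    (e5'.smul (eL.clm_apply (cd_be eL e6)))).add (cd_ew (cd_Gv eL e7) 0)).sub
    (cd_ew (cd_Gv eL e6) 0)

theorem LL_zero (q : PQ) : LL J m q 0 = 0 := by
  have h1 : ∀ p : P2, ew (0 : HH (m + 2 + 1)) p = 0 := fun p => funext fun i => ev_zero p
  unfold LL
  simp only [Prod.fst_zero, Prod.snd_zero, map_zero, sub_zero, smul_zero, h1, add_zero]

/-- uniqueness implies that the second component is a translate of the first -/
theorem NS_trans (hJ : ContDiff ℝ ∞ J) {U : Set PQ} {ψ : PQ → HH (m + 2) × HH (m + 2)} {η : ℝ}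
    (hψ : ∀ q ∈ U, ψ q = NS J m (q, ψ q)) (hn : ∀ q ∈ U, ‖ψ q‖ < η)
    (hu : ∀ q ∈ U, ∀ H, ‖H‖ < η → H = NS J m (q, H) → H = ψ q) {r : ℝ} {x w a : R4} {τ : P2}
    (h0 : ((r, x, w, a, (0 : P2)) : PQ) ∈ U) (h1 : ((r, x, w, a, τ) : PQ) ∈ U) :
    ψ (r, x, w, a, τ) = ((ψ (r, x, w, a, 0)).1, cw (trW (m + 2) τ) (ψ (r, x, w, a, 0)).1) := by
  symm
  set H := (ψ (r, x, w, a, 0)).1 with hH
  have hfix : H = NN J m r x (wq J m (r, x, w, a, 0) H) (bq J m (r, x, w, a, 0) H)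
      (Xt (m + 2) (ContinuousLinearMap.fst ℝ ℝ ℝ) 0)
      (Xt (m + 2) (ContinuousLinearMap.snd ℝ ℝ ℝ) 0) H := congrArg Prod.fst (hψ _ h0)
  have hHn : ‖H‖ < η := lt_of_le_of_lt (norm_fst_le _) (hn _ h0)
  refine hu _ h1 _ ?_ ?_
  · rw [Prod.norm_def]
    exact max_lt hHn (lt_of_le_of_lt (norm_cw_trW τ H) hHn)
  · unfold NS
    refine Prod.ext ?_ ?_
    · exact hfix
    · show cw (trW (m + 2) τ) H = NN J m r x (wq J m (r, x, w, a, τ) H) (bq J m (r, x, w, a, τ) H)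
        (Xt (m + 2) (ContinuousLinearMap.fst ℝ ℝ ℝ) τ)
        (Xt (m + 2) (ContinuousLinearMap.snd ℝ ℝ ℝ) τ) (cw (trW (m + 2) τ) H)
      have h3 := NN_trW m hJ r x (wq J m (r, x, w, a, 0) H) (bq J m (r, x, w, a, 0) H)
        (X := Xt (m + 2) (ContinuousLinearMap.fst ℝ ℝ ℝ) 0)
        (Y := Xt (m + 2) (ContinuousLinearMap.snd ℝ ℝ ℝ) 0)
        (X' := Xt (m + 2) (ContinuousLinearMap.fst ℝ ℝ ℝ) τ)
        (Y' := Xt (m + 2) (ContinuousLinearMap.snd ℝ ℝ ℝ) τ) τ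
        (fun p => by rw [ev_Xt m int_fst, ev_Xt m int_fst, add_zero])
        (fun p => by rw [ev_Xt m int_snd, ev_Xt m int_snd, add_zero]) H
      rw [← hfix] at h3
      exact h3.symm

/-- the displacement in terms of the map of Disc -/
theorem LL_eq (r : ℝ) (x w a : R4) (τ : P2) (H : HH (m + 2)) :
    LL J m (r, x, w, a, τ) (H, cw (trW (m + 2) τ) H) + τ.1 • a + τ.2 • J x a =
      Uf (J x) (m + 2) a H τ := by
  have hbb : bb (J x) (m + 2) (a, H) = a - be (J x) (m + 2) H := rfl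
  unfold LL Uf
  simp only
  rw [Gv_trW, ew_trW, zero_add, hbb, map_sub, smul_sub, smul_sub, smul_sub]
  abel

/-- the link with `Nf` -/
theorem NN_eq_Nf (hJ : ContDiff ℝ ∞ J) (r : ℝ) (x w a : R4) (X Y : WR (m + 2))
    (H : HH (m + 2)) :
    NN J m r x (w - ew (Gv (J x) (m + 2) H) 0) (a - be (J x) (m + 2) H) X Y H =
      Nf J (J x) m X Y ((r, x + r • w, a), H) := by
  refine ew_inj fun p => ?_
  rw [ew_NN m hJ, ew_Nf (J x) m X Y hJ]
  have hbb : bb (J x) (m + 2) (a, H) = a - be (J x) (m + 2) H := rfl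
  have h1 : ew (argJ (J x) m X Y ((r, x + r • w, a), H)) p =
      x + r • ew (uarg (m + 2) (J x) (w - ew (Gv (J x) (m + 2) H) 0)
        (a - be (J x) (m + 2) H) X Y H) p := by
    unfold argJ Ut
    rw [ew_add, ew_cv, ew_smul, ew_uarg, _root_.sub_apply, _root_.add_apply, _root_.add_apply,
      _root_.add_apply, ew_sub, ew_add, ew_add, ew_add]
    simp only [ContinuousLinearMap.comp_apply, ContinuousLinearMap.coe_snd', ew_sv, ew_cv, hbb,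
      ew_incl]
    have h2 : cf4 (evL (m + 2 + 1) 0) (Gv (J x) (m + 2) H) = ew (Gv (J x) (m + 2) H) 0 := rfl
    rw [h2, add_assoc, ← smul_add]
    congr 2
    abel
  have h2 : ew (Vt (J x) (m + 2) (a, H)) p =
      ew (varg (m + 2) (J x) (a - be (J x) (m + 2) H) H) p := by
    unfold Vt
    rw [ew_varg, _root_.add_apply, ew_add]
    simp only [ContinuousLinearMap.comp_apply, ContinuousLinearMap.coe_snd', ew_cv, hbb]
  rw [h1, h2]

end

end Vale.Agent.P247.H743
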