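import Vale.Agent.P247.H743.JDb

/-!
# P247: families of discs, the theorem
-/

open scoped ContDiff Topology
open Set MeasureTheory Filter Metric

noncomputable section

namespace Vale.Agent.P247.H743

open Vale.Agent.P247.H74 Vale.Agent.P247.H720

theorem fderiv2_add {P W G : Type*} [NormedAddCommGroup P] [NormedSpace ℝ P]
    [NormedAddCommGroup W] [NormedSpace ℝ W] [NormedAddCommGroup G] [NormedSpace ℝ G]
    {L : W → G} (hL : ContDiff ℝ ∞ L) {F : P × W → G} {V : Set (P × W)} (hV : IsOpen V)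
    (hF : ContDiffOn ℝ ∞ F V) (c : ℝ) {p : P} {t : W} (ht : (p, t) ∈ V) :
    ‖fderiv ℝ (fderiv ℝ fun t => L t + c • F (p, t)) t - fderiv ℝ (fderiv ℝ L) t‖ ≤
      |c| * ‖pdv (pdv F) (p, t)‖ := by
  have h1 : (fderiv ℝ fun t => L t + c • F (p, t)) =ᶠ[𝓝 t]
      fun t => fderiv ℝ L t + c • pdv F (p, t) := by
    filter_upwards [eventually_mem hV ht] with s hs
    exact ((hL.differentiable (by simp) s).hasFDerivAt.add
      ((hasFDerivAt_pdv hV hF hs).const_smul c)).fderiv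
  have h2 : HasFDerivAt (fderiv ℝ L) (fderiv ℝ (fderiv ℝ L) t) t := by
    have : ContDiff ℝ ∞ (fderiv ℝ L) := (contDiff_infty_iff_fderiv.1 hL).2
    exact (this.differentiable (by simp) t).hasFDerivAt
  have h3 := hasFDerivAt_pdv hV (contDiffOn_pdv hV hF) ht
  have h4 := (h2.add (h3.const_smul c)).congr_of_eventuallyEq h1
  rw [h4.fderiv, add_sub_cancel_left]
  exact ContinuousLinearMap.opNorm_smul_le c _

section

variable (J : R4 → R4 →L[ℝ] R4)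

/-- the affine model -/
def lmJ (x v h : R4) (ε : ℝ) (q : C3) : R4 :=
  x + ε • (cmJ J x q.2.1 h + cmJ J x q.2.2 v + cmJ J x (q.1 * q.2.2) h)

/-- the polydisc -/
def PD3 : Set C3 := ball (0 : ℂ) 2 ×ˢ ball (0 : ℂ) 2 ×ˢ ball (0 : ℂ) 2

/-- the conclusion -/
structure Fam (x v h : R4) (ε δ : ℝ) (Ξ : C3 → R4) : Prop where
  smooth : ContDiffOn ℝ ∞ Ξ PD3
  hol : ∀ q ∈ PD3, fderiv ℝ Ξ q (0, 0, Complex.I) = J (Ξ q) (fderiv ℝ Ξ q (0, 0, 1))
  c0 : ∀ q ∈ PD3, ‖Ξ q - lmJ J x v h ε q‖ ≤ ε * δ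
  c1 : ∀ q ∈ PD3, ‖fderiv ℝ Ξ q - fderiv ℝ (lmJ J x v h ε) q‖ ≤ ε * δ
  c2 : ∀ q ∈ PD3, ‖fderiv ℝ (fderiv ℝ Ξ) q - fderiv ℝ (fderiv ℝ (lmJ J x v h ε)) q‖ ≤ ε * δ
  base : ∀ l ∈ ball (0 : ℂ) 2, ∀ z ∈ ball (0 : ℂ) 2, Ξ (l, z, 0) = x + ε • cmJ J x z h
  dir : ∀ l ∈ ball (0 : ℂ) 2, ∀ z ∈ ball (0 : ℂ) 2,
    fderiv ℝ Ξ (l, z, 0) (0, 0, 1) = ε • (v + cmJ J x l h)

variable {J}

theorem isOpen_PD3 : IsOpen PD3 := isOpen_ball.prod (isOpen_ball.prod isOpen_ball)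

theorem cmJ_cmJ (hJ2 : ∀ x u, J x (J x u) = -u) (x : R4) (y l : ℂ) (v h : R4) :
    y.re • (v + cmJ J x l h) + y.im • J x (v + cmJ J x l h) =
      cmJ J x y v + cmJ J x (l * y) h := by
  unfold cmJ
  simp only [map_add, map_smul, hJ2, Complex.mul_re, Complex.mul_im, smul_add, smul_smul, sub_smul,
    add_smul, smul_neg]
  rw [mul_comm l.re y.re, mul_comm l.im y.im, mul_comm l.re y.im, mul_comm l.im y.re]
  abel

theorem contDiff_lmJ (hJ : ContDiff ℝ ∞ J) (x v h : R4) (ε : ℝ) : ContDiff ℝ ∞ (lmJ J x v h ε) := by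
  unfold lmJ
  have e1 : ContDiff ℝ ∞ fun q : C3 => q.2.1 := by fun_prop
  have e2 : ContDiff ℝ ∞ fun q : C3 => q.2.2 := by fun_prop
  have e3 : ContDiff ℝ ∞ fun q : C3 => q.1 * q.2.2 := by fun_prop
  exact contDiff_const.add ((((cd_cmJ hJ contDiff_const e1 contDiff_const).add
    (cd_cmJ hJ contDiff_const e2 contDiff_const)).add
    (cd_cmJ hJ contDiff_const e3 contDiff_const)).const_smul ε)

theorem bet_eq (ε : ℝ) (x v h : R4) (l z y : ℂ) : bet J ((ε, x, v, h), (l, z, y)) =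
    (12 * ε, x, (1 / 12 : ℝ) • cmJ J x z h, v + cmJ J x l h, (y.re / 12, y.im / 12)) := rfl

theorem bet_eq0 (ε : ℝ) (x v h : R4) (l z : ℂ) : bet J ((ε, x, v, h), (l, z, 0)) =
    (12 * ε, x, (1 / 12 : ℝ) • cmJ J x z h, v + cmJ J x l h, (0 : P2)) := by
  rw [bet_eq]
  simp only [Complex.zero_re, Complex.zero_im, zero_div]
  rfl

theorem cd_LL_comp {E : Type*} [NormedAddCommGroup E] [NormedSpace ℝ E] (m : ℕ)
    (hJ : ContDiff ℝ ∞ J) {f : E → PQ} {g : E → HH (m + 2) × HH (m + 2)} {s : Set E}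
    (hf : ContDiffOn ℝ ∞ f s) (hg : ContDiffOn ℝ ∞ g s) :
    ContDiffOn ℝ ∞ (fun q => LL J m (f q) (g q)) s :=
  (cd_LL m hJ).comp_contDiffOn (hf.prodMk hg)

theorem smul12 (ε r i : ℝ) (A B : R4) :
    (12 * ε) • ((r / 12) • A + (i / 12) • B) = ε • (r • A + i • B) := by
  simp only [smul_add, smul_smul]
  congr 2 <;> ring

/-- the discs -/
theorem disc_eq (hJ2 : ∀ x u, J x (J x u) = -u) {ε : ℝ} (hε : 0 < ε) (x v h : R4) (l z y : ℂ)
    (H : HH 2) : lmJ J x v h ε (l, z, y) + (12 * ε) • LL J 0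
      (12 * ε, x, (1 / 12 : ℝ) • cmJ J x z h, v + cmJ J x l h, (y.re / 12, y.im / 12))
      (H, cw (trW 2 (y.re / 12, y.im / 12)) H) =
      ud (J x) 2 (12 * ε) (x + ε • cmJ J x z h) (v + cmJ J x l h) H (ε • y) := by
  have h1 := LL_eq (J := J) 0 (12 * ε) x ((1 / 12 : ℝ) • cmJ J x z h) (v + cmJ J x l h)
    (y.re / 12, y.im / 12) H
  have h2 : (((ε • y).re / (12 * ε), (ε • y).im / (12 * ε)) : P2) = (y.re / 12, y.im / 12) := by
    have e1 : (ε • y).re = ε * y.re := by simp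
    have e2 : (ε • y).im = ε * y.im := by simp
    rw [e1, e2]
    refine Prod.ext ?_ ?_
    · show ε * y.re / (12 * ε) = y.re / 12
      field_simp
    · show ε * y.im / (12 * ε) = y.im / 12
      field_simp
  unfold ud
  rw [h2]
  have h3 : Uf (J x) 2 (v + cmJ J x l h) H (y.re / 12, y.im / 12) = _ := h1.symm
  rw [h3]
  have h4 := cmJ_cmJ hJ2 x y l v h
  have h5 : (12 * ε) • ((y.re / 12) • (v + cmJ J x l h) + (y.im / 12) • J x (v + cmJ J x l h)) =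
      ε • (cmJ J x y v + cmJ J x (l * y) h) := by
    rw [← h4]
    exact smul12 _ _ _ _ _
  unfold lmJ
  simp only
  rw [add_assoc (LL J _ _ _), smul_add (12 * ε), h5]
  simp only [smul_add]
  abel

theorem fam_Icc (hJ : ContDiff ℝ ∞ J) (hJ2 : ∀ x u, J x (J x u) = -u) (K : ℝ) {δ : ℝ}
    (hδ : 0 < δ) : ∃ ε₀ > 0, ∀ ε, 0 < ε → ε ≤ ε₀ → ∀ x ∈ Icc (0 : R4) 1, ∀ v h : R4, ‖v‖ ≤ K →
    ‖h‖ ≤ K → ∃ Ξ : C3 → R4, Fam J x v h ε δ Ξ := by
  set A : Set Q3 := Icc (0 : R4) 1 ×ˢ (closedBall (0 : R4) K ×ˢ closedBall (0 : R4) K) with hA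
  set B : Set C3 := closedBall (0 : ℂ) 2 ×ˢ (closedBall (0 : ℂ) 2 ×ˢ closedBall (0 : ℂ) 2) with hB
  have hAc : IsCompact A :=
    isCompact_Icc.prod ((isCompact_closedBall _ _).prod (isCompact_closedBall _ _))
  have hBc : IsCompact B :=
    (isCompact_closedBall _ _).prod ((isCompact_closedBall _ _).prod (isCompact_closedBall _ _))
  have hKt : IsCompact ((({0} : Set ℝ) ×ˢ A) ×ˢ B) := (isCompact_singleton.prod hAc).prod hBc
  have hPB : ∀ t ∈ PD3, t ∈ B := fun t ht =>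
    ⟨ball_subset_closedBall ht.1, ball_subset_closedBall ht.2.1, ball_subset_closedBall ht.2.2⟩
  obtain ⟨U, hU, hKU, ψ, η, hη, hψs, hψ, hψn, hψu⟩ := ufp (NS J 0) (contDiff_NS 0 hJ)
    (bet J '' ((({0} : Set ℝ) ×ˢ A) ×ˢ B)) (hKt.image (contDiff_bet hJ).continuous) (by
      rintro _ ⟨⟨⟨r, ξ⟩, t⟩, ⟨⟨hr, hξ⟩, ht⟩, rfl⟩ H
      simp only [mem_singleton_iff] at hr
      subst hr
      refine NS_zero 0 hJ ?_ H
      show (12 : ℝ) * 0 = 0
      norm_num)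
  set V : Set ((ℝ × Q3) × C3) := bet J ⁻¹' U with hV
  have hVo : IsOpen V := hU.preimage (contDiff_bet hJ).continuous
  set F : (ℝ × Q3) × C3 → R4 := fun q => LL J 0 (bet J q) (ψ (bet J q)) with hF
  have hFs : ContDiffOn ℝ ∞ F V := by
    have h1 : ContDiffOn ℝ ∞ (fun q => ψ (bet J q)) V :=
      hψs.comp (contDiff_bet hJ).contDiffOn fun q hq => hq
    exact cd_LL_comp 0 hJ (contDiff_bet hJ).contDiffOn h1
  have hF0 : ∀ q ∈ V, q.1.1 = 0 → F q = 0 := by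
    intro q hq h0
    have h1 : (bet J q).1 = 0 := by
      show (12 : ℝ) * q.1.1 = 0
      rw [h0, mul_zero]
    have h2 : ψ (bet J q) = 0 := by
      rw [hψ _ hq]
      exact NS_zero 0 hJ h1 _
    show LL J 0 (bet J q) (ψ (bet J q)) = 0
    rw [h2]
    exact LL_zero 0 _
  have hsub : ∀ ξ ∈ A, ∀ t ∈ B, (((0 : ℝ), ξ), t) ∈ V := fun ξ hξ t ht =>
    hKU ⟨(((0 : ℝ), ξ), t), ⟨⟨mem_singleton _, hξ⟩, ht⟩, rfl⟩
  obtain ⟨ε₀, hε₀, hsm⟩ := small_unif hVo hFs hF0 hAc hBc hsub (δ := δ / 12) (by positivity)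
  refine ⟨ε₀, hε₀, fun ε hε hεle x hx v h hv hh => ?_⟩
  have hξ : ((x, v, h) : Q3) ∈ A :=
    ⟨hx, mem_closedBall_zero_iff.2 hv, mem_closedBall_zero_iff.2 hh⟩
  have hall := hsm ε (by rw [abs_of_pos hε]; exact hεle) (x, v, h) hξ
  set p : ℝ × Q3 := (ε, x, v, h) with hp
  set Ξ : C3 → R4 := fun t => lmJ J x v h ε t + (12 * ε) • F (p, t) with hΞ
  have hlm := contDiff_lmJ hJ x v h ε
  have hFp : ContDiffOn ℝ ∞ (fun t => F (p, t)) PD3 := by
    have h1 : ContDiff ℝ ∞ fun t : C3 => (p, t) := contDiff_const.prodMk contDiff_id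
    exact hFs.comp h1.contDiffOn fun t ht => (hall t (hPB t ht)).1
  have hΞs : ContDiffOn ℝ ∞ Ξ PD3 := hlm.contDiffOn.add (hFp.const_smul (12 * ε))
  have hD : ∀ t ∈ PD3, HasFDerivAt Ξ (fderiv ℝ (lmJ J x v h ε) t + (12 * ε) • pdv F (p, t)) t := by
    intro t ht
    have h1 := (hlm.differentiable (by simp) t).hasFDerivAt
    have h2 := hasFDerivAt_pdv hVo hFs (q := (p, t)) (hall t (hPB t ht)).1
    exact h1.add (h2.const_smul (12 * ε))
  have h12 : 0 ≤ 12 * ε := by positivity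
  -- identification with the discs
  have hid : ∀ l ∈ ball (0 : ℂ) 2, ∀ z ∈ ball (0 : ℂ) 2, ∃ H : HH 2,
      H = Nf J (J x) 0 (Xt 2 (ContinuousLinearMap.fst ℝ ℝ ℝ) 0)
        (Xt 2 (ContinuousLinearMap.snd ℝ ℝ ℝ) 0)
        ((12 * ε, x + ε • cmJ J x z h, v + cmJ J x l h), H) ∧
      ∀ y ∈ ball (0 : ℂ) 2, Ξ (l, z, y) =
        ud (J x) 2 (12 * ε) (x + ε • cmJ J x z h) (v + cmJ J x l h) H (ε • y) := by
    intro l hl z hz
    have hm0 : bet J (p, (l, z, 0)) ∈ U :=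
      (hall (l, z, 0) (hPB _ ⟨hl, hz, mem_ball_self (by norm_num)⟩)).1
    have hm0' := hm0
    rw [hp, bet_eq0] at hm0'
    refine ⟨(ψ (12 * ε, x, (1 / 12 : ℝ) • cmJ J x z h, v + cmJ J x l h, (0 : P2))).1, ?_,
      fun y hy => ?_⟩
    · set q0 : PQ := (12 * ε, x, (1 / 12 : ℝ) • cmJ J x z h, v + cmJ J x l h, (0 : P2)) with hq0
      have h1 := congrArg Prod.fst (hψ q0 hm0')
      have h2 := NN_eq_Nf 0 hJ (12 * ε) x ((1 / 12 : ℝ) • cmJ J x z h) (v + cmJ J x l h)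
        (Xt 2 (ContinuousLinearMap.fst ℝ ℝ ℝ) 0) (Xt 2 (ContinuousLinearMap.snd ℝ ℝ ℝ) 0)
        (ψ q0).1
      have h3 : x + (12 * ε) • ((1 / 12 : ℝ) • cmJ J x z h) = x + ε • cmJ J x z h := by
        rw [smul_smul]
        congr 2
        ring
      rw [h3] at h2
      exact h1.trans h2
    · have hmy : bet J (p, (l, z, y)) ∈ U := (hall (l, z, y) (hPB _ ⟨hl, hz, hy⟩)).1
      have h1 := NS_trans 0 hJ hψ hψn hψu hm0' hmy
      show lmJ J x v h ε (l, z, y) + (12 * ε) • LL J 0 (bet J (p, (l, z, y)))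
        (ψ (bet J (p, (l, z, y)))) = _
      rw [← disc_eq hJ2 hε x v h l z y, ← h1]
      rfl
  have hder : ∀ l ∈ ball (0 : ℂ) 2, ∀ z ∈ ball (0 : ℂ) 2, ∃ H : HH 2,
      H = Nf J (J x) 0 (Xt 2 (ContinuousLinearMap.fst ℝ ℝ ℝ) 0)
        (Xt 2 (ContinuousLinearMap.snd ℝ ℝ ℝ) 0)
        ((12 * ε, x + ε • cmJ J x z h, v + cmJ J x l h), H) ∧
      ∀ y ∈ ball (0 : ℂ) 2, Ξ (l, z, y) =
        ud (J x) 2 (12 * ε) (x + ε • cmJ J x z h) (v + cmJ J x l h) H (ε • y) ∧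
        ∀ c : ℂ, fderiv ℝ Ξ (l, z, y) (0, 0, c) = ε • fderiv ℝ
          (ud (J x) 2 (12 * ε) (x + ε • cmJ J x z h) (v + cmJ J x l h) H) (ε • y) c := by
    intro l hl z hz
    obtain ⟨H, hH, hHy⟩ := hid l hl z hz
    refine ⟨H, hH, fun y hy => ⟨hHy y hy, fun c => ?_⟩⟩
    have h1 : HasFDerivAt Ξ (fderiv ℝ Ξ (l, z, y)) (l, z, y) :=
      (hD (l, z, y) ⟨hl, hz, hy⟩).differentiableAt.hasFDerivAt
    have h2 : HasFDerivAt (fun y' : ℂ => ((l, z, y') : C3))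
        ((ContinuousLinearMap.inr ℝ ℂ (ℂ × ℂ)).comp (ContinuousLinearMap.inr ℝ ℂ ℂ)) y :=
      (hasFDerivAt_prodMk_right l (z, y)).comp y (hasFDerivAt_prodMk_right z y)
    have h3 := h1.comp y h2
    have h4 := (hasFDerivAt_ud (J x) 2 (r₁ := 12 * ε) (x + ε • cmJ J x z h)
      (v + cmJ J x l h) H (ε • y)).differentiableAt.hasFDerivAt
    have h5 : HasFDerivAt (fun y' : ℂ => ε • y') (ε • ContinuousLinearMap.id ℝ ℂ) y :=
      (hasFDerivAt_id y).const_smul ε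
    have h6 := h4.comp y h5
    have h7 : (Ξ ∘ fun y' : ℂ => ((l, z, y') : C3)) =ᶠ[𝓝 y]
        (ud (J x) 2 (12 * ε) (x + ε • cmJ J x z h) (v + cmJ J x l h) H) ∘ fun y' : ℂ => ε • y' := by
      filter_upwards [isOpen_ball.mem_nhds hy] with y' hy'
      exact hHy y' hy'
    have h8 := h3.unique (h6.congr_of_eventuallyEq h7)
    have h9 := congrArg (fun L => L c) h8
    simpa using h9
  refine ⟨Ξ, ⟨hΞs, ?_, ?_, ?_, ?_, ?_, ?_⟩⟩
  · rintro ⟨l, z, y⟩ ⟨hl, hz, hy⟩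
    obtain ⟨H, hH, hHy⟩ := hder l hl z hz
    obtain ⟨h1, h2⟩ := hHy y hy
    rw [h2, h2, h1, map_smul]
    congr 1
    have hy2 : ‖y‖ < 2 := mem_ball_zero_iff.1 hy
    have hpz : pz (12 * ε) (ε • y) = (y.re / 12, y.im / 12) := by
      rw [pz_apply]
      have e1 : (ε • y).re = ε * y.re := by simp
      have e2 : (ε • y).im = ε * y.im := by simp
      rw [e1, e2]
      refine Prod.ext ?_ ?_
      · show ε * y.re / (12 * ε) = y.re / 12
        field_simp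
      · show ε * y.im / (12 * ε) = y.im / 12
        field_simp
    refine ud_JH J hJ hJ2 x 0 _ _ (r₁ := 12 * ε) (by positivity) _ _ H hH (ε • y) ?_ ?_
    · rw [hpz, ev_Xt 0 int_fst, add_zero]
      refine qf_eq ?_
      show |y.re / 12| ≤ 1 / 6
      rw [abs_div, abs_of_pos (by norm_num : (0 : ℝ) < 12), div_le_iff₀ (by norm_num)]
      linarith [Complex.abs_re_le_norm y]
    · rw [hpz, ev_Xt 0 int_snd, add_zero]
      refine qf_eq ?_
      show |y.im / 12| ≤ 1 / 6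
      rw [abs_div, abs_of_pos (by norm_num : (0 : ℝ) < 12), div_le_iff₀ (by norm_num)]
      linarith [Complex.abs_im_le_norm y]
  · intro t ht
    have h1 : Ξ t - lmJ J x v h ε t = (12 * ε) • F (p, t) := add_sub_cancel_left _ _
    rw [h1, norm_smul, Real.norm_eq_abs, abs_of_nonneg h12]
    have h2 : ‖F (p, t)‖ ≤ δ / 12 := (hall t (hPB t ht)).2.1
    nlinarith
  · intro t ht
    rw [(hD t ht).fderiv, add_sub_cancel_left, norm_smul, Real.norm_eq_abs, abs_of_nonneg h12]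
    have h2 : ‖pdv F (p, t)‖ ≤ δ / 12 := (hall t (hPB t ht)).2.2.1
    nlinarith
  · intro t ht
    have h1 := fderiv2_add hlm hVo hFs (12 * ε) (p := p) (t := t) (hall t (hPB t ht)).1
    rw [abs_of_nonneg h12] at h1
    refine le_trans h1 ?_
    have h5 : ‖pdv (pdv F) (p, t)‖ ≤ δ / 12 := (hall t (hPB t ht)).2.2.2
    nlinarith
  · intro l hl z hz
    obtain ⟨H, hH, hHy⟩ := hder l hl z hz
    rw [(hHy 0 (mem_ball_self (by norm_num))).1, smul_zero, ud_zero]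
  · intro l hl z hz
    obtain ⟨H, hH, hHy⟩ := hder l hl z hz
    rw [(hHy 0 (mem_ball_self (by norm_num))).2, smul_zero, fderiv_ud_zero (J x) 2 (by positivity)]

/-- translation by a lattice vector -/
theorem fam_trans {x v h : R4} {ε δ : ℝ} {Ξ : C3 → R4} (c : R4)
    (hc : ∀ x, J (x + c) = J x) (hΞ : Fam J x v h ε δ Ξ) :
    Fam J (x + c) v h ε δ fun t => Ξ t + c := by
  have hcm : ∀ z a, cmJ J (x + c) z a = cmJ J x z a := fun z a => by
    unfold cmJ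
    rw [hc]
  have hl : lmJ J (x + c) v h ε = fun t => lmJ J x v h ε t + c := by
    funext t
    unfold lmJ
    rw [hcm, hcm, hcm]
    abel
  have hf : (fderiv ℝ fun t => Ξ t + c) = fderiv ℝ Ξ := by
    funext t
    exact fderiv_add_const c
  have hf' : (fderiv ℝ fun t => lmJ J x v h ε t + c) = fderiv ℝ (lmJ J x v h ε) := by
    funext t
    exact fderiv_add_const c
  refine ⟨hΞ.smooth.add contDiffOn_const, fun q hq => ?_, fun q hq => ?_, fun q hq => ?_,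
    fun q hq => ?_, fun l hl' z hz => ?_, fun l hl' z hz => ?_⟩
  · rw [hf, hc]
    exact hΞ.hol q hq
  · rw [hl, add_sub_add_right_eq_sub]
    exact hΞ.c0 q hq
  · rw [hl, hf, hf']
    exact hΞ.c1 q hq
  · rw [hl, hf, hf']
    exact hΞ.c2 q hq
  · rw [hcm, hΞ.base l hl' z hz]
    abel
  · rw [hcm, hf]
    exact hΞ.dir l hl' z hz

/-- **Families of discs.** -/
theorem fam (hJ : ContDiff ℝ ∞ J) (hJ2 : ∀ x u, J x (J x u) = -u)
    (hper : ∀ (n : Fin 4 → ℤ) (x : R4), J (fun i => x i + n i) = J x) (K : ℝ) {δ : ℝ}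
    (hδ : 0 < δ) : ∃ ε₀ > 0, ∀ ε, 0 < ε → ε ≤ ε₀ → ∀ x v h : R4, ‖v‖ ≤ K →
    ‖h‖ ≤ K → ∃ Ξ : C3 → R4, Fam J x v h ε δ Ξ := by
  obtain ⟨ε₀, hε₀, hmain⟩ := fam_Icc hJ hJ2 K hδ
  refine ⟨ε₀, hε₀, fun ε hε hle x v h hv hh => ?_⟩
  set c : R4 := fun i => (⌊x i⌋ : ℝ) with hc
  have hcJ : ∀ x, J (x + c) = J x := fun y => hper (fun i => ⌊x i⌋) y
  have hmem : x - c ∈ Icc (0 : R4) 1 := by
    refine ⟨fun i => ?_, fun i => ?_⟩
    · show (0 : ℝ) ≤ x i - ⌊x i⌋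
      linarith [Int.floor_le (x i)]
    · show x i - ⌊x i⌋ ≤ (1 : ℝ)
      linarith [Int.lt_floor_add_one (x i)]
  obtain ⟨Ξ, hΞ⟩ := hmain ε hε hle (x - c) hmem v h hv hh
  have h1 := fam_trans c hcJ hΞ
  rw [sub_add_cancel] at h1
  exact ⟨_, h1⟩

end

end Vale.Agent.P247.H743
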