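import Vale.Agent.P247.H743.Basic

/-!
# P247, package A-EQ: means of periodic functions, translations
-/

open scoped ContDiff Topology
open Set MeasureTheory Filter Metric

noncomputable section

namespace Vale.Agent.P247.H743

open Vale.Agent.P247.H74

variable {E : Type*} [NormedAddCommGroup E] [NormedSpace ℝ E]

theorem Icc_unit : (Icc (0 : P2) 1) = Icc (0 : ℝ) 1 ×ˢ Icc (0 : ℝ) 1 := by
  ext p
  constructor
  · intro h
    exact ⟨⟨h.1.1, h.2.1⟩, ⟨h.1.2, h.2.2⟩⟩
  · intro h
    exact ⟨⟨h.1.1, h.2.1⟩, ⟨h.1.2, h.2.2⟩⟩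

/-- the mean as an iterated integral -/
theorem mean_eq {g : P2 → E} (hg : Continuous g) :
    mean g = ∫ s in (0 : ℝ)..1, ∫ t in (0 : ℝ)..1, g (s, t) := by
  unfold mean
  have h1 : IntegrableOn g (Icc (0 : ℝ) 1 ×ˢ Icc (0 : ℝ) 1) (volume.prod volume) := by
    rw [← Measure.volume_eq_prod, ← Icc_unit]
    exact hg.continuousOn.integrableOn_compact isCompact_Icc
  rw [Icc_unit, Measure.volume_eq_prod, setIntegral_prod _ h1,
    intervalIntegral.integral_of_le zero_le_one, integral_Icc_eq_integral_Ioc]
  refine setIntegral_congr_fun measurableSet_Ioc fun s _ => ?_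
  rw [intervalIntegral.integral_of_le zero_le_one, integral_Icc_eq_integral_Ioc]

/-- the mean as an iterated integral in the other order -/
theorem mean_eq' {g : P2 → E} (hg : Continuous g) :
    mean g = ∫ t in (0 : ℝ)..1, ∫ s in (0 : ℝ)..1, g (s, t) := by
  unfold mean
  have h1 : IntegrableOn g (Icc (0 : ℝ) 1 ×ˢ Icc (0 : ℝ) 1) (volume.prod volume) := by
    rw [← Measure.volume_eq_prod, ← Icc_unit]
    exact hg.continuousOn.integrableOn_compact isCompact_Icc
  have h2 : ∫ p in Icc (0 : P2) 1, g p =
      ∫ p in Icc (0 : ℝ) 1 ×ˢ Icc (0 : ℝ) 1, g (p.2, p.1) ∂(volume.prod volume) := by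
    rw [Icc_unit, Measure.volume_eq_prod]
    rw [setIntegral_prod _ h1, integral_integral_swap, setIntegral_prod]
    · rw [← Measure.volume_eq_prod, ← Icc_unit]
      exact (hg.comp continuous_swap).continuousOn.integrableOn_compact isCompact_Icc
    · rw [Measure.prod_restrict]
      exact h1
  have h3 : IntegrableOn (fun p : ℝ × ℝ => g (p.2, p.1)) (Icc (0 : ℝ) 1 ×ˢ Icc (0 : ℝ) 1)
      (volume.prod volume) := by
    rw [← Measure.volume_eq_prod, ← Icc_unit]
    exact (hg.comp continuous_swap).continuousOn.integrableOn_compact isCompact_Icc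
  rw [h2, setIntegral_prod _ h3,
    intervalIntegral.integral_of_le zero_le_one, integral_Icc_eq_integral_Ioc]
  refine setIntegral_congr_fun measurableSet_Ioc fun s _ => ?_
  simp only
  rw [intervalIntegral.integral_of_le zero_le_one, integral_Icc_eq_integral_Ioc]

/-- the mean of a derivative vanishes -/
theorem mean_ds [CompleteSpace E] {f : P2 → E} (hf : ContDiff ℝ ∞ f) (hp : Per f) :
    mean (ds f) = 0 := by
  rw [mean_eq' (H832.continuous_ds hf (by simp))]
  have h1 : ∀ t : ℝ, ∫ s in (0 : ℝ)..1, ds f (s, t) = 0 := by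
    intro t
    have h2 : ∀ s ∈ uIcc (0 : ℝ) 1, HasDerivAt (fun s : ℝ => f (s, t)) (ds f (s, t)) s := by
      intro s _
      have h3 : HasDerivAt (fun s : ℝ => ((s, t) : P2)) ((1 : ℝ), (0 : ℝ)) s :=
        (hasDerivAt_id s).prodMk (hasDerivAt_const s t)
      exact (hf.differentiable (by simp) (s, t)).hasFDerivAt.comp_hasDerivAt s h3
    rw [intervalIntegral.integral_eq_sub_of_hasDerivAt h2]
    · have h4 := hp 1 0 (0, t)
      simp only [Int.cast_one, Int.cast_zero, zero_add, add_zero] at h4
      rw [h4, sub_self]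
    · exact ((H832.continuous_ds hf (by simp)).comp
        (continuous_id.prodMk continuous_const)).intervalIntegrable _ _
  simp [h1]

theorem mean_dt [CompleteSpace E] {f : P2 → E} (hf : ContDiff ℝ ∞ f) (hp : Per f) :
    mean (dt f) = 0 := by
  rw [mean_eq (H832.continuous_dt hf (by simp))]
  have h1 : ∀ s : ℝ, ∫ t in (0 : ℝ)..1, dt f (s, t) = 0 := by
    intro s
    have h2 : ∀ t ∈ uIcc (0 : ℝ) 1, HasDerivAt (fun t : ℝ => f (s, t)) (dt f (s, t)) t := by
      intro t _
      have h3 : HasDerivAt (fun t : ℝ => ((s, t) : P2)) ((0 : ℝ), (1 : ℝ)) t :=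
        (hasDerivAt_const t s).prodMk (hasDerivAt_id t)
      exact (hf.differentiable (by simp) (s, t)).hasFDerivAt.comp_hasDerivAt t h3
    rw [intervalIntegral.integral_eq_sub_of_hasDerivAt h2]
    · have h4 := hp 0 1 (s, 0)
      simp only [Int.cast_one, Int.cast_zero, zero_add, add_zero] at h4
      rw [h4, sub_self]
    · exact ((H832.continuous_dt hf (by simp)).comp
        (continuous_const.prodMk continuous_id)).intervalIntegrable _ _
  simp [h1]

/-- translation invariance of the mean -/
theorem mean_translate {g : P2 → E} (hg : Continuous g) (hp : Per g) (a : P2) :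
    mean (fun p => g (p + a)) = mean g := by
  have hg2 : Continuous fun p : P2 => g (p + a) := hg.comp (continuous_id.add continuous_const)
  rw [mean_eq hg2, mean_eq hg]
  have h1 : ∀ s : ℝ, ∫ t in (0 : ℝ)..1, g ((s, t) + a) = ∫ t in (0 : ℝ)..1, g (s + a.1, t) := by
    intro s
    have hper : Function.Periodic (fun t : ℝ => g (s + a.1, t)) 1 := by
      intro t
      have := hp 0 1 (s + a.1, t)
      simpa using this
    have h2 := intervalIntegral.integral_comp_add_right
      (fun t : ℝ => g (s + a.1, t)) a.2 (a := 0) (b := 1)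
    have h3 := hper.intervalIntegral_add_eq a.2 0
    have h4 : (fun t : ℝ => g ((s, t) + a)) = fun t : ℝ => g (s + a.1, t + a.2) := rfl
    rw [h4, h2, zero_add]
    rw [add_comm 1 a.2, h3, zero_add]
  simp only [h1]
  have hper : Function.Periodic (fun s : ℝ => ∫ t in (0 : ℝ)..1, g (s, t)) 1 := by
    intro s
    refine intervalIntegral.integral_congr fun t _ => ?_
    have := hp 1 0 (s, t)
    simpa using this
  have h2 := intervalIntegral.integral_comp_add_right
    (fun s : ℝ => ∫ t in (0 : ℝ)..1, g (s, t)) a.1 (a := 0) (b := 1)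
  have h3 := hper.intervalIntegral_add_eq a.1 0
  rw [h2, zero_add, add_comm 1 a.1, h3, zero_add]

theorem mean_const_mul {g : P2 → ℝ} (c : ℝ) : mean (fun p => c * g p) = c * mean g := by
  unfold mean
  exact integral_const_mul c _

theorem mean_clm {E' : Type*} [NormedAddCommGroup E'] [NormedSpace ℝ E'] [CompleteSpace E]
    [CompleteSpace E'] (L : E →L[ℝ] E') {g : P2 → E} (hg : Continuous g) :
    mean (fun p => L (g p)) = L (mean g) := by
  unfold mean
  exact L.integral_comp_comm (hg.continuousOn.integrableOn_compact isCompact_Icc)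

/-! ## Translations by lattice vectors -/

/-- the vector `k e₀ + l e₁` -/
def vv (k l : ℤ) : R4 := (k : ℝ) • e 0 + (l : ℝ) • e 1

theorem vv_zero (k l : ℤ) : vv k l 0 = k := by simp [vv, e]
theorem vv_one (k l : ℤ) : vv k l 1 = l := by simp [vv, e]
theorem vv_two (k l : ℤ) : vv k l 2 = 0 := by simp [vv, e]
theorem vv_three (k l : ℤ) : vv k l 3 = 0 := by simp [vv, e]

/-- as a translation by an integral vector -/
theorem add_vv (k l : ℤ) (x : R4) : x + vv k l = fun i => x i + ((![k, l, 0, 0] : Fin 4 → ℤ) i) := by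
  funext i
  fin_cases i
  · simp [vv_zero]
  · simp [vv_one]
  · simp [vv_two]
  · simp [vv_three]

theorem J_vv (D : Data) (k l : ℤ) (x : R4) : D.J (x + vv k l) = D.J x := by
  rw [add_vv]; exact D.J_per _ x

theorem lam_vv (η : CForm) (k l : ℤ) (x : R4) : η.lam (x + vv k l) = η.lam x := by
  rw [add_vv]; exact η.lam_per _ x

/-- translation of a map -/
def tr (k l : ℤ) (f : P2 → R4) (p : P2) : R4 := f p + vv k l

theorem phi_tr (k l : ℤ) (f : P2 → R4) (p : P2) : phi (tr k l f) p = phi f p + vv k l := by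
  unfold phi tr
  abel

theorem phi_tr' (k l : ℤ) (f : P2 → R4) : phi (tr k l f) = fun p => phi f p + vv k l := by
  funext p; exact phi_tr k l f p

theorem ds_phi_tr (k l : ℤ) (f : P2 → R4) : ds (phi (tr k l f)) = ds (phi f) := by
  funext p
  unfold ds
  rw [phi_tr', fderiv_add_const]

theorem dt_phi_tr (k l : ℤ) (f : P2 → R4) : dt (phi (tr k l f)) = dt (phi f) := by
  funext p
  unfold dt
  rw [phi_tr', fderiv_add_const]

theorem ds_tr (k l : ℤ) (f : P2 → R4) : ds (tr k l f) = ds f := by
  funext p
  unfold ds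
  have : tr k l f = fun p => f p + vv k l := rfl
  rw [this, fderiv_add_const]

theorem dt_tr (k l : ℤ) (f : P2 → R4) : dt (tr k l f) = dt f := by
  funext p
  unfold dt
  have : tr k l f = fun p => f p + vv k l := rfl
  rw [this, fderiv_add_const]

theorem JT_tr {D : Data} {f : P2 → R4} {τ : ℂ} (h : JT D f τ) (k l : ℤ) : JT D (tr k l f) τ where
  smooth := h.smooth.add contDiff_const
  per := fun m n p => by unfold tr; rw [h.per m n p]
  im_pos := h.im_pos
  eq := fun p => by
    rw [ds_phi_tr, dt_phi_tr, phi_tr, J_vv]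
    exact h.eq p

theorem Cen_tr {f : P2 → R4} (h : Cen f) (k l : ℤ) : Cen (tr k l f) := by
  have h2 : (fun p => tr k l f p 2) = fun p => f p 2 := by
    funext p
    show f p 2 + vv k l 2 = _
    rw [vv_two, add_zero]
  have h3 : (fun p => tr k l f p 3) = fun p => f p 3 := by
    funext p
    show f p 3 + vv k l 3 = _
    rw [vv_three, add_zero]
  refine ⟨?_, ?_⟩
  · rw [h2]; exact h.1
  · rw [h3]; exact h.2

theorem Imm_tr {f : P2 → R4} (h : Imm f) (k l : ℤ) : Imm (tr k l f) := fun p => by
  rw [ds_phi_tr]; exact h p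

theorem Inj_tr {f : P2 → R4} (h : Inj f) (k l : ℤ) : Inj (tr k l f) := fun p q hpq => by
  rw [phi_tr, phi_tr] at hpq
  exact h (add_right_cancel hpq)

theorem flux_tr (D : Data) {f : P2 → R4} (hf : ContDiff ℝ ∞ f) (hp : Per f) (k l : ℤ) :
    flux D (tr k l f) = flux D f + Lk D (vv k l) := by
  set η := D.η 0 with hη
  have hphi : ContDiff ℝ ∞ (phi f) := contDiff_phi hf
  have cds : Continuous (ds (phi f)) := by
    have := hphi.continuous_fderiv (by simp)
    unfold ds
    fun_prop
  have cdt : Continuous (dt (phi f)) := by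
    have := hphi.continuous_fderiv (by simp)
    unfold dt
    fun_prop
  have cdsf : Continuous (ds f) := H832.continuous_ds hf (by simp)
  have cdtf : Continuous (dt f) := H832.continuous_dt hf (by simp)
  have cf : Continuous f := hf.continuous
  have clam : Continuous fun p => η.lam (phi f p) :=
    η.lam_smooth.continuous.comp hphi.continuous
  have key : ∀ (e' : R4) (a b : P2 → R4), Continuous a → Continuous b → mean b = 0 →
      mean (fun p => η.lam (phi (tr k l f) p) (a p) - η.κ e' (tr k l f p)
        + (1 / 2) * η.κ (tr k l f p) (b p)) =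
      mean (fun p => η.lam (phi f p) (a p) - η.κ e' (f p) + (1 / 2) * η.κ (f p) (b p))
        + - η.κ e' (vv k l) := by
    intro e' a b ha hb hb0
    have h1 : (fun p => η.lam (phi (tr k l f) p) (a p) - η.κ e' (tr k l f p)
        + (1 / 2) * η.κ (tr k l f p) (b p)) = fun p =>
        (η.lam (phi f p) (a p) - η.κ e' (f p) + (1 / 2) * η.κ (f p) (b p)) +
        (- η.κ e' (vv k l) + (1 / 2) * η.κ (vv k l) (b p)) := by
      funext p
      rw [phi_tr, lam_vv]
      unfold tr
      rw [map_add, map_add, add_apply]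
      ring
    have c1 : Continuous fun p => η.lam (phi f p) (a p) := clam.clm_apply ha
    have c2 : Continuous fun p => η.κ e' (f p) := (η.κ e').continuous.comp cf
    have c3 : Continuous fun p => η.κ (f p) (b p) := (η.κ.continuous.comp cf).clm_apply hb
    have c4 : Continuous fun p => η.κ (vv k l) (b p) := (η.κ (vv k l)).continuous.comp hb
    have c5 : Continuous fun p => η.lam (phi f p) (a p) - η.κ e' (f p)
        + (1 / 2) * η.κ (f p) (b p) := (c1.sub c2).add (continuous_const.mul c3)
    have c7 : Continuous fun p => (1 / 2) * η.κ (vv k l) (b p) := continuous_const.mul c4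
    have c6 : Continuous fun p => - η.κ e' (vv k l) + (1 / 2) * η.κ (vv k l) (b p) :=
      continuous_const.add c7
    rw [h1, mean_add c5 c6]
    congr 1
    rw [mean_add continuous_const c7, mean_const, mean_const_mul,
      mean_clm _ hb, hb0, map_zero, mul_zero, add_zero]
  unfold flux
  rw [ds_phi_tr, dt_phi_tr, ds_tr, dt_tr]
  ext
  · exact key (e 2) _ _ cds cdsf (mean_ds hf hp)
  · exact key (e 3) _ _ cdt cdtf (mean_dt hf hp)

end Vale.Agent.P247.H743
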